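import Vale.Agent.P210.TP.Props2
import Mathlib.Analysis.Matrix.Spectrum
import Mathlib.Analysis.Matrix.PosDef

set_option linter.all false

/-! P210, stage 2, blocks ALG2 and QUAD: linear algebra. -/

open scoped ENNReal ContDiff
open MeasureTheory Set

namespace Vale.Agent.P210.TP

section

variable {n : ℕ} {A : Matrix (Fin n) (Fin n) ℝ}

lemma ip_self_nonneg (hA : A.PosDef) (q : Fin n → ℝ) : 0 ≤ ip A q q := by
  have h1 := hA.inv.posSemidef.dotProduct_mulVec_nonneg q
  unfold ip
  simp only [dotProduct, Matrix.mulVec, Finset.mul_sum, star_trivial, Pi.star_apply] at h1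
  refine h1.trans (le_of_eq ?_)
  refine Finset.sum_congr rfl fun i _ => Finset.sum_congr rfl fun j _ => ?_
  ring

lemma inv_symm (hA : A.PosDef) (i j : Fin n) : A⁻¹ i j = A⁻¹ j i := by
  have h1 := hA.inv.isHermitian
  have h2 := congrFun (congrFun h1.eq j) i
  simpa [Matrix.conjTranspose_apply] using h2

lemma ip_comm (hA : A.PosDef) (p q : Fin n → ℝ) : ip A p q = ip A q p := by
  unfold ip
  rw [Finset.sum_comm]
  refine Finset.sum_congr rfl fun i _ => Finset.sum_congr rfl fun j _ => ?_
  rw [inv_symm hA j i]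
  ring

lemma ip_comb (c d : ℝ) (p u : Fin n → ℝ) :
    ip A (fun i => c * p i + d * u i) (fun i => c * p i + d * u i)
      = c ^ 2 * ip A p p + c * d * ip A p u + c * d * ip A u p + d ^ 2 * ip A u u := by
  unfold ip
  simp only [Finset.mul_sum, ← Finset.sum_add_distrib]
  refine Finset.sum_congr rfl fun i _ => Finset.sum_congr rfl fun j _ => ?_
  ring

end

theorem quad : QUAD := by
  intro n hn s hs hs2
  refine ⟨((n : ℝ) - 1 - (s + 1) ^ 2) / 2, by linarith, ?_⟩
  intro A hA p u β hβ
  have h1 := ip_self_nonneg hA (fun i => (β + 1) * p i + (-1) * u i)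
  rw [ip_comb] at h1
  have h2 : ip A (fun i => p i - u i) (fun i => p i - u i)
      = ip A p p - ip A p u - ip A u p + ip A u u := by
    have h3 := ip_comb (A := A) 1 (-1) p u
    have h4 : (fun i => p i - u i) = fun i => (1 : ℝ) * p i + (-1) * u i := by
      funext i; ring
    rw [h4, h3]
    ring
  rw [h2]
  have h5 := ip_comm hA p u
  have h6 := ip_self_nonneg hA p
  have h7 : (β + 1) ^ 2 ≤ (s + 1) ^ 2 := by
    have := hβ.1
    have := hβ.2
    nlinarith
  rw [← h5] at h1 ⊢
  nlinarith [mul_le_mul_of_nonneg_right h7 h6]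

theorem alg2 : ALG2 := by
  classical
  intro n K A hK hA hp
  have hH : A.IsHermitian := hA.isHermitian
  have heig : ∀ i, (K ^ 2)⁻¹ ≤ hH.eigenvalues i ∧ hH.eigenvalues i ≤ K ^ 2 := by
    intro i
    set v : EuclideanSpace ℝ (Fin n) := hH.eigenvectorBasis i with hv
    have hnorm : ∑ j, (v j) ^ 2 = 1 := by
      have h1 : ‖v‖ = 1 := hH.eigenvectorBasis.orthonormal.1 i
      rw [EuclideanSpace.norm_eq, Real.sqrt_eq_one] at h1
      simpa using h1
    have hmul : A.mulVec (fun j => v j) = hH.eigenvalues i • (fun j => v j) :=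
      hH.mulVec_eigenvectorBasis i
    have hq : ∑ a, ∑ b, A a b * v a * v b = hH.eigenvalues i := by
      have h2 : ∀ a, ∑ b, A a b * v a * v b = v a * (A.mulVec (fun j => v j)) a := by
        intro a
        simp only [Matrix.mulVec, dotProduct, Finset.mul_sum]
        refine Finset.sum_congr rfl fun b _ => ?_
        ring
      simp only [h2, hmul, Pi.smul_apply, smul_eq_mul]
      have h3 : ∀ a, v a * (hH.eigenvalues i * v a) = hH.eigenvalues i * (v a) ^ 2 := by
        intro a; ring
      simp only [h3, ← Finset.mul_sum, hnorm, mul_one]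
    have h4 := hp (fun j => v j)
    rw [hq, hnorm, mul_one, mul_one] at h4
    exact h4
  have hdet : A.det = ∏ i, hH.eigenvalues i := by
    have h := hH.det_eq_prod_eigenvalues
    simpa using h
  have hK2 : 0 < K ^ 2 := by positivity
  have hlow : ((K ^ n)⁻¹) ^ 2 ≤ A.det := by
    rw [hdet]
    calc ((K ^ n)⁻¹) ^ 2 = ∏ _i : Fin n, (K ^ 2)⁻¹ := by
          rw [Finset.prod_const, Finset.card_univ, Fintype.card_fin]
          rw [← inv_pow, ← inv_pow, ← pow_mul, ← pow_mul, mul_comm]
      _ ≤ _ := Finset.prod_le_prod (fun i _ => (inv_pos.mpr hK2).le) fun i _ => (heig i).1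
  have hup : A.det ≤ (K ^ n) ^ 2 := by
    rw [hdet]
    calc ∏ i, hH.eigenvalues i ≤ ∏ _i : Fin n, K ^ 2 :=
          Finset.prod_le_prod (fun i _ => (inv_pos.mpr hK2).le.trans (heig i).1)
            fun i _ => (heig i).2
      _ = _ := by
          rw [Finset.prod_const, Finset.card_univ, Fintype.card_fin, ← pow_mul, ← pow_mul, mul_comm]
  refine ⟨?_, ?_, ?_⟩
  · exact Real.le_sqrt_of_sq_le hlow
  · exact Real.sqrt_le_iff.mpr ⟨by positivity, hup⟩
  · intro p
    set q : Fin n → ℝ := fun j => ∑ i, A⁻¹ i j * p i with hqdef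
    have hq1 : q = A⁻¹.mulVec p := by
      funext j
      simp only [hqdef, Matrix.mulVec, dotProduct]
      refine Finset.sum_congr rfl fun i _ => ?_
      rw [inv_symm hA i j]
    have hu : IsUnit A.det := isUnit_iff_ne_zero.mpr hA.det_pos.ne'
    have hAq : A.mulVec q = p := by
      rw [hq1, Matrix.mulVec_mulVec, Matrix.mul_nonsing_inv _ hu, Matrix.one_mulVec]
    have h1 := (hp q).1
    rw [inv_mul_le_iff₀ hK2] at h1
    have h2 : ∑ i, ∑ j, A i j * q i * q j = ip A p p := by
      have h3 : ∀ i, ∑ j, A i j * q i * q j = q i * p i := by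
        intro i
        rw [← congrFun hAq i]
        simp only [Matrix.mulVec, dotProduct, Finset.mul_sum]
        refine Finset.sum_congr rfl fun j _ => ?_
        ring
      simp only [h3]
      unfold ip
      rw [Finset.sum_comm]
      refine Finset.sum_congr rfl fun j _ => ?_
      rw [hqdef]
      simp only [Finset.sum_mul]
    rw [h2] at h1
    exact h1

end Vale.Agent.P210.TP
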