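import Vale.Agent.P210.TP.Props2
import Mathlib.Analysis.Matrix.Spectrum
import Mathlib.Analysis.Matrix.PosDef

/-! Blocks [ALG2] and [QUAD]. -/

set_option linter.all false

open scoped ENNReal ContDiff
open MeasureTheory Set

namespace Vale.Agent.P210.TP

section

variable {ι : Type} [Fintype ι] [DecidableEq ι]

lemma inv_symm_apply {A : Matrix ι ι ℝ} (hA : A.PosDef) (i j : ι) : A⁻¹ i j = A⁻¹ j i := by
  have h := hA.isHermitian.inv.apply i j
  simpa using h.symm

lemma quad_eq (B : Matrix ι ι ℝ) (p q : ι → ℝ) :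
    p ⬝ᵥ (B.mulVec q) = ∑ i, ∑ j, B i j * p i * q j := by
  simp only [dotProduct, Matrix.mulVec]
  apply Finset.sum_congr rfl
  intro i _
  rw [Finset.mul_sum]
  exact Finset.sum_congr rfl fun j _ => by ring

lemma ip_eq (A : Matrix ι ι ℝ) (p q : ι → ℝ) : ip A p q = p ⬝ᵥ (A⁻¹.mulVec q) := by
  rw [quad_eq]
  rfl

lemma ip_comm {A : Matrix ι ι ℝ} (hA : A.PosDef) (p q : ι → ℝ) : ip A p q = ip A q p := by
  unfold ip
  rw [Finset.sum_comm]
  apply Finset.sum_congr rfl
  intro i _
  apply Finset.sum_congr rfl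
  intro j _
  rw [inv_symm_apply hA j i]
  ring

lemma ip_nonneg {A : Matrix ι ι ℝ} (hA : A.PosDef) (p : ι → ℝ) : 0 ≤ ip A p p := by
  have h := hA.inv.posSemidef.dotProduct_mulVec_nonneg p
  rw [ip_eq]
  simpa using h

lemma ip_comb (A : Matrix ι ι ℝ) (p w : ι → ℝ) (β : ℝ) :
    ip A (fun i => w i + β * p i) (fun i => w i + β * p i)
      = ip A w w + β * (ip A w p + ip A p w) + β ^ 2 * ip A p p := by
  unfold ip
  simp only [Finset.mul_sum, ← Finset.sum_add_distrib]
  apply Finset.sum_congr rfl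
  intro i _
  apply Finset.sum_congr rfl
  intro j _
  ring

lemma ip_sub_right (A : Matrix ι ι ℝ) (p u : ι → ℝ) :
    ip A p (fun i => p i - u i) = ip A p p - ip A p u := by
  unfold ip
  simp only [← Finset.sum_sub_distrib]
  apply Finset.sum_congr rfl
  intro i _
  apply Finset.sum_congr rfl
  intro j _
  ring

end

/-- [QUAD] -/
theorem quad : QUAD := by
  intro n hn s hs hs2
  refine ⟨(((n : ℝ) - 1) - (s + 1) ^ 2) / 2, by linarith, ?_⟩
  intro A hA p u β hβ
  set w : Fin n → ℝ := fun i => p i - u i with hw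
  have h1 := ip_nonneg hA (fun i => w i + β * p i)
  rw [ip_comb, ip_comm hA w p] at h1
  have h2 : ip A p w = ip A p p - ip A p u := ip_sub_right A p u
  have h3 : (β + 1) ^ 2 ≤ (s + 1) ^ 2 := by
    rw [sq_le_sq, abs_of_pos (by linarith : (0 : ℝ) < s + 1), abs_le]
    constructor <;> linarith [hβ.1, hβ.2]
  have h4 := ip_nonneg hA p
  have h5 : ((β + 1) ^ 2) * ip A p p ≤ (s + 1) ^ 2 * ip A p p :=
    mul_le_mul_of_nonneg_right h3 h4
  rw [h2] at h1
  nlinarith

/-- [ALG2] -/
theorem alg2 : ALG2 := by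
  intro n K A hK hA hP
  have hH := hA.isHermitian
  have hquad : ∀ v : Fin n → ℝ, v ⬝ᵥ (A.mulVec v) = ∑ i, ∑ j, A i j * v i * v j :=
    fun v => quad_eq A v v
  have hev : ∀ i, (K ^ 2)⁻¹ ≤ hH.eigenvalues i ∧ hH.eigenvalues i ≤ K ^ 2 := by
    intro i
    set v : Fin n → ℝ := (hH.eigenvectorBasis i).ofLp with hv
    have h1 : A.mulVec v = hH.eigenvalues i • v := hH.mulVec_eigenvectorBasis i
    have h2 : ∑ j, v j ^ 2 = 1 := by
      have h3 : ‖hH.eigenvectorBasis i‖ = 1 := (hH.eigenvectorBasis).orthonormal.1 i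
      have h4 := EuclideanSpace.norm_sq_eq (hH.eigenvectorBasis i)
      rw [h3] at h4
      simpa [hv] using h4.symm
    have h5 : v ⬝ᵥ (A.mulVec v) = hH.eigenvalues i := by
      rw [h1, dotProduct_smul]
      have : v ⬝ᵥ v = 1 := by
        rw [← h2]
        simp only [dotProduct]
        exact Finset.sum_congr rfl fun j _ => by ring
      rw [this, smul_eq_mul, mul_one]
    have h6 := hP v
    rw [← hquad v, h5, h2, mul_one, mul_one] at h6
    exact h6
  have hdet : A.det = ∏ i, hH.eigenvalues i := by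
    have := hH.det_eq_prod_eigenvalues
    simpa using this
  have hK2 : (0 : ℝ) < K ^ 2 := by positivity
  have hlow : ((K ^ n)⁻¹) ^ 2 ≤ A.det := by
    rw [hdet]
    calc ((K ^ n)⁻¹) ^ 2 = ∏ _i : Fin n, (K ^ 2)⁻¹ := by
          rw [Finset.prod_const, Finset.card_univ, Fintype.card_fin, inv_pow, inv_pow,
            ← pow_mul, ← pow_mul, mul_comm]
      _ ≤ ∏ i, hH.eigenvalues i :=
          Finset.prod_le_prod (fun i _ => by positivity) fun i _ => (hev i).1
  have hup : A.det ≤ (K ^ n) ^ 2 := by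
    rw [hdet]
    calc ∏ i, hH.eigenvalues i ≤ ∏ _i : Fin n, K ^ 2 :=
          Finset.prod_le_prod (fun i _ => (le_trans (by positivity) (hev i).1)) fun i _ => (hev i).2
      _ = (K ^ n) ^ 2 := by
          rw [Finset.prod_const, Finset.card_univ, Fintype.card_fin, ← pow_mul, ← pow_mul, mul_comm]
  refine ⟨Real.le_sqrt_of_sq_le hlow, ?_, ?_⟩
  · rw [Real.sqrt_le_left (by positivity)]
    exact hup
  · intro p
    set q : Fin n → ℝ := A⁻¹.mulVec p with hq
    have h1 : ∀ j, ∑ i, A⁻¹ i j * p i = q j := by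
      intro j
      rw [hq, Matrix.mulVec, dotProduct]
      exact Finset.sum_congr rfl fun i _ => by rw [inv_symm_apply hA i j]
    simp only [h1]
    have h2 : A.mulVec q = p := by
      rw [hq, Matrix.mulVec_mulVec, Matrix.mul_nonsing_inv _ (hA.isUnit.map Matrix.detMonoidHom),
        Matrix.one_mulVec]
    have h3 : q ⬝ᵥ (A.mulVec q) = ip A p p := by
      rw [h2, ip_eq, ← hq, dotProduct_comm]
    have h4 := (hP q).1
    rw [← hquad q, h3, inv_mul_le_iff₀ hK2] at h4
    exact h4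

end Vale.Agent.P210.TP
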