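import Vale.Agent.P210.TP.Props

/-! Block [PROD3]: `core` with locally finite barycentric coordinates as output. -/

set_option linter.all false

open scoped ENNReal ContDiff Topology
open MeasureTheory Set

namespace Vale.Agent.P210.TP

/-- locally finite continuous families without high ties give barycentric coordinates -/
theorem exists_bary {X V : Type} [TopologicalSpace X] (k : ℕ) (U : V → X → ℝ)
    (hc : ∀ p, Continuous (U p)) (hfin : LocallyFinite fun p => Function.support (U p))
    (hpos : ∀ x, ∃ p, 0 < U p x)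
    (hties : ∀ x (S : Finset V), S.card = k + 2 → (∀ p ∈ S, 0 < U p x) →
      (∀ p ∈ S, ∀ q ∈ S, U p x = U q x) → False) :
    ∃ lam : V → X → ℝ, Bary X V k lam ∧ ∀ x p, 0 < lam p x → 0 < U p x := by
  classical
  have hthrc : Continuous (thr k U) := continuous_thr hc hfin
  have hsf : ∀ x, {p | thr k U x < U p x}.Finite := fun x => finite_lt hfin x (thr_nonneg x)
  set s : X → Finset V := fun x => (hsf x).toFinset with hs
  have hmem : ∀ x p, p ∈ s x ↔ thr k U x < U p x := by
    intro x p
    simp [hs]
  have hscard : ∀ x, (s x).card ≤ k + 1 := fun x =>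
    thr_card hfin x (s x) fun p hp => (hmem x p).1 hp
  have hsne : ∀ x, (s x).Nonempty := by
    intro x
    obtain ⟨p, hp⟩ := exists_thr_lt hfin hpos hties x
    exact ⟨p, (hmem x p).2 hp⟩
  set F : V → X → ℝ := fun p x => max 0 (U p x - thr k U x) with hF
  have hFc : ∀ p, Continuous (F p) := fun p => continuous_const.max ((hc p).sub hthrc)
  have hF0 : ∀ p x, 0 ≤ F p x := fun p x => le_max_left _ _
  have hFpos : ∀ p x, p ∈ s x → 0 < F p x := by
    intro p x hp
    have := (hmem x p).1 hp
    exact lt_max_of_lt_right (by linarith)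
  have hFzero : ∀ p x, p ∉ s x → F p x = 0 := by
    intro p x hp
    rw [hmem, not_lt] at hp
    exact max_eq_left (by linarith)
  set D : X → ℝ := fun x => ∑ᶠ p, F p x with hD
  have hFlf : LocallyFinite fun p => Function.support (F p) := by
    refine hfin.subset fun p x hx => ?_
    rw [Function.mem_support] at hx ⊢
    intro hU
    apply hx
    rw [hF]
    simp only [hU]
    exact max_eq_left (by linarith [thr_nonneg (k := k) (U := U) x])
  have hDc : Continuous D := continuous_finsum hFc hFlf
  have hDs : ∀ x (S : Finset V), s x ⊆ S → D x = ∑ p ∈ S, F p x := by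
    intro x S hS
    apply finsum_eq_sum_of_support_subset
    intro p hp
    rw [Function.mem_support] at hp
    by_contra hcon
    exact hp (hFzero p x fun h => hcon (hS h))
  have hDpos : ∀ x, 0 < D x := by
    intro x
    rw [hDs x (s x) subset_rfl]
    exact Finset.sum_pos (fun p hp => hFpos p x hp) (hsne x)
  refine ⟨fun p x => F p x / D x, ⟨?_, ?_, ?_, ?_, ?_⟩, ?_⟩
  · exact fun p => (hFc p).div hDc fun x => (hDpos x).ne'
  · exact fun p x => div_nonneg (hF0 p x) (hDpos x).le
  · refine hFlf.subset fun p x hx => ?_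
    rw [Function.mem_support] at hx ⊢
    intro h0
    exact hx (by rw [h0, zero_div])
  · intro x
    have h1 : ∑ᶠ p, F p x / D x = ∑ p ∈ s x, F p x / D x := by
      apply finsum_eq_sum_of_support_subset
      intro p hp
      rw [Function.mem_support] at hp
      by_contra hcon
      exact hp (by rw [hFzero p x fun h => hcon h, zero_div])
    rw [h1, ← Finset.sum_div, ← hDs x (s x) subset_rfl, div_self (hDpos x).ne']
  · intro x
    have hsub : {p | F p x / D x ≠ 0} ⊆ (s x : Set V) := by
      intro p hp
      by_contra hcon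
      exact hp (by rw [hFzero p x fun h => hcon h, zero_div])
    refine (Set.ncard_le_ncard hsub (s x).finite_toSet).trans ?_
    rw [Set.ncard_coe_finset]
    exact hscard x
  · intro x p hp
    change 0 < F p x / D x at hp
    have hFp : 0 < F p x := by
      rcases (hF0 p x).eq_or_lt with h | h
      · rw [← h, zero_div] at hp
        exact absurd hp (lt_irrefl _)
      · exact h
    have hps : p ∈ s x := by
      by_contra hcon
      rw [hFzero p x hcon] at hFp
      exact lt_irrefl _ hFp
    rw [hmem] at hps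
    exact lt_of_le_of_lt (thr_nonneg x) hps

/-- [PROD3] -/
theorem prod3 : PROD3 := by
  classical
  intro n k hn hk b A hb hbk hA
  have hsq : 1 ≤ Real.sqrt n := by
    rw [Real.one_le_sqrt]
    exact_mod_cast hn
  obtain ⟨C₀, hC₀, hpair⟩ := good_pair n hn
  obtain ⟨Lam, hLam, hgen⟩ := exists_generic n k hn hk b A (8 * Real.sqrt n) hb.le hbk hA
    (by linarith)
  refine ⟨C₀ * Lam, by positivity, ?_⟩
  intro Ω W h
  obtain ⟨c, hc, hgc⟩ := hgen W h.meas h.energy
  have hlam : (0 : ℝ) < 8 * Real.sqrt n := by positivity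
  obtain ⟨T, hT, hTprop⟩ := exists_scale hn hb h hlam hLam
  have hTc : Continuous (fun x : Ω => T x) := continuousOn_iff_continuous_domRestrict.mp hT
  obtain ⟨lam, hlamB, hfU⟩ := exists_bary (X := Ω) (V := Vtx n) k
    (fun p x => Ufun T c p x)
    (by
      intro p
      have h1 : Continuous (fun x : Ω => hat p (x : E n)) :=
        (continuous_hat p).comp continuous_subtype_val
      have h2 : Continuous (fun x : Ω => |T x - ((p.2 : ℝ) - 1)|) :=
        (hTc.sub continuous_const).abs
      exact (continuous_const.max (continuous_const.sub h2)).mul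
        (continuous_const.max (h1.sub continuous_const)))
    (locallyFinite_Ufun hn T hT c hc)
    (fun x => exists_Ufun_pos hn T c hc x)
    (by
      intro x S hS hpos heq
      have hne : S.Nonempty := by
        rw [← Finset.card_pos]; omega
      obtain ⟨q, hq, hqmax⟩ := Finset.exists_max_image S (fun p => p.2) hne
      have hTq := (Ufun_pos (hpos q hq)).1
      rw [abs_lt] at hTq
      have hlev : ∀ p ∈ S, p.2 = q.2 ∨ p.2 = q.2 - 1 := by
        intro p hp
        have hTp := (Ufun_pos (hpos p hp)).1
        rw [abs_lt] at hTp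
        have h1 : p.2 ≤ q.2 := hqmax p hp
        have h2 : (q.2 : ℝ) - p.2 < 2 := by linarith
        have h3 : q.2 - p.2 < 2 := by exact_mod_cast h2
        omega
      have hle := hgc x q.2 S hS hlev
        (fun p hp => lt_of_le_of_lt (hc p).1 (Ufun_pos (hpos p hp)).2)
        (by
          intro p hp p' hp' hpp
          have e1 := heq p hp p' hp'
          rw [Ufun_eq (hpos p hp), Ufun_eq (hpos p' hp'), ← hpp] at e1
          have h1 := (Ufun_pos (hpos p hp)).1
          exact mul_left_cancel₀ (by linarith) e1)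
      have hlt := (hTprop x x.2 (q.2 : ℝ)).1 (by linarith)
      rw [Real.rpow_intCast] at hlt
      exact absurd hle (not_le.mpr hlt))
  refine ⟨lam, hlamB, ?_⟩
  intro x y hxy
  obtain ⟨p, hp⟩ : ∃ p, 0 < lam p x := by
    by_contra hcon
    push Not at hcon
    have h1 : ∀ p, lam p x = 0 := fun p => le_antisymm (hcon p) (hlamB.nonneg p x)
    have h2 := hlamB.sum x
    rw [finsum_congr h1, finsum_zero] at h2
    exact zero_ne_one h2
  have hUx := hfU x p hp
  have hUy := hfU y p (by rw [← hxy]; exact hp)
  obtain ⟨hx1, hx2⟩ := Ufun_pos hUx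
  obtain ⟨hy1, hy2⟩ := Ufun_pos hUy
  rw [abs_lt] at hx1 hy1
  have hdx := dist_lt_of_hat_pos hn p p.2 le_rfl x (lt_of_le_of_lt (hc p).1 hx2)
  have hdy := dist_lt_of_hat_pos hn p p.2 le_rfl y (lt_of_le_of_lt (hc p).1 hy2)
  have hpx := (hTprop x x.2 ((p.2 : ℝ) - 2)).2 (by linarith)
  have hpy := (hTprop y y.2 ((p.2 : ℝ) - 2)).2 (by linarith)
  have hR : 8 * Real.sqrt n * (2 : ℝ) ^ ((p.2 : ℝ) - 2) = 2 * (Real.sqrt n * (2 : ℝ) ^ p.2) := by
    rw [Real.rpow_sub (by norm_num), Real.rpow_intCast]
    norm_num
    ring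
  refine hpair Ω W b A h x x.2 y y.2 (8 * Real.sqrt n * (2 : ℝ) ^ ((p.2 : ℝ) - 2)) Lam
    (by positivity) hLam ?_ hpx.le hpy.le
  rw [hR]
  calc ‖(x : E n) - y‖ = ‖((x : E n) - vpos p) - ((y : E n) - vpos p)‖ := by congr 1; abel
    _ ≤ ‖(x : E n) - vpos p‖ + ‖(y : E n) - vpos p‖ := norm_sub_le _ _
    _ ≤ 2 * (Real.sqrt n * (2 : ℝ) ^ p.2) := by linarith

end Vale.Agent.P210.TP
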