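import Vale.Agent.P210.TP.Leaf210
import Vale.Agent.P210.TP.Prod3_646
import Vale.Agent.P210.Energy646

set_option linter.all false

/-! P210: assembly of the twisted product theorem from the blocks. -/

open scoped ENNReal ContDiff
open MeasureTheory Set

namespace Vale.Agent.P210.TP

/-! ### congruence lemmas -/

section Congr

variable {ι : Type} [Fintype ι] [DecidableEq ι]

lemma tpd_congr_on {Ω : Set (EI ι)} (hΩ : IsOpen Ω) {f f' : EI ι → ℝ}
    (h : ∀ y ∈ Ω, f y = f' y) (i : ι) {x : EI ι} (hx : x ∈ Ω) : pd i f x = pd i f' x := by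
  unfold pd
  have h1 : f =ᶠ[nhds x] f' := by
    filter_upwards [hΩ.mem_nhds hx] with y hy using h y hy
  rw [h1.fderiv_eq]

lemma tchristoffel_congr {Ω : Set (EI ι)} (hΩ : IsOpen Ω)
    {g g' : EI ι → Matrix ι ι ℝ} (h : ∀ y ∈ Ω, g y = g' y) (k i j : ι) {x : EI ι}
    (hx : x ∈ Ω) : christoffel g k i j x = christoffel g' k i j x := by
  unfold christoffel
  have hp : ∀ m a b, pd m (fun y => g y a b) x = pd m (fun y => g' y a b) x := fun m a b =>
    tpd_congr_on hΩ (fun y hy => by rw [h y hy]) m hx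
  simp only [hp, h x hx]

lemma tscal_congr {Ω : Set (EI ι)} (hΩ : IsOpen Ω)
    {g g' : EI ι → Matrix ι ι ℝ} (h : ∀ y ∈ Ω, g y = g' y) {x : EI ι}
    (hx : x ∈ Ω) : scal g x = scal g' x := by
  unfold scal ricci
  have hp : ∀ m k i j, pd m (christoffel g k i j) x = pd m (christoffel g' k i j) x :=
    fun m k i j => tpd_congr_on hΩ (fun y hy => tchristoffel_congr hΩ h k i j hy) m hx
  have hc : ∀ k i j, christoffel g k i j x = christoffel g' k i j x :=
    fun k i j => tchristoffel_congr hΩ h k i j hx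
  simp only [hp, hc, h x hx]

lemma tlen_congr {Ω : Set (EI ι)}
    {g g' : EI ι → Matrix ι ι ℝ} (h : ∀ y ∈ Ω, g y = g' y) {γ : ℝ → EI ι}
    (hγ : ∀ t ∈ Icc (0 : ℝ) 1, γ t ∈ Ω) : len g γ = len g' γ := by
  unfold len
  apply setLIntegral_congr_fun measurableSet_Icc
  intro t ht
  simp only [h _ (hγ t ht)]

lemma trdist_congr {Ω : Set (EI ι)}
    {g g' : EI ι → Matrix ι ι ℝ} (h : ∀ y ∈ Ω, g y = g' y) :
    rdist Ω g = rdist Ω g' := by
  funext x y
  unfold rdist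
  congr 1
  funext γ
  apply iInf_congr
  intro hγ
  exact tlen_congr h hγ.mem

end Congr

/-! ### comparison with the definitions for `Fin n` -/

lemma isCurve_iff {n : ℕ} {Ω : Set (E n)} {x y : E n} {γ : ℝ → E n} :
    IsCurve (ι := Fin n) Ω x y γ ↔ Vale.Agent.P210.IsCurve Ω x y γ :=
  ⟨fun h => ⟨h.source, h.target, h.cont, h.mem, h.c1⟩,
    fun h => ⟨h.source, h.target, h.cont, h.mem, h.c1⟩⟩

lemma rdist_eq {n : ℕ} (Ω : Set (E n)) (g : E n → Matrix (Fin n) (Fin n) ℝ) :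
    rdist (ι := Fin n) Ω g = Vale.Agent.P210.rdist Ω g := by
  funext x y
  unfold rdist Vale.Agent.P210.rdist
  refine iInf_congr fun γ => ?_
  exact iInf_congr_Prop isCurve_iff fun _ => rfl

lemma isCompleteOn_iff {n : ℕ} (Ω : Set (E n)) (g : E n → Matrix (Fin n) (Fin n) ℝ) :
    IsCompleteOn (ι := Fin n) Ω g ↔ Vale.Agent.P210.IsCompleteOn Ω g := by
  unfold IsCompleteOn Vale.Agent.P210.IsCompleteOn
  rw [rdist_eq]

/-! ### barycentric coordinates -/

lemma Bary.comp {X Y V : Type} [TopologicalSpace X] [TopologicalSpace Y] {k : ℕ}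
    {lam : V → X → ℝ} (h : Bary X V k lam) {g : Y → X} (hg : Continuous g) :
    Bary Y V k (fun v y => lam v (g y)) := by
  refine ⟨fun v => (h.cont v).comp hg, fun v y => h.nonneg v (g y), ?_, fun y => h.sum (g y),
    fun y => h.card (g y)⟩
  have h1 := h.fin.preimage_continuous hg
  exact h1

theorem prodN (h1 : PROD1) : ∀ (N : ℕ) (X V : Type) [TopologicalSpace X] (k : ℕ)
    (lam : V → X → ℝ), Bary X V k lam → ∀ t : Fin N → X → ℝ, (∀ i, Continuous (t i)) →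
    ∃ (V' : Type) (mu : V' → X → ℝ), Bary X V' (k + N) mu ∧
      ∀ x y, (∀ p, mu p x = mu p y) → (∀ v, lam v x = lam v y) ∧ ∀ i, t i x = t i y := by
  intro N
  induction N with
  | zero =>
    intro X V _ k lam hlam t _
    exact ⟨V, lam, hlam, fun x y hxy => ⟨hxy, fun i => i.elim0⟩⟩
  | succ N ih =>
    intro X V _ k lam hlam t ht
    obtain ⟨V', mu, hmu, hmu2⟩ := ih X V k lam hlam (fun i => t i.castSucc) (fun i => ht _)
    obtain ⟨nu, hnu, hnu2⟩ := h1 X V' (k + N) mu hmu (t (Fin.last N)) (ht _)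
    refine ⟨V' × ℤ, nu, hnu, ?_⟩
    intro x y hxy
    obtain ⟨h2, h3⟩ := hnu2 x y hxy
    obtain ⟨h4, h5⟩ := hmu2 x y h2
    refine ⟨h4, fun i => ?_⟩
    refine Fin.lastCases ?_ (fun j => ?_) i
    · exact h3
    · exact h5 j

/-! ### main step -/

lemma differentiableAt_of_smoothOn {n : ℕ} {Ω : Set (E n)} {f : E n → ℝ} (hΩ : IsOpen Ω)
    (hf : ContDiffOn ℝ ∞ f Ω) {x : E n} (hx : x ∈ Ω) : DifferentiableAt ℝ f x :=
  (hf.contDiffAt (hΩ.mem_nhds hx)).differentiableAt (by simp)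

theorem ineq_of_scal (hSC : SC) (hSCs : SCsmooth) {n N : ℕ} (hn : 3 ≤ n)
    {Ω : Set (EI (Fin n))} {F : Set (EI (Fin N))} {f : EI (Fin n) → ℝ}
    {h : EI (Fin n) → EI (Fin N) → Matrix (Fin N) (Fin N) ℝ} (hΩ : IsOpen Ω) (hF : IsOpen F)
    (hf : ContDiffOn ℝ ∞ f Ω) (hG : IsRiemMetricOn (prod Ω F) (block (conf f) h))
    {y : EI (Fin N)} (hy : y ∈ F) (hh : ∀ x ∈ Ω, scal (h x) y ≤ 1 / 2)
    (hs : ∀ z ∈ prod Ω F, 1 ≤ scal (block (conf f) h) z) :
    ∀ x ∈ Ω, 1 / (4 * ((n : ℝ) - 1)) * Real.exp (2 * f x) ≤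
      -(∑ i, Vale.Agent.P210.pd i
          (fun x' => Vale.Agent.P210.pd i f x' + tau h y i x' / ((n : ℝ) - 1)) x
        + ((n : ℝ) - 2) / 2 * ∑ i, (Vale.Agent.P210.pd i f x + tau h y i x / ((n : ℝ) - 1)) ^ 2
        + (1 / 2) * ∑ i, ((Vale.Agent.P210.pd i f x + tau h y i x / ((n : ℝ) - 1))
          - Vale.Agent.P210.pd i f x) ^ 2) := by
  intro x hx
  have hn' : (3 : ℝ) ≤ n := by exact_mod_cast hn
  have hN1 : (0 : ℝ) < (n : ℝ) - 1 := by linarith
  have hz : mk x y ∈ prod Ω F := ⟨by simpa using hx, by simpa using hy⟩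
  have h1 := hs _ hz
  have h2 := hSC n N Ω F f h hΩ hF hf hG _ hz
  rw [fst_mk, snd_mk] at h2
  have h3 := hh x hx
  set S1 := ∑ i, pd i (pd i f) x with hS1
  set S2 := ∑ i, (pd i f x) ^ 2 with hS2
  set S3 := ∑ i, pd i (tau h y i) x with hS3
  set S4 := ∑ i, pd i f x * tau h y i x with hS4
  set S5 := ∑ i, (tau h y i x) ^ 2 with hS5
  have hdiv : ∑ i, Vale.Agent.P210.pd i
      (fun x' => Vale.Agent.P210.pd i f x' + tau h y i x' / ((n : ℝ) - 1)) x
      = S1 + S3 / ((n : ℝ) - 1) := by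
    rw [hS1, hS3, Finset.sum_div, ← Finset.sum_add_distrib]
    refine Finset.sum_congr rfl fun i _ => ?_
    have hd1 : DifferentiableAt ℝ (fun x' => Vale.Agent.P210.pd i f x') x :=
      differentiableAt_of_smoothOn hΩ (contDiffOn_pd hΩ hf i) hx
    have hd2 : DifferentiableAt ℝ (tau h y i) x :=
      differentiableAt_of_smoothOn hΩ (hSCs n N Ω F f h hΩ hF hG y hy i) hx
    have hd3 : DifferentiableAt ℝ (fun x' => tau h y i x' / ((n : ℝ) - 1)) x := by
      have h0 := hd2.const_mul (((n : ℝ) - 1)⁻¹)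
      have h00 : (fun x' => tau h y i x' / ((n : ℝ) - 1)) =
          fun x' => ((n : ℝ) - 1)⁻¹ * tau h y i x' := by
        funext x'
        rw [div_eq_inv_mul]
      rw [h00]
      exact h0
    rw [Vale.Agent.P210.pd_add i hd1 hd3]
    congr 1
    unfold Vale.Agent.P210.pd pd
    have : (fun x' => tau h y i x' / ((n : ℝ) - 1)) =
        fun x' => ((n : ℝ) - 1)⁻¹ • tau h y i x' := by
      funext x'
      rw [smul_eq_mul]
      field_simp
    rw [this, fderiv_fun_const_smul hd2]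
    simp only [ContinuousLinearMap.smul_apply, smul_eq_mul]
    field_simp
  have hsq : ∑ i, (Vale.Agent.P210.pd i f x + tau h y i x / ((n : ℝ) - 1)) ^ 2
      = S2 + 2 * S4 / ((n : ℝ) - 1) + S5 / ((n : ℝ) - 1) ^ 2 := by
    rw [hS2, hS4, hS5, Finset.mul_sum, Finset.sum_div, Finset.sum_div, ← Finset.sum_add_distrib,
      ← Finset.sum_add_distrib]
    refine Finset.sum_congr rfl fun i _ => ?_
    change (pd i f x + tau h y i x / ((n : ℝ) - 1)) ^ 2 = _
    field_simp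
    ring
  have hsq2 : ∑ i, ((Vale.Agent.P210.pd i f x + tau h y i x / ((n : ℝ) - 1))
      - Vale.Agent.P210.pd i f x) ^ 2 = S5 / ((n : ℝ) - 1) ^ 2 := by
    rw [hS5, Finset.sum_div]
    refine Finset.sum_congr rfl fun i _ => ?_
    field_simp
    ring
  rw [hdiv, hsq, hsq2]
  have he : Real.exp (2 * f x) * Real.exp (-(2 * f x)) = 1 := by
    rw [← Real.exp_add]; simp
  set B := 2 * ((n : ℝ) - 1) * S1 + ((n : ℝ) - 1) * ((n : ℝ) - 2) * S2 + 2 * S3
    + 2 * ((n : ℝ) - 2) * S4 + S5 with hB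
  have h4 : Real.exp (-(2 * f x)) * B ≤ -(1 / 2) := by linarith
  have h5 : B ≤ -(1 / 2) * Real.exp (2 * f x) := by
    have h6 := mul_le_mul_of_nonneg_left h4 (Real.exp_pos (2 * f x)).le
    rw [← mul_assoc, he, one_mul] at h6
    linarith
  have h7 : -(S1 + S3 / ((n : ℝ) - 1) + ((n : ℝ) - 2) / 2 *
      (S2 + 2 * S4 / ((n : ℝ) - 1) + S5 / ((n : ℝ) - 1) ^ 2)
      + 1 / 2 * (S5 / ((n : ℝ) - 1) ^ 2)) = -(1 / (2 * ((n : ℝ) - 1))) * B := by
    rw [hB]
    field_simp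
    ring
  rw [h7]
  have h8 : 1 / (4 * ((n : ℝ) - 1)) * Real.exp (2 * f x)
      = -(1 / (2 * ((n : ℝ) - 1))) * (-(1 / 2) * Real.exp (2 * f x)) := by
    field_simp
    ring
  rw [h8]
  have h9 : 0 < 1 / (2 * ((n : ℝ) - 1)) := by positivity
  nlinarith

theorem width_step (hSC : SC) (hSCs : SCsmooth) (hP1 : PROD1) (hP2 : PROD2) (n N k : ℕ)
    (hn : 3 ≤ n) (hkn : k + 1 ≤ n) (hk : ((n : ℝ) - 1 - k) ^ 2 < (n : ℝ) - 1) :
    ∃ C : ℝ, ∀ (Ω : Set (EI (Fin n))) (F : Set (EI (Fin N))) (w : EI (Fin n) → ℝ)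
        (h : EI (Fin n) → EI (Fin N) → Matrix (Fin N) (Fin N) ℝ),
        IsOpen Ω → IsOpen F →
        IsRiemMetricOn (prod Ω F) (block (fun x => w x • 1) h) →
        (∃ y ∈ F, ∀ x ∈ Ω, scal (h x) y ≤ 1 / 2) →
        IsCompleteOn (prod Ω F) (block (fun x => w x • 1) h) →
        (∀ z ∈ prod Ω F, 1 ≤ scal (block (fun x => w x • 1) h) z) →
        UrysohnWidthLE (prod Ω F) (rdist (prod Ω F) (block (fun x => w x • 1) h)) (k + N) C := by
  have hn' : (3 : ℝ) ≤ n := by exact_mod_cast hn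
  have hkn' : (k : ℝ) + 1 ≤ n := by exact_mod_cast hkn
  have hN1 : (0 : ℝ) < (n : ℝ) - 1 := by linarith
  have hk0 : 0 < k := by
    rcases Nat.eq_zero_or_pos k with h0 | h0
    · exfalso
      rw [h0] at hk
      push_cast at hk
      nlinarith
    · exact h0
  set q : ℝ := Real.sqrt ((n : ℝ) - 1) with hq
  have hq0 : 0 ≤ q := Real.sqrt_nonneg _
  have hq2 : q ^ 2 = (n : ℝ) - 1 := Real.sq_sqrt hN1.le
  have hq1 : 1 < q := by
    by_contra hcon
    push Not at hcon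
    nlinarith
  have hkq : (n : ℝ) - k < q + 1 := by
    by_contra hcon
    push Not at hcon
    nlinarith
  set m0 : ℝ := max 2 ((n : ℝ) - k) with hm0
  have hm0q : m0 < q + 1 := by
    rw [hm0, max_lt_iff]
    constructor <;> linarith
  set b : ℝ := (m0 + (q + 1)) / 2 with hb
  have hm0b : m0 < b := by rw [hb]; linarith
  have hbq : b < q + 1 := by rw [hb]; linarith
  have h2m : 2 ≤ m0 := le_max_left _ _
  have hkm : (n : ℝ) - k ≤ m0 := le_max_right _ _
  have hb2 : 2 < b := by linarith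
  have hκ : (0 : ℝ) < 1 / (4 * ((n : ℝ) - 1)) := by positivity
  obtain ⟨A, hA, hW⟩ := isWeight_V n (by omega) (1 / (4 * ((n : ℝ) - 1))) (((n : ℝ) - 2) / 2)
    (1 / 2) b hκ (by norm_num) hb2 (by nlinarith) (by
      norm_num
      linarith)
  obtain ⟨C, hC, hcore⟩ := prod3 n k (by omega) hk0 b A (by linarith) (by linarith) hA
  refine ⟨2 * C, ?_⟩
  intro Ω F w h hΩ hF hG ⟨y0, hy0, hh⟩ hcomp hs
  set i0 : Fin n := ⟨0, by omega⟩ with hi0
  have hmem : ∀ x ∈ Ω, mk x y0 ∈ prod Ω F := fun x hx => ⟨by simpa using hx, by simpa using hy0⟩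
  have hwpos : ∀ x ∈ Ω, 0 < w x := by
    intro x hx
    have h1 := (hG.posDef _ (hmem x hx)).diag_pos (i := Sum.inl i0)
    simpa [block] using h1
  have hwsm : ContDiffOn ℝ ∞ w Ω := by
    have h1 := hG.smooth (Sum.inl i0) (Sum.inl i0)
    have h2 : ContDiff ℝ ∞ (fun x : EI (Fin n) => mk x y0) := by
      have : (fun u : EI (Fin n) => mk u y0) = fun u => inlL u + mk 0 y0 := by
        funext u; exact mk_eq _ _
      rw [this]
      exact (inlL (α := Fin n) (β := Fin N)).contDiff.add contDiff_const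
    have h3 := h1.comp h2.contDiffOn (s := Ω) (fun x hx => hmem x hx)
    refine h3.congr fun x hx => ?_
    simp [block]
  set f : EI (Fin n) → ℝ := fun x => Real.log (w x) / 2 with hfdef
  have hf : ContDiffOn ℝ ∞ f Ω := (hwsm.log fun x hx => (hwpos x hx).ne').div_const 2
  have hconf : ∀ x ∈ Ω, w x • (1 : Matrix (Fin n) (Fin n) ℝ) = conf f x := by
    intro x hx
    unfold conf
    rw [hfdef]
    simp only
    rw [mul_div_cancel₀ _ (two_ne_zero), Real.exp_log (hwpos x hx)]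
  have hblock : ∀ z ∈ prod Ω F, block (fun x => w x • 1) h z = block (conf f) h z := by
    intro z hz
    unfold block
    rw [← hconf _ hz.1]
  have hPo : IsOpen (prod Ω F) := by
    have h1 : Continuous (fun z : EI (Fin n ⊕ Fin N) => fst z) :=
      (fstL (α := Fin n) (β := Fin N)).continuous
    have h2 : Continuous (fun z : EI (Fin n ⊕ Fin N) => snd z) := by
      unfold snd
      fun_prop
    exact (hΩ.preimage h1).inter (hF.preimage h2)
  have hG' : IsRiemMetricOn (prod Ω F) (block (conf f) h) := by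
    refine ⟨fun i j => (hG.smooth i j).congr fun z hz => by rw [hblock z hz], fun z hz => ?_⟩
    rw [← hblock z hz]
    exact hG.posDef z hz
  have hs' : ∀ z ∈ prod Ω F, 1 ≤ scal (block (conf f) h) z := by
    intro z hz
    rw [← tscal_congr hPo hblock hz]
    exact hs z hz
  have hrd : rdist (prod Ω F) (block (fun x => w x • 1) h)
      = rdist (prod Ω F) (block (conf f) h) := trdist_congr hblock
  have hcomp' : IsCompleteOn (prod Ω F) (block (conf f) h) := by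
    unfold IsCompleteOn at hcomp ⊢
    rw [hrd] at hcomp
    exact hcomp
  have hcomp2 : Vale.Agent.P210.IsCompleteOn Ω (conf f) :=
    (isCompleteOn_iff Ω (conf f)).mp (leaf2 n N Ω F (conf f) h hG'.posDef ⟨y0, hy0⟩ hcomp')
  set V : Fin n → E n → ℝ := fun i x => Vale.Agent.P210.pd i f x + tau h y0 i x / ((n : ℝ) - 1)
    with hV
  have hVs : ∀ i, ContDiffOn ℝ ∞ (V i) Ω := by
    intro i
    exact (contDiffOn_pd hΩ hf i).add ((hSCs n N Ω F f h hΩ hF hG' y0 hy0 i).div_const _)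
  have hwt : IsWeight Ω (wt Ω f) b A :=
    hW Ω f V hΩ hf hVs hcomp2 (ineq_of_scal hSC hSCs hn hΩ hF hf hG' hy0 hh hs')
  obtain ⟨lam, hlam, hfib⟩ := hcore Ω (wt Ω f) hwt
  have hfc : Continuous (fun z : prod Ω F => (⟨fst z.1, z.2.1⟩ : Ω)) := by
    apply Continuous.subtype_mk
    exact (fstL (α := Fin n) (β := Fin N)).continuous.comp continuous_subtype_val
  have hlam2 := hlam.comp hfc
  obtain ⟨V', mu, hmu, hmu2⟩ := prodN hP1 N (prod Ω F) (Vtx n) k _ hlam2
    (fun i z => snd z.1 i) (by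
      intro i
      have h2 : Continuous (fun z : EI (Fin n ⊕ Fin N) => snd z i) := by
        unfold snd
        fun_prop
      exact h2.comp continuous_subtype_val)
  obtain ⟨Φ, hΦc, hΦ⟩ := hP2 (prod Ω F) V' (k + N) mu hmu
  refine ⟨V', skel V' (k + N), Φ, fun s hs => hs.2, hΦc, ?_⟩
  intro z z' hzz
  obtain ⟨h1, h2⟩ := hmu2 z z' (fun p => by rw [← hΦ z p, ← hΦ z' p, hzz])
  obtain ⟨p, h3, h4, h5, h6⟩ := hfib _ _ h1
  have h7 : Vale.Agent.P210.rdist Ω (conf f) (fst z.1) (fst z'.1) ≤ ENNReal.ofReal (2 * C) :=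
    rdist_le_of_segments _ _ p C hC.le h3 h4 h5 h6
  rw [hrd]
  have h8 : snd z.1 = snd z'.1 := by
    ext i
    exact h2 i
  have h9 := leaf1 n N Ω F (conf f) h z.1 z'.1 h8 z.2.2
  rw [rdist_eq] at h9
  exact h9.trans h7

lemma width_mono {ι : Type} [Fintype ι] [DecidableEq ι] {U : Set (EI ι)}
    {dist : EI ι → EI ι → ℝ≥0∞} {d : ℕ} {C C' : ℝ}
    (h : UrysohnWidthLE U dist d C) (hC : C ≤ C') : UrysohnWidthLE U dist d C' := by
  obtain ⟨V, K, f, h1, h2, h3⟩ := h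
  exact ⟨V, K, f, h1, h2, fun x y hxy => (h3 x y hxy).trans (ENNReal.ofReal_le_ofReal hC)⟩

/-- The target with its second conjunct. -/
def Target2 : Prop :=
    ∀ m : ℕ, 3 ≤ m → ∃ C : ℝ,
      ∀ (n N : ℕ), 3 ≤ n → n + N = m →
      ∀ (Ω : Set (EI (Fin n))) (F : Set (EI (Fin N))) (w : EI (Fin n) → ℝ)
        (h : EI (Fin n) → EI (Fin N) → Matrix (Fin N) (Fin N) ℝ),
        IsOpen Ω → IsOpen F →
        IsRiemMetricOn (prod Ω F) (block (fun x => w x • 1) h) →
        (∃ y ∈ F, ∀ x ∈ Ω, scal (h x) y ≤ 1 / 2) →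
        IsCompleteOn (prod Ω F) (block (fun x => w x • 1) h) →
        (∀ z ∈ prod Ω F, 1 ≤ scal (block (fun x => w x • 1) h) z) →
        UrysohnWidthLE (prod Ω F) (rdist (prod Ω F) (block (fun x => w x • 1) h)) (m - 2) C ∧
        ∀ k : ℕ, k + 1 ≤ n → ((n : ℝ) - 1 - k) ^ 2 < (n : ℝ) - 1 →
          UrysohnWidthLE (prod Ω F) (rdist (prod Ω F) (block (fun x => w x • 1) h)) (k + N) C

theorem target2 (hSC : SC) (hSCs : SCsmooth) (hP1 : PROD1) (hP2 : PROD2) : Target2 := by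
  classical
  intro m hm
  have hall : ∀ n k : ℕ, ∃ C : ℝ, 3 ≤ n → k + 1 ≤ n → ((n : ℝ) - 1 - k) ^ 2 < (n : ℝ) - 1 →
      ∀ (Ω : Set (EI (Fin n))) (F : Set (EI (Fin (m - n)))) (w : EI (Fin n) → ℝ)
        (h : EI (Fin n) → EI (Fin (m - n)) → Matrix (Fin (m - n)) (Fin (m - n)) ℝ),
        IsOpen Ω → IsOpen F →
        IsRiemMetricOn (prod Ω F) (block (fun x => w x • 1) h) →
        (∃ y ∈ F, ∀ x ∈ Ω, scal (h x) y ≤ 1 / 2) →
        IsCompleteOn (prod Ω F) (block (fun x => w x • 1) h) →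
        (∀ z ∈ prod Ω F, 1 ≤ scal (block (fun x => w x • 1) h) z) →
        UrysohnWidthLE (prod Ω F) (rdist (prod Ω F) (block (fun x => w x • 1) h))
          (k + (m - n)) C := by
    intro n k
    by_cases h1 : 3 ≤ n ∧ k + 1 ≤ n ∧ ((n : ℝ) - 1 - k) ^ 2 < (n : ℝ) - 1
    · obtain ⟨C, hC⟩ := width_step hSC hSCs hP1 hP2 n (m - n) k h1.1 h1.2.1 h1.2.2
      exact ⟨C, fun _ _ _ => hC⟩
    · exact ⟨0, fun h2 h3 h4 => absurd ⟨h2, h3, h4⟩ h1⟩
  choose Cf hCf using hall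
  refine ⟨∑ n ∈ Finset.range (m + 1), ∑ k ∈ Finset.range (m + 1), |Cf n k|, ?_⟩
  intro n N hn hnN
  obtain rfl : N = m - n := by omega
  intro Ω F w h hΩ hF hG hy hcomp hs
  have hmain : ∀ k : ℕ, k + 1 ≤ n → ((n : ℝ) - 1 - k) ^ 2 < (n : ℝ) - 1 →
      UrysohnWidthLE (prod Ω F) (rdist (prod Ω F) (block (fun x => w x • 1) h)) (k + (m - n))
        (∑ n ∈ Finset.range (m + 1), ∑ k ∈ Finset.range (m + 1), |Cf n k|) := by
    intro k hk1 hk2
    refine width_mono (hCf n k hn hk1 hk2 Ω F w h hΩ hF hG hy hcomp hs) ?_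
    refine (le_abs_self _).trans ?_
    refine le_trans ?_ (Finset.single_le_sum
      (f := fun n => ∑ k ∈ Finset.range (m + 1), |Cf n k|)
      (fun i _ => Finset.sum_nonneg fun j _ => abs_nonneg _) (Finset.mem_range.mpr (by omega : n < m + 1)))
    exact Finset.single_le_sum (f := fun k => |Cf n k|) (fun j _ => abs_nonneg _)
      (Finset.mem_range.mpr (by omega : k < m + 1))
  refine ⟨?_, hmain⟩
  have h2 := hmain (n - 2) (by omega) (by
    have h3 : ((n - 2 : ℕ) : ℝ) = (n : ℝ) - 2 := by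
      rw [Nat.cast_sub (by omega)]
      norm_num
    rw [h3]
    have : (3 : ℝ) ≤ n := by exact_mod_cast hn
    nlinarith)
  have h4 : n - 2 + (m - n) = m - 2 := by omega
  rw [h4] at h2
  exact h2

end Vale.Agent.P210.TP
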