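import Vale.Agent.P210.TP.Props2

set_option linter.all false

/-! P210, stage 2, block BIL: comparison of `e^{2f} k` with `e^{2f} |dx|²`. -/

open scoped ENNReal ContDiff
open MeasureTheory Set

namespace Vale.Agent.P210.TP

section

variable {n : ℕ} {K : ℝ} {Ω : Set (EI (Fin n))} {f : EI (Fin n) → ℝ}
    {k : EI (Fin n) → Matrix (Fin n) (Fin n) ℝ}

lemma sum_smul_k (x : EI (Fin n)) (v : EI (Fin n)) :
    ∑ i, ∑ j, (Real.exp (2 * f x) • k x) i j * v i * v j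
      = Real.exp (2 * f x) * ∑ i, ∑ j, k x i j * v i * v j := by
  simp only [Matrix.smul_apply, smul_eq_mul, Finset.mul_sum]
  refine Finset.sum_congr rfl fun i _ => Finset.sum_congr rfl fun j _ => ?_
  ring

lemma sum_conf (x : EI (Fin n)) (v : EI (Fin n)) :
    ∑ i, ∑ j, conf f x i j * v i * v j = Real.exp (2 * f x) * ∑ i, v i ^ 2 := by
  unfold conf
  simp only [Matrix.smul_apply, Matrix.one_apply, smul_eq_mul, mul_ite, mul_one, mul_zero,
    ite_mul, zero_mul, Finset.sum_ite_eq, Finset.mem_univ, if_true, Finset.mul_sum]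
  refine Finset.sum_congr rfl fun i _ => ?_
  ring

lemma len_k_le (hK : 0 < K) (hp : ∀ x ∈ Ω, Pinched K (k x)) {γ : ℝ → EI (Fin n)}
    (hγ : ∀ t ∈ Icc (0 : ℝ) 1, γ t ∈ Ω) :
    len (fun x => Real.exp (2 * f x) • k x) γ ≤ ENNReal.ofReal K * len (conf f) γ := by
  unfold len
  rw [← lintegral_const_mul' _ _ ENNReal.ofReal_ne_top]
  refine setLIntegral_mono' measurableSet_Icc fun t ht => ?_
  rw [← ENNReal.ofReal_mul hK.le]
  apply ENNReal.ofReal_le_ofReal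
  rw [sum_smul_k, sum_conf]
  have h1 := (hp _ (hγ t ht) (fun i => deriv γ t i)).2
  have h2 : K * Real.sqrt (Real.exp (2 * f (γ t)) * ∑ i, (deriv γ t i) ^ 2)
      = Real.sqrt (K ^ 2 * (Real.exp (2 * f (γ t)) * ∑ i, (deriv γ t i) ^ 2)) := by
    rw [Real.sqrt_mul (sq_nonneg K), Real.sqrt_sq hK.le]
  rw [h2]
  apply Real.sqrt_le_sqrt
  have h3 := mul_le_mul_of_nonneg_left h1 (Real.exp_pos (2 * f (γ t))).le
  linarith

lemma len_conf_le (hK : 0 < K) (hp : ∀ x ∈ Ω, Pinched K (k x)) {γ : ℝ → EI (Fin n)}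
    (hγ : ∀ t ∈ Icc (0 : ℝ) 1, γ t ∈ Ω) :
    len (conf f) γ ≤ ENNReal.ofReal K * len (fun x => Real.exp (2 * f x) • k x) γ := by
  unfold len
  rw [← lintegral_const_mul' _ _ ENNReal.ofReal_ne_top]
  refine setLIntegral_mono' measurableSet_Icc fun t ht => ?_
  rw [← ENNReal.ofReal_mul hK.le]
  apply ENNReal.ofReal_le_ofReal
  rw [sum_smul_k, sum_conf]
  have h1 := (hp _ (hγ t ht) (fun i => deriv γ t i)).1
  have hK2 : 0 < K ^ 2 := by positivity
  rw [inv_mul_le_iff₀ hK2] at h1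
  set S := ∑ i, ∑ j, k (γ t) i j * deriv γ t i * deriv γ t j with hS
  have h2 : K * Real.sqrt (Real.exp (2 * f (γ t)) * S)
      = Real.sqrt (K ^ 2 * (Real.exp (2 * f (γ t)) * S)) := by
    rw [Real.sqrt_mul (sq_nonneg K), Real.sqrt_sq hK.le]
  rw [h2]
  apply Real.sqrt_le_sqrt
  have h3 := mul_le_mul_of_nonneg_left h1 (Real.exp_pos (2 * f (γ t))).le
  linarith

lemma rdist_k_le (hK : 0 < K) (hp : ∀ x ∈ Ω, Pinched K (k x)) (x y : EI (Fin n)) :
    rdist Ω (fun x => Real.exp (2 * f x) • k x) x y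
      ≤ ENNReal.ofReal K * rdist Ω (conf f) x y := by
  unfold rdist
  rw [ENNReal.mul_iInf_of_ne (by simpa using hK) ENNReal.ofReal_ne_top]
  refine le_iInf fun γ => ?_
  rw [ENNReal.mul_iInf_of_ne (by simpa using hK) ENNReal.ofReal_ne_top]
  refine le_iInf fun hγ => ?_
  exact (iInf₂_le γ hγ).trans (len_k_le hK hp hγ.mem)

lemma rdist_conf_le (hK : 0 < K) (hp : ∀ x ∈ Ω, Pinched K (k x)) (x y : EI (Fin n)) :
    rdist Ω (conf f) x y
      ≤ ENNReal.ofReal K * rdist Ω (fun x => Real.exp (2 * f x) • k x) x y := by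
  unfold rdist
  rw [ENNReal.mul_iInf_of_ne (by simpa using hK) ENNReal.ofReal_ne_top]
  refine le_iInf fun γ => ?_
  rw [ENNReal.mul_iInf_of_ne (by simpa using hK) ENNReal.ofReal_ne_top]
  refine le_iInf fun hγ => ?_
  exact (iInf₂_le γ hγ).trans (len_conf_le hK hp hγ.mem)

end

theorem bil : BIL := by
  intro n K Ω f k hK hp
  refine ⟨fun x y => rdist_k_le hK hp x y, ?_⟩
  intro hcomp u hu hcauchy
  have hKn : ENNReal.ofReal K ≠ 0 := by simpa using hK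
  have key : ∀ ε : ℝ≥0∞, 0 < ε → ∃ ε' : ℝ≥0∞, 0 < ε' ∧
      ∀ a : ℝ≥0∞, a < ε' → ENNReal.ofReal K * a < ε := by
    intro ε hε
    rcases eq_or_ne ε ⊤ with h | h
    · refine ⟨⊤, by simp, fun a ha => ?_⟩
      rw [h]
      exact ENNReal.mul_lt_top ENNReal.ofReal_lt_top ha
    · refine ⟨ε / ENNReal.ofReal K, ENNReal.div_pos hε.ne' ENNReal.ofReal_ne_top, fun a ha => ?_⟩
      rw [mul_comm]
      exact ENNReal.mul_lt_of_lt_div ha
  obtain ⟨x, hx, hlim⟩ := hcomp u hu (by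
    intro ε hε
    obtain ⟨ε', hε', hb⟩ := key ε hε
    obtain ⟨N0, hN0⟩ := hcauchy ε' hε'
    exact ⟨N0, fun i hi j hj => lt_of_le_of_lt (rdist_k_le hK hp _ _) (hb _ (hN0 i hi j hj))⟩)
  refine ⟨x, hx, ?_⟩
  intro ε hε
  obtain ⟨ε', hε', hb⟩ := key ε hε
  obtain ⟨N0, hN0⟩ := hlim ε' hε'
  exact ⟨N0, fun i hi => lt_of_le_of_lt (rdist_conf_le hK hp _ _) (hb _ (hN0 i hi))⟩

end Vale.Agent.P210.TP
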