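import Vale.Agent.P210.TP.Defs
import Mathlib.Analysis.Calculus.FDeriv.Symmetric

/-! Block [CC]: the conformal change of the scalar curvature of a general metric, in coordinates. -/

set_option linter.all false

open scoped ENNReal ContDiff Topology
open MeasureTheory Set

namespace Vale.Agent.P210.TP.CC

/-! ### Algebra at one point

`G` the metric, `H` its inverse, `a` the differential of `f`, `u` its gradient, `A` the second
derivatives, `Γ` the Christoffel symbols, `D m i j = ∂_m G_ij`, `Du m k = ∂_m u^k`. -/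

section Alg

variable {ι : Type} [Fintype ι] [DecidableEq ι]

/-- the difference of the Christoffel symbols -/
def TT (G : ι → ι → ℝ) (a u : ι → ℝ) (k i j : ι) : ℝ :=
  (if k = i then a j else 0) + (if k = j then a i else 0) - G i j * u k

/-- its derivative -/
def DT (G : ι → ι → ℝ) (D : ι → ι → ι → ℝ) (A Du : ι → ι → ℝ) (u : ι → ℝ) (m k i j : ι) : ℝ :=
  (if k = i then A m j else 0) + (if k = j then A m i else 0) - (D m i j * u k + G i j * Du m k)

variable {G : ι → ι → ℝ} {D Γ : ι → ι → ι → ℝ} {a u : ι → ℝ} {A Du : ι → ι → ℝ}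

lemma sum_DT1 (i j : ι) : ∑ k, DT G D A Du u k k i j
    = A i j + A j i - ∑ k, D k i j * u k - G i j * ∑ k, Du k k := by
  unfold DT
  simp only [Finset.sum_sub_distrib, Finset.sum_add_distrib, Finset.sum_ite_eq', Finset.mem_univ,
    if_true, ← Finset.mul_sum]
  ring

lemma sum_DT2 (hDu : ∀ i j, ∑ k, (D j i k * u k + G i k * Du j k) = A j i) (i j : ι) :
    ∑ k, DT G D A Du u j k i k = (Fintype.card ι : ℝ) * A j i := by
  unfold DT
  have h1 := hDu i j
  simp only [Finset.sum_sub_distrib, Finset.sum_ite_eq', Finset.mem_univ, if_true]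
  rw [h1]
  simp only [Finset.sum_add_distrib, Finset.sum_ite_eq', Finset.mem_univ, if_true, Finset.sum_const,
    Finset.card_univ, nsmul_eq_mul]
  ring

lemma sum_TT1 (hu : ∀ l, ∑ k, G k l * u k = a l) (l : ι) :
    ∑ k, TT G a u k k l = (Fintype.card ι : ℝ) * a l := by
  unfold TT
  simp only [Finset.sum_sub_distrib, Finset.sum_add_distrib, Finset.sum_ite_eq', Finset.mem_univ,
    if_true, Finset.sum_const, Finset.card_univ, nsmul_eq_mul, hu l]
  ring

lemma sum_A1 (i j : ι) : ∑ k, ∑ l, Γ k k l * TT G a u l i j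
    = (∑ k, Γ k k i) * a j + (∑ k, Γ k k j) * a i - G i j * ∑ k, ∑ l, Γ k k l * u l := by
  unfold TT
  have h1 : ∀ k, ∑ l, Γ k k l * ((if l = i then a j else 0) + (if l = j then a i else 0)
      - G i j * u l) = Γ k k i * a j + Γ k k j * a i - G i j * ∑ l, Γ k k l * u l := by
    intro k
    simp only [mul_sub, mul_add, Finset.sum_sub_distrib, Finset.sum_add_distrib, mul_ite, mul_zero,
      Finset.sum_ite_eq', Finset.mem_univ, if_true]
    rw [Finset.mul_sum]
    congr 1
    exact Finset.sum_congr rfl fun l _ => by ring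
  simp only [h1, Finset.sum_sub_distrib, Finset.sum_add_distrib, ← Finset.sum_mul, ← Finset.mul_sum]

lemma sum_A2 (hu : ∀ l, ∑ k, G k l * u k = a l) (i j : ι) :
    ∑ k, ∑ l, TT G a u k k l * Γ l i j = (Fintype.card ι : ℝ) * ∑ l, a l * Γ l i j := by
  rw [Finset.sum_comm, Finset.mul_sum]
  apply Finset.sum_congr rfl
  intro l _
  rw [← Finset.sum_mul, sum_TT1 hu, mul_assoc]

lemma sum_A3 (hu : ∀ l, ∑ k, G k l * u k = a l) (i j : ι) :
    ∑ k, ∑ l, TT G a u k k l * TT G a u l i j
      = (Fintype.card ι : ℝ) * (2 * a i * a j - G i j * ∑ l, a l * u l) := by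
  rw [Finset.sum_comm]
  have h1 : ∀ l, ∑ k, TT G a u k k l * TT G a u l i j
      = (Fintype.card ι : ℝ) * (a l * TT G a u l i j) := by
    intro l
    rw [← Finset.sum_mul, sum_TT1 hu, mul_assoc]
  simp only [h1]
  rw [← Finset.mul_sum]
  congr 1
  unfold TT
  simp only [mul_sub, mul_add, Finset.sum_sub_distrib, Finset.sum_add_distrib, mul_ite, mul_zero,
    Finset.sum_ite_eq', Finset.mem_univ, if_true]
  rw [Finset.mul_sum]
  have h2 : ∑ l, a l * (G i j * u l) = ∑ l, G i j * (a l * u l) :=
    Finset.sum_congr rfl fun l _ => by ring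
  rw [h2]
  ring

lemma sum_B1 (i j : ι) : ∑ k, ∑ l, Γ k j l * TT G a u l i k
    = (∑ k, Γ k j i * a k) + (∑ k, Γ k j k) * a i - ∑ k, ∑ l, G i k * (Γ k j l * u l) := by
  unfold TT
  have h1 : ∀ k, ∑ l, Γ k j l * ((if l = i then a k else 0) + (if l = k then a i else 0)
      - G i k * u l) = Γ k j i * a k + Γ k j k * a i - ∑ l, G i k * (Γ k j l * u l) := by
    intro k
    simp only [mul_sub, mul_add, Finset.sum_sub_distrib, Finset.sum_add_distrib, mul_ite, mul_zero,
      Finset.sum_ite_eq', Finset.mem_univ, if_true]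
    congr 1
    exact Finset.sum_congr rfl fun l _ => by ring
  simp only [h1, Finset.sum_sub_distrib, Finset.sum_add_distrib, ← Finset.sum_mul]

lemma sum_B2 (i j : ι) : ∑ k, ∑ l, TT G a u k j l * Γ l i k
    = (∑ l, a l * Γ l i j) + a j * (∑ k, Γ k i k) - ∑ k, ∑ l, G j l * (Γ l i k * u k) := by
  unfold TT
  have h1 : ∀ k, ∑ l, ((if k = j then a l else 0) + (if k = l then a j else 0)
      - G j l * u k) * Γ l i k = (if k = j then ∑ l, a l * Γ l i k else 0) + a j * Γ k i k
        - ∑ l, G j l * (Γ l i k * u k) := by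
    intro k
    simp only [sub_mul, add_mul, Finset.sum_sub_distrib, Finset.sum_add_distrib, ite_mul, zero_mul,
      Finset.sum_ite_eq, Finset.mem_univ, if_true]
    congr 1
    · congr 1
      split_ifs <;> simp
    · exact Finset.sum_congr rfl fun l _ => by ring
  simp only [h1, Finset.sum_sub_distrib, Finset.sum_add_distrib, Finset.sum_ite_eq',
    Finset.mem_univ, if_true, ← Finset.mul_sum]

lemma sum_B3 (hsym : ∀ i j, G i j = G j i) (hu : ∀ l, ∑ k, G k l * u k = a l) (i j : ι) :
    ∑ k, ∑ l, TT G a u k j l * TT G a u l i k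
      = ((Fintype.card ι : ℝ) + 2) * (a i * a j) - 2 * (G i j * ∑ l, a l * u l) := by
  have hu' : ∀ i, ∑ k, G i k * u k = a i := by
    intro i
    rw [← hu i]
    exact Finset.sum_congr rfl fun k _ => by rw [hsym]
  have h1 : ∀ k, ∑ l, TT G a u k j l * TT G a u l i k
      = (if k = j then a i * a k + a k * a i - G i k * ∑ l, a l * u l else 0)
        + a j * ((if k = i then a k else 0) + a i - G i k * u k)
        - (G j i * (u k * a k) + G j k * u k * a i - G i k * u k * a j) := by
    intro k
    have e1 : ∀ l, TT G a u k j l * TT G a u l i k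
        = (if k = j then a l * TT G a u l i k else 0)
          + (if k = l then a j * TT G a u l i k else 0)
          - G j l * u k * TT G a u l i k := by
      intro l
      conv_lhs => rw [show TT G a u k j l = (if k = j then a l else 0) + (if k = l then a j else 0)
        - G j l * u k from rfl]
      split_ifs <;> ring
    simp only [e1, Finset.sum_sub_distrib, Finset.sum_add_distrib, Finset.sum_ite_eq,
      Finset.mem_univ, if_true]
    congr 1
    · congr 1
      · by_cases hk : k = j
        · simp only [hk, if_true]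
          unfold TT
          simp only [mul_sub, mul_add, Finset.sum_sub_distrib, Finset.sum_add_distrib, mul_ite,
            mul_zero, Finset.sum_ite_eq', Finset.mem_univ, if_true]
          have e2 : ∑ l, a l * (G i j * u l) = G i j * ∑ l, a l * u l := by
            rw [Finset.mul_sum]
            exact Finset.sum_congr rfl fun l _ => by ring
          rw [e2]
        · simp only [hk, if_false]
          simp
      · unfold TT
        simp only [if_true]
    · unfold TT
      simp only [mul_sub, mul_add, Finset.sum_sub_distrib, Finset.sum_add_distrib, mul_ite,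
        mul_zero, Finset.sum_ite_eq', Finset.mem_univ, if_true]
      have e3 : ∑ l, G j l * u k * (G i k * u l) = G i k * u k * a j := by
        rw [← hu' j, Finset.mul_sum]
        exact Finset.sum_congr rfl fun l _ => by ring
      rw [e3]
      ring
  simp only [h1, Finset.sum_sub_distrib, Finset.sum_add_distrib, Finset.sum_ite_eq',
    Finset.mem_univ, if_true, ← Finset.mul_sum]
  have e4 : ∑ k, G j k * u k * a i = a j * a i := by rw [← Finset.sum_mul, hu']
  have e5 : ∑ k, G i k * u k * a j = a i * a j := by rw [← Finset.sum_mul, hu']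
  have e6 : ∑ k, u k * a k = ∑ l, a l * u l := Finset.sum_congr rfl fun k _ => mul_comm _ _
  rw [e4, e5, e6, hu' i, hsym j i, Finset.sum_const, Finset.card_univ, nsmul_eq_mul]
  ring

/-- the Ricci curvature under a conformal change, algebraic form -/
lemma ricci_alg (hsym : ∀ i j, G i j = G j i) (hu : ∀ l, ∑ k, G k l * u k = a l)
    (hΓ : ∀ k i j, Γ k i j = Γ k j i) (hA : ∀ i j, A i j = A j i)
    (hcomp : ∀ m i j, D m i j = ∑ l, Γ l m i * G l j + ∑ l, Γ l m j * G i l)
    (hDu : ∀ i j, ∑ k, (D j i k * u k + G i k * Du j k) = A j i) (i j : ι) :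
    ∑ k, (DT G D A Du u k k i j - DT G D A Du u j k i k
      + ∑ l, ((Γ k k l * TT G a u l i j + TT G a u k k l * Γ l i j
          + TT G a u k k l * TT G a u l i j)
        - (Γ k j l * TT G a u l i k + TT G a u k j l * Γ l i k
          + TT G a u k j l * TT G a u l i k)))
      = -((Fintype.card ι : ℝ) - 2) * (A i j - ∑ l, a l * Γ l i j - a i * a j)
        - G i j * (∑ k, Du k k + ∑ k, ∑ l, Γ k k l * u l
            + ((Fintype.card ι : ℝ) - 2) * ∑ l, a l * u l) := by
  simp only [Finset.sum_add_distrib, Finset.sum_sub_distrib]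
  rw [sum_DT1, sum_DT2 hDu, sum_A1, sum_A2 hu, sum_A3 hu, sum_B1, sum_B2, sum_B3 hsym hu]
  have e1 : ∑ k, D k i j * u k = ∑ k, ∑ l, G i k * (Γ k j l * u l)
      + ∑ k, ∑ l, G j l * (Γ l i k * u k) := by
    have f1 : ∀ k, D k i j * u k = ∑ l, G j l * (Γ l i k * u k) + ∑ l, G i l * (Γ l j k * u k) := by
      intro k
      rw [hcomp, add_mul, Finset.sum_mul, Finset.sum_mul]
      congr 1
      · exact Finset.sum_congr rfl fun l _ => by rw [hΓ l k i, hsym l j]; ring
      · exact Finset.sum_congr rfl fun l _ => by rw [hΓ l k j]; ring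
    simp only [f1, Finset.sum_add_distrib]
    rw [add_comm]
    congr 1
    exact Finset.sum_comm
  have e2 : ∑ k, Γ k j i * a k = ∑ l, a l * Γ l i j :=
    Finset.sum_congr rfl fun k _ => by rw [hΓ k j i]; ring
  have e3 : ∑ k, Γ k j k = ∑ k, Γ k k j := Finset.sum_congr rfl fun k _ => hΓ _ _ _
  have e4 : ∑ k, Γ k i k = ∑ k, Γ k k i := Finset.sum_congr rfl fun k _ => hΓ _ _ _
  rw [e1, e2, e3, e4, hA j i]
  ring

end Alg

/-- the trace of the Hessian is the divergence of the gradient, algebraic form -/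
lemma trace_alg {ι : Type} [Fintype ι] [DecidableEq ι] {G H : ι → ι → ℝ} {D Γ : ι → ι → ι → ℝ}
    {a u : ι → ℝ} {A Du : ι → ι → ℝ} (hsym : ∀ i j, G i j = G j i)
    (hHG : ∀ i j, ∑ k, H i k * G k j = if i = j then 1 else 0) (hHs : ∀ i j, H i j = H j i)
    (hu : ∀ l, ∑ k, G k l * u k = a l)
    (hΓ : ∀ k i j, Γ k i j = Γ k j i) (hA : ∀ i j, A i j = A j i)
    (hcomp : ∀ m i j, D m i j = ∑ l, Γ l m i * G l j + ∑ l, Γ l m j * G i l)
    (hDu : ∀ i j, ∑ k, (D j i k * u k + G i k * Du j k) = A j i) :
    ∑ i, ∑ j, H i j * (A i j - ∑ l, a l * Γ l i j) = ∑ k, Du k k + ∑ k, ∑ l, Γ k k l * u l := by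
  have h1 : ∀ i j, H i j * A i j
      = ∑ k, H i j * (D j i k * u k) + ∑ k, H i j * (G i k * Du j k) := by
    intro i j
    rw [← Finset.sum_add_distrib, hA i j, ← hDu i j, Finset.mul_sum]
    exact Finset.sum_congr rfl fun k _ => by ring
  have h2 : ∑ i, ∑ j, ∑ k, H i j * (G i k * Du j k) = ∑ k, Du k k := by
    rw [Finset.sum_comm]
    apply Finset.sum_congr rfl
    intro j _
    rw [Finset.sum_comm]
    have : ∀ k, ∑ i, H i j * (G i k * Du j k) = (if j = k then 1 else 0) * Du j k := by
      intro k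
      rw [← hHG j k, Finset.sum_mul]
      exact Finset.sum_congr rfl fun i _ => by rw [hHs i j]; ring
    simp only [this, ite_mul, one_mul, zero_mul, Finset.sum_ite_eq, Finset.mem_univ, if_true]
  have h3 : ∀ i j, ∑ k, H i j * (D j i k * u k)
      = H i j * (∑ l, a l * Γ l i j) + ∑ k, ∑ l, H i j * G i l * (Γ l j k * u k) := by
    intro i j
    have e1 : ∀ k, H i j * (D j i k * u k)
        = (∑ l, H i j * (Γ l j i * (G l k * u k))) + ∑ l, H i j * G i l * (Γ l j k * u k) := by
      intro k
      rw [hcomp, add_mul, mul_add, Finset.sum_mul, Finset.sum_mul, Finset.mul_sum, Finset.mul_sum]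
      congr 1
      · exact Finset.sum_congr rfl fun l _ => by ring
      · exact Finset.sum_congr rfl fun l _ => by ring
    simp only [e1, Finset.sum_add_distrib]
    congr 1
    rw [Finset.sum_comm, Finset.mul_sum]
    apply Finset.sum_congr rfl
    intro l _
    have e2 : ∑ k, G l k * u k = a l := by
      rw [← hu l]
      exact Finset.sum_congr rfl fun k _ => by rw [hsym]
    rw [← Finset.mul_sum, ← Finset.mul_sum, e2, hΓ l j i]
    ring
  have h4 : ∑ i, ∑ j, ∑ k, ∑ l, H i j * G i l * (Γ l j k * u k) = ∑ k, ∑ l, Γ k k l * u l := by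
    rw [Finset.sum_comm]
    apply Finset.sum_congr rfl
    intro j _
    rw [Finset.sum_comm]
    apply Finset.sum_congr rfl
    intro k _
    rw [Finset.sum_comm]
    have : ∀ l, ∑ i, H i j * G i l * (Γ l j k * u k) = (if j = l then 1 else 0) * (Γ l j k * u k) := by
      intro l
      rw [← hHG j l, Finset.sum_mul]
      exact Finset.sum_congr rfl fun i _ => by rw [hHs i j]
    simp only [this, ite_mul, one_mul, zero_mul, Finset.sum_ite_eq, Finset.mem_univ, if_true]
  simp only [mul_sub, h1, h3]
  simp only [Finset.sum_sub_distrib, Finset.sum_add_distrib]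
  rw [h2, h4]
  ring

/-! ### Calculus -/

section Calc

variable {ι : Type} [Fintype ι] [DecidableEq ι] {U : Set (EI ι)}

lemma pd_congr' {f g : EI ι → ℝ} {y : EI ι} (m : ι) (h : f =ᶠ[nhds y] g) :
    pd m f y = pd m g y := by
  simp only [pd]
  rw [h.fderiv_eq]

lemma pd_add' {f g : EI ι → ℝ} {y : EI ι} (m : ι) (hf : DifferentiableAt ℝ f y)
    (hg : DifferentiableAt ℝ g y) : pd m (fun z => f z + g z) y = pd m f y + pd m g y := by
  simp only [pd]
  rw [fderiv_fun_add hf hg]
  simp

lemma pd_sub' {f g : EI ι → ℝ} {y : EI ι} (m : ι) (hf : DifferentiableAt ℝ f y)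
    (hg : DifferentiableAt ℝ g y) : pd m (fun z => f z - g z) y = pd m f y - pd m g y := by
  simp only [pd]
  rw [fderiv_fun_sub hf hg]
  simp

lemma pd_mul' {f g : EI ι → ℝ} {y : EI ι} (m : ι) (hf : DifferentiableAt ℝ f y)
    (hg : DifferentiableAt ℝ g y) :
    pd m (fun z => f z * g z) y = pd m f y * g y + f y * pd m g y := by
  simp only [pd]
  rw [fderiv_fun_mul hf hg]
  simp
  ring

lemma pd_zero' (m : ι) (y : EI ι) : pd m (fun _ => (0 : ℝ)) y = 0 := by
  simp [pd]

lemma pd_ite' (p : Prop) [Decidable p] (f : EI ι → ℝ) (m : ι) (y : EI ι) :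
    pd m (fun z => if p then f z else 0) y = if p then pd m f y else 0 := by
  by_cases hp : p
  · simp only [hp, if_true]
  · simp only [hp, if_false]
    exact pd_zero' m y

lemma diff_ite (p : Prop) [Decidable p] {f : EI ι → ℝ} {y : EI ι} (h : DifferentiableAt ℝ f y) :
    DifferentiableAt ℝ (fun z => if p then f z else 0) y := by
  by_cases hp : p
  · simpa [hp] using h
  · simp [hp]

lemma pd_sum' {κ : Type} (s : Finset κ) {f : κ → EI ι → ℝ} {y : EI ι} (m : ι)
    (hf : ∀ i ∈ s, DifferentiableAt ℝ (f i) y) :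
    pd m (fun z => ∑ i ∈ s, f i z) y = ∑ i ∈ s, pd m (f i) y := by
  simp only [pd]
  rw [fderiv_fun_sum hf]
  simp

lemma contDiffOn_pd' {f : EI ι → ℝ} (hU : IsOpen U) (hf : ContDiffOn ℝ ∞ f U) (i : ι) :
    ContDiffOn ℝ ∞ (pd i f) U := by
  unfold pd
  have h1 : ContDiffOn ℝ ∞ (fderiv ℝ f) U := hf.fderiv_of_isOpen hU (by simp)
  exact h1.clm_apply contDiffOn_const

lemma diffAt {f : EI ι → ℝ} (hU : IsOpen U) (hf : ContDiffOn ℝ ∞ f U) {x : EI ι} (hx : x ∈ U) :
    DifferentiableAt ℝ f x :=
  ((hf x hx).contDiffAt (hU.mem_nhds hx)).differentiableAt (by simp)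

lemma pd_comm' {f : EI ι → ℝ} (hU : IsOpen U) (hf : ContDiffOn ℝ ∞ f U) {x : EI ι} (hx : x ∈ U)
    (i j : ι) : pd i (pd j f) x = pd j (pd i f) x := by
  have h0 : ContDiffAt ℝ ∞ f x := (hf x hx).contDiffAt (hU.mem_nhds hx)
  have hs : IsSymmSndFDerivAt ℝ f x := by
    apply h0.isSymmSndFDerivAt
    have h2 : ((2 : ℕ∞) : WithTop ℕ∞) ≤ ((⊤ : ℕ∞) : WithTop ℕ∞) := WithTop.coe_le_coe.2 le_top
    simpa using h2
  have hd : DifferentiableAt ℝ (fderiv ℝ f) x := by
    have h1 : ContDiffAt ℝ ∞ (fderiv ℝ f) x := h0.fderiv_right (by simp)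
    exact h1.differentiableAt (by simp)
  have key : ∀ a b : ι, pd a (pd b f) x
      = fderiv ℝ (fderiv ℝ f) x (EuclideanSpace.single a 1) (EuclideanSpace.single b 1) := by
    intro a b
    show fderiv ℝ (fun y => fderiv ℝ f y (EuclideanSpace.single b 1)) x
      (EuclideanSpace.single a 1) = _
    rw [fderiv_clm_apply hd (differentiableAt_const _)]
    simp
  rw [key, key]
  exact hs.eq _ _

/-! ### The conformal change -/

variable {g : EI ι → Matrix ι ι ℝ} {f : EI ι → ℝ}

/-- the metric `e^{2f} g` -/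
noncomputable def cf (f : EI ι → ℝ) (g : EI ι → Matrix ι ι ℝ) (x : EI ι) : Matrix ι ι ℝ :=
  Real.exp (2 * f x) • g x

/-- the gradient of `f` -/
noncomputable def grad (g : EI ι → Matrix ι ι ℝ) (f : EI ι → ℝ) (k : ι) (x : EI ι) : ℝ :=
  ∑ l, (g x)⁻¹ k l * pd l f x

/-- the Laplace operator, `div grad f = ∂_k f^k + Γ^k_{kl} f^l` -/
noncomputable def lap (g : EI ι → Matrix ι ι ℝ) (f : EI ι → ℝ) (x : EI ι) : ℝ :=
  ∑ k, pd k (grad g f k) x + ∑ k, ∑ l, christoffel g k k l x * grad g f l x

lemma g_sym (hg : IsRiemMetricOn U g) {x : EI ι} (hx : x ∈ U) (i j : ι) : g x i j = g x j i := by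
  have h := (hg.posDef x hx).isHermitian
  have h2 := h.apply i j
  simpa using h2.symm

lemma inv_sym (hg : IsRiemMetricOn U g) {x : EI ι} (hx : x ∈ U) (i j : ι) :
    (g x)⁻¹ i j = (g x)⁻¹ j i := by
  have h := (hg.posDef x hx).isHermitian.inv
  have h2 := h.apply i j
  simpa using h2.symm

lemma inv_mul_g (hg : IsRiemMetricOn U g) {x : EI ι} (hx : x ∈ U) (i j : ι) :
    ∑ k, (g x)⁻¹ i k * g x k j = if i = j then 1 else 0 := by
  have hdet : IsUnit (g x).det := (hg.posDef x hx).isUnit.map Matrix.detMonoidHom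
  have h1 : (g x)⁻¹ * g x = 1 := Matrix.nonsing_inv_mul _ hdet
  have h2 := congrFun (congrFun h1 i) j
  rw [Matrix.mul_apply, Matrix.one_apply] at h2
  exact h2

lemma g_mul_inv (hg : IsRiemMetricOn U g) {x : EI ι} (hx : x ∈ U) (i j : ι) :
    ∑ k, g x i k * (g x)⁻¹ k j = if i = j then 1 else 0 := by
  have hdet : IsUnit (g x).det := (hg.posDef x hx).isUnit.map Matrix.detMonoidHom
  have h1 : g x * (g x)⁻¹ = 1 := Matrix.mul_nonsing_inv _ hdet
  have h2 := congrFun (congrFun h1 i) j
  rw [Matrix.mul_apply, Matrix.one_apply] at h2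
  exact h2

lemma smooth_inv (hg : IsRiemMetricOn U g) (i j : ι) :
    ContDiffOn ℝ ∞ (fun x => (g x)⁻¹ i j) U := by
  have h1 : ∀ x ∈ U, (g x)⁻¹ i j = (g x).det⁻¹ * (g x).adjugate i j := by
    intro x hx
    rw [Matrix.inv_def, Ring.inverse_eq_inv', Matrix.smul_apply, smul_eq_mul]
  have hdet : ∀ (M : EI ι → Matrix ι ι ℝ), (∀ a b, ContDiffOn ℝ ∞ (fun x => M x a b) U) →
      ContDiffOn ℝ ∞ (fun x => (M x).det) U := by
    intro M hM
    simp only [Matrix.det_apply]
    apply ContDiffOn.sum
    intro σ _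
    apply ContDiffOn.const_smul
    exact contDiffOn_prod fun a _ => hM _ _
  have h2 : ContDiffOn ℝ ∞ (fun x => (g x).det) U := hdet g hg.smooth
  have h3 : ContDiffOn ℝ ∞ (fun x => (g x).adjugate i j) U := by
    have : ∀ x, (g x).adjugate i j = ((g x).updateRow j (Pi.single i 1)).det := fun x =>
      Matrix.adjugate_apply _ _ _
    simp only [this]
    apply hdet
    intro a b
    by_cases h : a = j
    · subst h
      simp only [Matrix.updateRow_self]
      exact contDiffOn_const
    · simp only [Matrix.updateRow_ne h]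
      exact hg.smooth a b
  have h4 : ContDiffOn ℝ ∞ (fun x => (g x).det⁻¹ * (g x).adjugate i j) U :=
    (h2.inv fun x hx => ((hg.posDef x hx).isUnit.map Matrix.detMonoidHom).ne_zero).mul h3
  exact h4.congr h1

lemma smooth_grad (hU : IsOpen U) (hg : IsRiemMetricOn U g) (hf : ContDiffOn ℝ ∞ f U) (k : ι) :
    ContDiffOn ℝ ∞ (grad g f k) U := by
  unfold grad
  exact ContDiffOn.sum fun l _ => (smooth_inv hg k l).mul (contDiffOn_pd' hU hf l)

lemma smooth_christoffel (hU : IsOpen U) (hg : IsRiemMetricOn U g) (k i j : ι) :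
    ContDiffOn ℝ ∞ (christoffel g k i j) U := by
  unfold christoffel
  apply ContDiffOn.mul contDiffOn_const
  exact ContDiffOn.sum fun l _ => (smooth_inv hg k l).mul
    (((contDiffOn_pd' hU (hg.smooth j l) i).add (contDiffOn_pd' hU (hg.smooth i l) j)).sub
      (contDiffOn_pd' hU (hg.smooth i j) l))

lemma pd_g_sym (hU : IsOpen U) (hg : IsRiemMetricOn U g) {x : EI ι} (hx : x ∈ U) (m i j : ι) :
    pd m (fun y => g y i j) x = pd m (fun y => g y j i) x := by
  apply pd_congr'
  filter_upwards [hU.mem_nhds hx] with y hy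
  exact g_sym hg hy i j

lemma christoffel_sym (hU : IsOpen U) (hg : IsRiemMetricOn U g) {x : EI ι} (hx : x ∈ U)
    (k i j : ι) : christoffel g k i j x = christoffel g k j i x := by
  unfold christoffel
  congr 1
  apply Finset.sum_congr rfl
  intro l _
  rw [pd_g_sym hU hg hx l i j]
  ring

/-- metric compatibility -/
lemma compat (hU : IsOpen U) (hg : IsRiemMetricOn U g) {x : EI ι} (hx : x ∈ U) (m i j : ι) :
    pd m (fun y => g y i j) x
      = ∑ l, christoffel g l m i x * g x l j + ∑ l, christoffel g l m j x * g x i l := by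
  have h1 : ∀ a b c : ι, ∑ l, christoffel g l a b x * g x l c
      = (1 / 2) * (pd a (fun y => g y b c) x + pd b (fun y => g y a c) x
          - pd c (fun y => g y a b) x) := by
    intro a b c
    unfold christoffel
    have e1 : ∀ l, (1 / 2) * (∑ p, (g x)⁻¹ l p * (pd a (fun y => g y b p) x
        + pd b (fun y => g y a p) x - pd p (fun y => g y a b) x)) * g x l c
        = ∑ p, (1 / 2) * (g x c l * (g x)⁻¹ l p) * (pd a (fun y => g y b p) x
        + pd b (fun y => g y a p) x - pd p (fun y => g y a b) x) := by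
      intro l
      rw [Finset.mul_sum, Finset.sum_mul]
      apply Finset.sum_congr rfl
      intro p _
      rw [g_sym hg hx c l]
      ring
    simp only [e1]
    rw [Finset.sum_comm]
    have e2 : ∀ p, ∑ l, (1 / 2) * (g x c l * (g x)⁻¹ l p) * (pd a (fun y => g y b p) x
        + pd b (fun y => g y a p) x - pd p (fun y => g y a b) x)
        = (if c = p then (1 / 2) * (pd a (fun y => g y b p) x
        + pd b (fun y => g y a p) x - pd p (fun y => g y a b) x) else 0) := by
      intro p
      rw [← Finset.sum_mul, ← Finset.mul_sum, g_mul_inv hg hx]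
      split_ifs <;> ring
    simp only [e2, Finset.sum_ite_eq, Finset.mem_univ, if_true]
  have h2 : ∑ l, christoffel g l m j x * g x i l = ∑ l, christoffel g l m j x * g x l i :=
    Finset.sum_congr rfl fun l _ => by rw [g_sym hg hx]
  rw [h2, h1, h1, pd_g_sym hU hg hx m j i, pd_g_sym hU hg hx j m i, pd_g_sym hU hg hx i m j,
    pd_g_sym hU hg hx j i m]
  ring

lemma g_mul_grad (hg : IsRiemMetricOn U g) {x : EI ι} (hx : x ∈ U) (l : ι) :
    ∑ k, g x l k * grad g f k x = pd l f x := by
  unfold grad
  have h1 : ∀ k, g x l k * ∑ p, (g x)⁻¹ k p * pd p f x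
      = ∑ p, (g x l k * (g x)⁻¹ k p) * pd p f x := by
    intro k
    rw [Finset.mul_sum]
    exact Finset.sum_congr rfl fun p _ => by ring
  simp only [h1]
  rw [Finset.sum_comm]
  have h2 : ∀ p, ∑ k, (g x l k * (g x)⁻¹ k p) * pd p f x = if l = p then pd p f x else 0 := by
    intro p
    rw [← Finset.sum_mul, g_mul_inv hg hx]
    split_ifs <;> ring
  simp only [h2, Finset.sum_ite_eq, Finset.mem_univ, if_true]

lemma cf_inv (hg : IsRiemMetricOn U g) {x : EI ι} (hx : x ∈ U) (i j : ι) :
    (cf f g x)⁻¹ i j = Real.exp (-(2 * f x)) * (g x)⁻¹ i j := by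
  have hdet : IsUnit (g x).det := (hg.posDef x hx).isUnit.map Matrix.detMonoidHom
  have h1 : (cf f g x)⁻¹ = Real.exp (-(2 * f x)) • (g x)⁻¹ := by
    apply Matrix.inv_eq_right_inv
    unfold cf
    rw [smul_mul_smul_comm, Matrix.mul_nonsing_inv _ hdet, ← Real.exp_add]
    simp
  rw [h1, Matrix.smul_apply, smul_eq_mul]

lemma pd_cf (hU : IsOpen U) (hg : IsRiemMetricOn U g) (hf : ContDiffOn ℝ ∞ f U) {x : EI ι}
    (hx : x ∈ U) (m i j : ι) : pd m (fun y => cf f g y i j) x
      = Real.exp (2 * f x) * (2 * pd m f x * g x i j + pd m (fun y => g y i j) x) := by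
  have h1 : (fun y => cf f g y i j) = fun y => Real.exp (2 * f y) * g y i j := by
    funext y
    unfold cf
    rw [Matrix.smul_apply, smul_eq_mul]
  rw [h1]
  have hdf := diffAt hU hf hx
  have h2 : HasFDerivAt (fun z => Real.exp (2 * f z))
      (Real.exp (2 * f x) • ((2 : ℝ) • fderiv ℝ f x)) x :=
    (hdf.hasFDerivAt.const_mul 2).exp
  rw [pd_mul' m h2.differentiableAt (diffAt hU (hg.smooth i j) hx)]
  have h3 : pd m (fun z => Real.exp (2 * f z)) x = Real.exp (2 * f x) * (2 * pd m f x) := by
    simp only [pd]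
    rw [h2.fderiv]
    simp
  rw [h3]
  ring

lemma christoffel_cf (hU : IsOpen U) (hg : IsRiemMetricOn U g) (hf : ContDiffOn ℝ ∞ f U)
    {x : EI ι} (hx : x ∈ U) (k i j : ι) :
    christoffel (cf f g) k i j x = christoffel g k i j x
      + TT (fun i j => g x i j) (fun l => pd l f x) (fun l => grad g f l x) k i j := by
  unfold christoffel
  simp only [pd_cf hU hg hf hx, cf_inv hg hx]
  have he : Real.exp (-(2 * f x)) * Real.exp (2 * f x) = 1 := by
    rw [← Real.exp_add]; simp
  have h1 : ∀ l, Real.exp (-(2 * f x)) * (g x)⁻¹ k l *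
      (Real.exp (2 * f x) * (2 * pd i f x * g x j l + pd i (fun y => g y j l) x)
        + Real.exp (2 * f x) * (2 * pd j f x * g x i l + pd j (fun y => g y i l) x)
        - Real.exp (2 * f x) * (2 * pd l f x * g x i j + pd l (fun y => g y i j) x))
      = (g x)⁻¹ k l * (pd i (fun y => g y j l) x + pd j (fun y => g y i l) x
          - pd l (fun y => g y i j) x)
        + 2 * ((g x)⁻¹ k l * g x l j * pd i f x + (g x)⁻¹ k l * g x l i * pd j f x
          - g x i j * ((g x)⁻¹ k l * pd l f x)) := by
    intro l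
    rw [g_sym hg hx j l, g_sym hg hx i l]
    linear_combination ((g x)⁻¹ k l * (2 * pd i f x * g x l j + pd i (fun y => g y j l) x
      + (2 * pd j f x * g x l i + pd j (fun y => g y i l) x)
      - (2 * pd l f x * g x i j + pd l (fun y => g y i j) x))) * he
  simp only [h1, Finset.sum_add_distrib, ← Finset.mul_sum, Finset.sum_sub_distrib, ← Finset.sum_mul,
    inv_mul_g hg hx]
  unfold TT grad
  rw [mul_add]
  congr 1
  split_ifs <;> ring

lemma pd_christoffel_cf (hU : IsOpen U) (hg : IsRiemMetricOn U g) (hf : ContDiffOn ℝ ∞ f U)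
    {x : EI ι} (hx : x ∈ U) (m k i j : ι) :
    pd m (christoffel (cf f g) k i j) x = pd m (christoffel g k i j) x
      + DT (fun i j => g x i j) (fun m i j => pd m (fun y => g y i j) x)
          (fun m l => pd m (pd l f) x) (fun m l => pd m (grad g f l) x)
          (fun l => grad g f l x) m k i j := by
  have h1 : christoffel (cf f g) k i j =ᶠ[nhds x] fun y => christoffel g k i j y
      + (((if k = i then pd j f y else 0) + (if k = j then pd i f y else 0))
        - g y i j * grad g f k y) := by
    filter_upwards [hU.mem_nhds hx] with y hy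
    rw [christoffel_cf hU hg hf hy]
    rfl
  rw [pd_congr' m h1]
  have d0 := diffAt hU (smooth_christoffel hU hg k i j) hx
  have d1 : ∀ l, DifferentiableAt ℝ (pd l f) x := fun l => diffAt hU (contDiffOn_pd' hU hf l) hx
  have d2 := diffAt hU (smooth_grad hU hg hf k) hx
  have d3 := diffAt hU (hg.smooth i j) hx
  have d4 := diff_ite (k = i) (d1 j)
  have d5 := diff_ite (k = j) (d1 i)
  rw [pd_add' m d0 ((d4.fun_add d5).fun_sub (d3.fun_mul d2)),
    pd_sub' m (d4.fun_add d5) (d3.fun_mul d2), pd_add' m d4 d5, pd_mul' m d3 d2, pd_ite', pd_ite']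
  rfl

/-- the Ricci curvature of `e^{2f} g` -/
theorem ricci_cf (hU : IsOpen U) (hg : IsRiemMetricOn U g) (hf : ContDiffOn ℝ ∞ f U)
    {x : EI ι} (hx : x ∈ U) (i j : ι) :
    ricci (cf f g) i j x = ricci g i j x
      + (-((Fintype.card ι : ℝ) - 2) * (pd i (pd j f) x - ∑ l, pd l f x * christoffel g l i j x
            - pd i f x * pd j f x)
          - g x i j * (lap g f x + ((Fintype.card ι : ℝ) - 2) * ∑ l, pd l f x * grad g f l x)) := by
  have halg := ricci_alg (G := fun i j => g x i j) (D := fun m i j => pd m (fun y => g y i j) x)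
    (Γ := fun k i j => christoffel g k i j x) (a := fun l => pd l f x)
    (u := fun l => grad g f l x) (A := fun m l => pd m (pd l f) x)
    (Du := fun m l => pd m (grad g f l) x)
    (fun i j => g_sym hg hx i j)
    (fun l => by
      rw [← g_mul_grad (f := f) hg hx l]
      exact Finset.sum_congr rfl fun k _ => by rw [g_sym hg hx])
    (fun k i j => christoffel_sym hU hg hx k i j)
    (fun i j => pd_comm' hU hf hx i j)
    (fun m i j => compat hU hg hx m i j)
    (fun i j => by
      have h1 : (fun y => ∑ k, g y i k * grad g f k y) =ᶠ[nhds x] pd i f := by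
        filter_upwards [hU.mem_nhds hx] with y hy
        exact g_mul_grad hg hy i
      rw [← pd_congr' j h1, pd_sum' _ j fun k _ =>
        (diffAt hU (hg.smooth i k) hx).fun_mul (diffAt hU (smooth_grad hU hg hf k) hx)]
      apply Finset.sum_congr rfl
      intro k _
      rw [pd_mul' j (diffAt hU (hg.smooth i k) hx) (diffAt hU (smooth_grad hU hg hf k) hx)])
    i j
  unfold lap
  rw [← halg]
  unfold ricci
  rw [← Finset.sum_add_distrib]
  apply Finset.sum_congr rfl
  intro k _
  rw [pd_christoffel_cf hU hg hf hx, pd_christoffel_cf hU hg hf hx]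
  have h2 : ∀ l, christoffel (cf f g) k k l x * christoffel (cf f g) l i j x
      - christoffel (cf f g) k j l x * christoffel (cf f g) l i k x
      = (christoffel g k k l x * christoffel g l i j x
          - christoffel g k j l x * christoffel g l i k x)
        + ((christoffel g k k l x * TT (fun i j => g x i j) (fun l => pd l f x)
              (fun l => grad g f l x) l i j
            + TT (fun i j => g x i j) (fun l => pd l f x) (fun l => grad g f l x) k k l
              * christoffel g l i j x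
            + TT (fun i j => g x i j) (fun l => pd l f x) (fun l => grad g f l x) k k l
              * TT (fun i j => g x i j) (fun l => pd l f x) (fun l => grad g f l x) l i j)
          - (christoffel g k j l x * TT (fun i j => g x i j) (fun l => pd l f x)
              (fun l => grad g f l x) l i k
            + TT (fun i j => g x i j) (fun l => pd l f x) (fun l => grad g f l x) k j l
              * christoffel g l i k x
            + TT (fun i j => g x i j) (fun l => pd l f x) (fun l => grad g f l x) k j l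
              * TT (fun i j => g x i j) (fun l => pd l f x) (fun l => grad g f l x) l i k)) := by
    intro l
    rw [christoffel_cf hU hg hf hx, christoffel_cf hU hg hf hx, christoffel_cf hU hg hf hx,
      christoffel_cf hU hg hf hx]
    ring
  simp only [h2, Finset.sum_add_distrib]
  ring

/-- **Conformal change of the scalar curvature.** -/
theorem scal_cf (hU : IsOpen U) (hg : IsRiemMetricOn U g) (hf : ContDiffOn ℝ ∞ f U)
    {x : EI ι} (hx : x ∈ U) :
    scal (cf f g) x = Real.exp (-(2 * f x)) * (scal g x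
      - 2 * ((Fintype.card ι : ℝ) - 1) * lap g f x
      - ((Fintype.card ι : ℝ) - 1) * ((Fintype.card ι : ℝ) - 2)
          * ∑ l, pd l f x * grad g f l x) := by
  have htr := trace_alg (G := fun i j => g x i j) (H := fun i j => (g x)⁻¹ i j)
    (D := fun m i j => pd m (fun y => g y i j) x)
    (Γ := fun k i j => christoffel g k i j x) (a := fun l => pd l f x)
    (u := fun l => grad g f l x) (A := fun m l => pd m (pd l f) x)
    (Du := fun m l => pd m (grad g f l) x)
    (fun i j => g_sym hg hx i j) (fun i j => inv_mul_g hg hx i j) (fun i j => inv_sym hg hx i j)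
    (fun l => by
      rw [← g_mul_grad (f := f) hg hx l]
      exact Finset.sum_congr rfl fun k _ => by rw [g_sym hg hx])
    (fun k i j => christoffel_sym hU hg hx k i j)
    (fun i j => pd_comm' hU hf hx i j)
    (fun m i j => compat hU hg hx m i j)
    (fun i j => by
      have h1 : (fun y => ∑ k, g y i k * grad g f k y) =ᶠ[nhds x] pd i f := by
        filter_upwards [hU.mem_nhds hx] with y hy
        exact g_mul_grad hg hy i
      rw [← pd_congr' j h1, pd_sum' _ j fun k _ =>
        (diffAt hU (hg.smooth i k) hx).fun_mul (diffAt hU (smooth_grad hU hg hf k) hx)]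
      apply Finset.sum_congr rfl
      intro k _
      rw [pd_mul' j (diffAt hU (hg.smooth i k) hx) (diffAt hU (smooth_grad hU hg hf k) hx)])
  have hlap : ∑ i, ∑ j, (g x)⁻¹ i j * (pd i (pd j f) x - ∑ l, pd l f x * christoffel g l i j x)
      = lap g f x := htr
  have h1 : ∑ i, ∑ j, (g x)⁻¹ i j * g x i j = (Fintype.card ι : ℝ) := by
    have : ∀ i, ∑ j, (g x)⁻¹ i j * g x i j = 1 := by
      intro i
      have := inv_mul_g hg hx i i
      rw [if_pos rfl] at this
      rw [← this]
      exact Finset.sum_congr rfl fun j _ => by rw [g_sym hg hx]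
    simp [this]
  have h2 : ∑ i, ∑ j, (g x)⁻¹ i j * (pd i f x * pd j f x) = ∑ l, pd l f x * grad g f l x := by
    apply Finset.sum_congr rfl
    intro i _
    unfold grad
    rw [Finset.mul_sum]
    exact Finset.sum_congr rfl fun j _ => by ring
  unfold scal
  have h3 : ∀ i j, (cf f g x)⁻¹ i j * ricci (cf f g) i j x
      = Real.exp (-(2 * f x)) * ((g x)⁻¹ i j * ricci g i j x
        - ((Fintype.card ι : ℝ) - 2) * ((g x)⁻¹ i j * (pd i (pd j f) x
            - ∑ l, pd l f x * christoffel g l i j x))
        + ((Fintype.card ι : ℝ) - 2) * ((g x)⁻¹ i j * (pd i f x * pd j f x))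
        - ((g x)⁻¹ i j * g x i j) * (lap g f x + ((Fintype.card ι : ℝ) - 2)
            * ∑ l, pd l f x * grad g f l x)) := by
    intro i j
    rw [cf_inv hg hx, ricci_cf hU hg hf hx]
    ring
  simp only [h3, ← Finset.mul_sum, Finset.sum_add_distrib, Finset.sum_sub_distrib, ← Finset.sum_mul]
  rw [h1, h2, hlap]
  ring

end Calc

end Vale.Agent.P210.TP.CC
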