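import Vale.Agent.P210.TP.Props

/-! Block [EN]: the energy inequality with a vector field `V` in the place of `∇φ`. -/

set_option linter.all false

open scoped ENNReal ContDiff
open MeasureTheory Set

namespace Vale.Agent.P210

lemma pd_testFieldQ {n : ℕ} {φ ζ v : E n → ℝ} {x : E n} {ε b : ℝ} (hε : 0 ≤ ε) (m : ℕ) (i : Fin n)
    (hφ : DifferentiableAt ℝ φ x) (hp : DifferentiableAt ℝ v x)
    (hζ : DifferentiableAt ℝ ζ x) :
    pd i (fun y => thw ε b (φ y) * ζ y ^ m * v y) x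
      = (thw ε b (φ x) * ((b - 2)
          - b * (ε * Real.exp (b * φ x) / (1 + ε * Real.exp (b * φ x))))) * (pd i φ x * v x)
            * ζ x ^ m
        + thw ε b (φ x) * (m * ζ x ^ (m - 1) * pd i ζ x) * v x
        + thw ε b (φ x) * ζ x ^ m * pd i v x := by
  have h1 : HasFDerivAt (fun y => thw ε b (φ y))
      ((thw ε b (φ x) * ((b - 2)
          - b * (ε * Real.exp (b * φ x) / (1 + ε * Real.exp (b * φ x))))) • fderiv ℝ φ x) x :=
    (hasDerivAt_thw hε).comp_hasFDerivAt x hφ.hasFDerivAt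
  have h2 : HasFDerivAt (fun y => ζ y ^ m) ((m * ζ x ^ (m - 1)) • fderiv ℝ ζ x) x := by
    have := (hasDerivAt_pow m (ζ x)).comp_hasFDerivAt x hζ.hasFDerivAt
    exact this
  have h3 : HasFDerivAt (fun y => thw ε b (φ y) * ζ y ^ m * v y)
      ((thw ε b (φ x) * ζ x ^ m) • fderiv ℝ v x + v x •
        (thw ε b (φ x) • ((m * ζ x ^ (m - 1)) • fderiv ℝ ζ x) + ζ x ^ m •
        ((thw ε b (φ x) * ((b - 2)
          - b * (ε * Real.exp (b * φ x) / (1 + ε * Real.exp (b * φ x))))) • fderiv ℝ φ x))) x :=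
    (h1.mul h2).mul hp.hasFDerivAt
  have h4 : pd i (fun y => thw ε b (φ y) * ζ y ^ m * v y) x
      = ((thw ε b (φ x) * ζ x ^ m) • fderiv ℝ v x + v x •
        (thw ε b (φ x) • ((m * ζ x ^ (m - 1)) • fderiv ℝ ζ x) + ζ x ^ m •
        ((thw ε b (φ x) * ((b - 2)
          - b * (ε * Real.exp (b * φ x) / (1 + ε * Real.exp (b * φ x))))) • fderiv ℝ φ x)))
        (EuclideanSpace.single i 1) := by
    show fderiv ℝ (fun y => thw ε b (φ y) * ζ y ^ m * v y) x (EuclideanSpace.single i 1) = _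
    rw [h3.fderiv]
  rw [h4]
  simp only [pd, add_apply, smul_apply, smul_eq_mul]
  ring

/-- the pointwise inequality; `p` is the vector field, `u` the gradient of `φ`, `q` the gradient
of the cut-off, `c` the logarithmic derivative of the weight -/
lemma pointwise_sqQ {n : ℕ} {Θ z κ c δ W L Q0 : ℝ} {p q u : Fin n → ℝ} (m : ℕ) (hm : 2 ≤ m)
    (hΘ : 0 ≤ Θ) (hz : 0 ≤ z) (hδ : 0 < δ) (hc : c * (∑ i, p i * u i) - Q0 ≤ -δ * ∑ i, p i ^ 2)
    (h : κ * W ≤ -L - Q0) :
    κ * (Θ * W * z ^ m) ≤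
      -(Θ * c * (∑ i, u i * p i) * z ^ m + Θ * (m * z ^ (m - 1)) * (∑ i, q i * p i)
        + Θ * z ^ m * L) + (m : ℝ) ^ 2 / (4 * δ) * (Θ * z ^ (m - 2) * ∑ i, q i ^ 2) := by
  obtain ⟨k, rfl⟩ : ∃ k, m = k + 2 := ⟨m - 2, by omega⟩
  have e1 : k + 2 - 1 = k + 1 := by omega
  have e2 : k + 2 - 2 = k := by omega
  rw [e1, e2]
  have hSS : ∑ i, p i * u i = ∑ i, u i * p i := Finset.sum_congr rfl fun i _ => mul_comm _ _
  rw [hSS] at hc
  set M : ℝ := ((k + 2 : ℕ) : ℝ) with hM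
  set P := ∑ i, p i ^ 2 with hP
  set R := ∑ i, q i * p i with hR
  set Q := ∑ i, q i ^ 2 with hQ
  set S := ∑ i, u i * p i with hS
  have hP0 : 0 ≤ P := Finset.sum_nonneg fun i _ => sq_nonneg _
  have h1 : 0 ≤ 4 * δ ^ 2 * z ^ 2 * P - 4 * δ * M * z * R + M ^ 2 * Q := by
    have : ∑ i, (2 * δ * z * p i - M * q i) ^ 2
        = 4 * δ ^ 2 * z ^ 2 * P - 4 * δ * M * z * R + M ^ 2 * Q := by
      rw [hP, hR, hQ, Finset.mul_sum, Finset.mul_sum, Finset.mul_sum, ← Finset.sum_sub_distrib,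
        ← Finset.sum_add_distrib]
      apply Finset.sum_congr rfl
      intro i _
      ring
    rw [← this]
    exact Finset.sum_nonneg fun i _ => sq_nonneg _
  have h2 : 0 ≤ δ * z ^ 2 * P - M * z * R + M ^ 2 / (4 * δ) * Q := by
    have : δ * z ^ 2 * P - M * z * R + M ^ 2 / (4 * δ) * Q
        = (4 * δ ^ 2 * z ^ 2 * P - 4 * δ * M * z * R + M ^ 2 * Q) / (4 * δ) := by
      field_simp
    rw [this]
    positivity
  have h3 : 0 ≤ z ^ 2 * (Q0 - c * S) - M * z * R + M ^ 2 / (4 * δ) * Q := by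
    have : δ * (z ^ 2 * P) ≤ z ^ 2 * (Q0 - c * S) := by
      have h4 : δ * P ≤ Q0 - c * S := by linarith
      calc δ * (z ^ 2 * P) = z ^ 2 * (δ * P) := by ring
        _ ≤ _ := mul_le_mul_of_nonneg_left h4 (by positivity)
    linarith
  have h4 : 0 ≤ Θ * z ^ k * (z ^ 2 * (Q0 - c * S) - M * z * R + M ^ 2 / (4 * δ) * Q) := by
    positivity
  have h5 : κ * W * (Θ * z ^ (k + 2)) ≤ (-L - Q0) * (Θ * z ^ (k + 2)) :=
    mul_le_mul_of_nonneg_right h (by positivity)
  have h6 : -(Θ * c * S * z ^ (k + 2) + Θ * (M * z ^ (k + 1)) * R + Θ * z ^ (k + 2) * L)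
      + M ^ 2 / (4 * δ) * (Θ * z ^ k * Q)
      = (-L - Q0) * (Θ * z ^ (k + 2))
        + Θ * z ^ k * (z ^ 2 * (Q0 - c * S) - M * z * R + M ^ 2 / (4 * δ) * Q) := by
    ring
  rw [h6]
  linarith [h5, h4]

/-- the logarithmic derivative of the weight is in `[-2, b - 2]` -/
lemma thw_slope_mem {b ε t : ℝ} (hb : 2 < b) (hε : 0 < ε) :
    (b - 2) - b * (ε * Real.exp (b * t) / (1 + ε * Real.exp (b * t))) ∈ Icc (-2 : ℝ) (b - 2) := by
  have hs0 : 0 ≤ ε * Real.exp (b * t) / (1 + ε * Real.exp (b * t)) := by positivity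
  have hs1 : ε * Real.exp (b * t) / (1 + ε * Real.exp (b * t)) ≤ 1 := by
    rw [div_le_one (by positivity)]
    linarith
  constructor
  · nlinarith
  · nlinarith

lemma energy_cutQ {n : ℕ} {κ b δ ε ε' C0 : ℝ} (m : ℕ) (hm : 3 ≤ m) (hmb : b ≤ m) (hb : 2 < b)
    (hκ : 0 < κ) (hδ : 0 < δ) (hε : 0 < ε) (hC0 : 0 < C0)
    {Ω : Set (E n)} {φ : E n → ℝ} {V : Fin n → E n → ℝ} {Q0 : E n → ℝ} (hΩ : IsOpen Ω)
    (hφ : ContDiffOn ℝ ∞ φ Ω) (hV : ∀ i, ContDiffOn ℝ ∞ (V i) Ω)
    (hineq : ∀ x ∈ Ω, κ * Real.exp (2 * φ x) ≤ -(∑ i, pd i (V i) x) - Q0 x)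
    (hQ0 : ∀ x ∈ Ω, ∀ β ∈ Icc (-2 : ℝ) (b - 2),
      β * ∑ i, V i x * pd i φ x - Q0 x ≤ -δ * ∑ i, V i x ^ 2)
    {χ ψ : E n → ℝ} (hχ : ContDiff ℝ ∞ χ) (hχc : HasCompactSupport χ) (hχΩ : tsupport χ ⊆ Ω)
    (hχ01 : ∀ x, 0 ≤ χ x ∧ χ x ≤ 1) (hχd : ∀ x ∈ Ω, ‖fderiv ℝ χ x‖ ≤ ε' * Real.exp (φ x))
    {x0 : E n} {r : ℝ} (hr : 0 < r) (hψ : ContDiff ℝ ∞ ψ) (hψ01 : ∀ x, 0 ≤ ψ x ∧ ψ x ≤ 1)
    (hψ0 : ∀ x, x ∉ Metric.closedBall x0 (2 * r) → ψ x = 0)
    (hψd : ∀ x, ‖fderiv ℝ ψ x‖ ≤ C0 / r) (S : Set (E n)) (hSm : MeasurableSet S)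
    (hS : ∀ x ∈ S, ψ x = 1 ∧ χ x = 1) :
    ∫⁻ x in S, ENNReal.ofReal (thw ε b (φ x) * Real.exp (2 * φ x)) ≤
      ENNReal.ofReal (2 / κ * (((m : ℝ) ^ 2 / (2 * δ) * ε' ^ 2 / ε
        + (m : ℝ) ^ 2 / (2 * δ) * C0 ^ 2
          * (C0 * Real.sqrt (2 * ((m : ℝ) ^ 2 / (2 * δ)) / κ)) ^ (b - 2) * r ^ (-b))
        * volume.real (Metric.closedBall x0 (2 * r)))) := by
  classical
  set M : ℝ := (m : ℝ) ^ 2 / (2 * δ) * ε' ^ 2 / ε
        + (m : ℝ) ^ 2 / (2 * δ) * C0 ^ 2
          * (C0 * Real.sqrt (2 * ((m : ℝ) ^ 2 / (2 * δ)) / κ)) ^ (b - 2) * r ^ (-b) with hM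
  have hM0 : 0 ≤ M := by
    rw [hM]
    positivity
  set ζ : E n → ℝ := fun x => ψ x * χ x with hζ
  have hζsm : ContDiff ℝ ∞ ζ := hψ.mul hχ
  set F : Fin n → E n → ℝ := fun i y => thw ε b (φ y) * ζ y ^ m * V i y with hF
  -- `F i` vanishes near points outside of `Ω`
  have hzero : ∀ x, x ∉ Ω → ∀ᶠ y in nhds x, ζ y = 0 := by
    intro x hx
    have h1 : x ∉ tsupport χ := fun h => hx (hχΩ h)
    have h2 : ∀ᶠ y in nhds x, χ y = 0 := notMem_tsupport_iff_eventuallyEq.mp h1
    filter_upwards [h2] with y hy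
    simp [hζ, hy]
  have hFzero : ∀ i x, x ∉ Ω → F i =ᶠ[nhds x] fun _ => 0 := by
    intro i x hx
    filter_upwards [hzero x hx] with y hy
    simp only [hF, hy]
    rw [zero_pow (by omega)]
    ring
  have hFsm : ∀ i, ContDiff ℝ 1 (F i) := by
    intro i
    rw [contDiff_iff_contDiffAt]
    intro x
    by_cases hx : x ∈ Ω
    · have h1 : ContDiffAt ℝ ∞ φ x := hφ.contDiffAt (hΩ.mem_nhds hx)
      have h2 : ContDiffAt ℝ ∞ (fun y => thw ε b (φ y)) x :=
        (contDiff_thw hε.le).contDiffAt.comp x h1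
      have h3 : ContDiffAt ℝ ∞ (V i) x := (hV i).contDiffAt (hΩ.mem_nhds hx)
      have h4 : ContDiffAt ℝ ∞ (F i) x := (h2.mul (hζsm.contDiffAt.pow m)).mul h3
      exact h4.of_le (by simp)
    · exact contDiffAt_const.congr_of_eventuallyEq (hFzero i x hx)
  have hFc : ∀ i, HasCompactSupport (F i) := by
    intro i
    apply HasCompactSupport.intro hχc
    intro x hx
    have h2 : χ x = 0 := image_eq_zero_of_notMem_tsupport hx
    simp only [hF, hζ, h2, mul_zero]
    rw [zero_pow (by omega)]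
    ring
  set D : E n → ℝ := fun x => ∑ i, pd i (F i) x with hD
  have hDint : Integrable D := integrable_finsetSum _ fun i _ => integrable_pd (hFsm i) (hFc i) i
  have hD0 : ∫ x, D x = 0 := by
    rw [hD, integral_finsetSum _ fun i _ => integrable_pd (hFsm i) (hFc i) i]
    exact Finset.sum_eq_zero fun i _ => integral_pd_eq_zero (hFsm i) (hFc i) i
  -- pointwise
  have hpt : ∀ x, κ / 2 * (thw ε b (φ x) * Real.exp (2 * φ x) * ζ x ^ m)
      ≤ -D x + (Metric.closedBall x0 (2 * r)).indicator (fun _ => M) x := by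
    intro x
    by_cases hx : x ∈ Ω
    · have d1 : DifferentiableAt ℝ φ x := differentiableAt_of_contDiffOn hΩ hφ hx
      have d2 : ∀ i, DifferentiableAt ℝ (V i) x := fun i =>
        differentiableAt_of_contDiffOn hΩ (hV i) hx
      have d3 : DifferentiableAt ℝ ζ x := hζsm.differentiable (by simp) x
      set Θ := thw ε b (φ x) with hΘ
      have hΘ0 : 0 < Θ := thw_pos hε.le
      set c : ℝ := (b - 2) - b * (ε * Real.exp (b * φ x) / (1 + ε * Real.exp (b * φ x))) with hc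
      have hca := hQ0 x hx c (thw_slope_mem hb hε)
      have hz0 : 0 ≤ ζ x := mul_nonneg (hψ01 x).1 (hχ01 x).1
      have hDx : D x = Θ * c * (∑ i, pd i φ x * V i x) * ζ x ^ m
          + Θ * (m * ζ x ^ (m - 1)) * (∑ i, pd i ζ x * V i x)
          + Θ * ζ x ^ m * ∑ i, pd i (V i) x := by
        rw [hD]
        simp only [hF]
        rw [Finset.mul_sum, Finset.mul_sum, Finset.mul_sum, Finset.sum_mul, ← Finset.sum_add_distrib,
          ← Finset.sum_add_distrib]
        apply Finset.sum_congr rfl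
        intro i _
        rw [pd_testFieldQ hε.le m i d1 (d2 i) d3]
        ring
      have h1 := pointwise_sqQ (q := fun i => pd i ζ x) m (by omega) hΘ0.le hz0 hδ hca
        (hineq x hx)
      rw [← hDx] at h1
      have hQ : ∑ i, pd i ζ x ^ 2 ≤ 2 * ψ x ^ 2 * (ε' * Real.exp (φ x)) ^ 2
          + 2 * χ x ^ 2 * (C0 / r) ^ 2 := by
        have hq : ∀ i, pd i ζ x = ψ x * pd i χ x + χ x * pd i ψ x := by
          intro i
          have e1 : HasFDerivAt ζ (ψ x • fderiv ℝ χ x + χ x • fderiv ℝ ψ x) x :=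
            (hψ.differentiable (by simp) x).hasFDerivAt.mul
              (hχ.differentiable (by simp) x).hasFDerivAt
          show fderiv ℝ ζ x _ = _
          rw [e1.fderiv]
          simp [pd]
        have h2 : ∑ i, pd i ζ x ^ 2 ≤ 2 * ψ x ^ 2 * (∑ i, pd i χ x ^ 2)
            + 2 * χ x ^ 2 * (∑ i, pd i ψ x ^ 2) := by
          rw [Finset.mul_sum, Finset.mul_sum, ← Finset.sum_add_distrib]
          apply Finset.sum_le_sum
          intro i _
          rw [hq i]
          nlinarith [sq_nonneg (ψ x * pd i χ x - χ x * pd i ψ x)]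
        have h3 : ∑ i, pd i χ x ^ 2 ≤ (ε' * Real.exp (φ x)) ^ 2 :=
          (sum_sq_pd_le χ x).trans (by gcongr; exact hχd x hx)
        have h4 : ∑ i, pd i ψ x ^ 2 ≤ (C0 / r) ^ 2 :=
          (sum_sq_pd_le ψ x).trans (by gcongr; exact hψd x)
        calc ∑ i, pd i ζ x ^ 2 ≤ 2 * ψ x ^ 2 * (∑ i, pd i χ x ^ 2)
            + 2 * χ x ^ 2 * (∑ i, pd i ψ x ^ 2) := h2
          _ ≤ _ := by gcongr
      have hw : Real.exp (2 * φ x) = Real.exp (φ x) ^ 2 := by
        rw [← Real.exp_nat_mul]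
        norm_num
      by_cases hxB : x ∈ Metric.closedBall x0 (2 * r)
      · rw [indicator_of_mem hxB]
        have h5 := pointwise_case (Θ := Θ) (w := Real.exp (φ x)) (z := ζ x) (κ := κ) (b := b)
          (ε := ε) (ε' := ε') (C0 := C0) (δ := δ) (r := r) (Q := ∑ i, pd i ζ x ^ 2) (s := ψ x)
          (t := χ x) m hm hmb hb hκ hδ hε hC0 hr (Real.exp_pos _) hΘ0.le
          (by
            rw [← Real.exp_mul, mul_comm (φ x)]
            exact thw_le hε.le)
          (by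
            rw [← hw]
            exact thw_mul_exp hε) (hψ01 x).1 (hψ01 x).2 (hχ01 x).1 (hχ01 x).2 rfl hQ
        rw [← hM, ← hw] at h5
        have h6 : κ * (Θ * Real.exp (2 * φ x) * ζ x ^ m)
            = κ / 2 * (Θ * Real.exp (2 * φ x) * ζ x ^ m)
              + κ / 2 * (Θ * Real.exp (2 * φ x) * ζ x ^ m) := by ring
        linarith
      · rw [indicator_of_notMem hxB]
        have hz : ζ x = 0 := by simp [hζ, hψ0 x hxB]
        rw [hz] at h1 ⊢
        rw [zero_pow (by omega : m ≠ 0), zero_pow (by omega : m - 2 ≠ 0)] at h1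
        rw [zero_pow (by omega : m ≠ 0)]
        simp only [mul_zero, zero_mul] at h1 ⊢
        linarith
    · have h1 : ζ x = 0 := (hzero x hx).self_of_nhds
      have h2 : D x = 0 := by
        rw [hD]
        apply Finset.sum_eq_zero
        intro i _
        rw [pd_congr i (hFzero i x hx)]
        exact pd_zero i x
      rw [h1, h2, zero_pow (by omega)]
      simp only [mul_zero, neg_zero, zero_add]
      exact indicator_nonneg (fun _ _ => hM0) x
  -- integrate
  set G : E n → ℝ := fun x => -D x + (Metric.closedBall x0 (2 * r)).indicator (fun _ => M) x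
    with hG
  have hind : Integrable ((Metric.closedBall x0 (2 * r)).indicator (fun _ : E n => M)) := by
    rw [integrable_indicator_iff Metric.isClosed_closedBall.measurableSet]
    exact integrableOn_const (measure_closedBall_lt_top.ne)
  have hGint : Integrable G := hDint.neg.add hind
  have hG0 : ∀ x, 0 ≤ G x := by
    intro x
    refine le_trans ?_ (hpt x)
    by_cases hx : x ∈ Ω
    · have hz0 : 0 ≤ ζ x := mul_nonneg (hψ01 x).1 (hχ01 x).1
      have := thw_pos (ε := ε) (b := b) (t := φ x) hε.le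
      positivity
    · have h1 : ζ x = 0 := (hzero x hx).self_of_nhds
      rw [h1, zero_pow (by omega)]
      simp
  have hGI : ∫ x, G x = M * volume.real (Metric.closedBall x0 (2 * r)) := by
    have h1 : ∫ x, -D x = 0 := by rw [integral_neg, hD0, neg_zero]
    have h2 : ∫ x, G x = (∫ x, -D x)
        + ∫ x, (Metric.closedBall x0 (2 * r)).indicator (fun _ => M) x :=
      integral_add hDint.neg hind
    rw [h2, h1, zero_add, integral_indicator Metric.isClosed_closedBall.measurableSet,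
      setIntegral_const, smul_eq_mul, mul_comm]
  calc ∫⁻ x in S, ENNReal.ofReal (thw ε b (φ x) * Real.exp (2 * φ x))
      ≤ ∫⁻ x in S, ENNReal.ofReal (2 / κ * G x) := by
        apply setLIntegral_mono' hSm
        intro x hx
        apply ENNReal.ofReal_le_ofReal
        have h1 := hpt x
        have h2 : ζ x = 1 := by simp [hζ, (hS x hx).1, (hS x hx).2]
        rw [h2, one_pow, mul_one] at h1
        calc thw ε b (φ x) * Real.exp (2 * φ x)
            = 2 / κ * (κ / 2 * (thw ε b (φ x) * Real.exp (2 * φ x))) := by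
              field_simp
          _ ≤ 2 / κ * G x := by gcongr
    _ ≤ ∫⁻ x, ENNReal.ofReal (2 / κ * G x) := setLIntegral_le_lintegral _ _
    _ = ENNReal.ofReal (∫ x, 2 / κ * G x) := by
        rw [ofReal_integral_eq_lintegral_ofReal (hGint.const_mul _)]
        exact Filter.Eventually.of_forall fun x => mul_nonneg (by positivity) (hG0 x)
    _ = _ := by
        rw [integral_const_mul, hGI]

namespace TP

/-- [EN] -/
theorem en : EN := by
  intro n hn κ δ b hκ hδ0 hb
  classical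
  obtain ⟨C0, hC0, hcut⟩ := exists_ball_cutoff n
  set m : ℕ := ⌈b⌉₊ + 3 with hm
  have hm3 : 3 ≤ m := by omega
  have hmb : b ≤ m := by
    have := Nat.le_ceil b
    rw [hm]
    push_cast
    linarith
  set c1 : ℝ := (m : ℝ) ^ 2 / (2 * δ) with hc1
  set B1 : ℝ := c1 * C0 ^ 2 * (C0 * Real.sqrt (2 * c1 / κ)) ^ (b - 2) with hB1
  have hm0 : (0 : ℝ) < m := by
    have : 0 < m := by omega
    exact_mod_cast this
  have hc1p : 0 < c1 := by positivity
  have hB1p : 0 < B1 := by positivity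
  set v : ℝ := volume.real (Metric.ball (0 : E n) 1) with hv
  have hv0 : 0 ≤ v := measureReal_nonneg
  refine ⟨2 / κ * B1 * 2 ^ n * v + 1, by positivity, ?_⟩
  intro Ω φ V' Q0 hΩ hφ hV' hineq hQ0 hχ x0 r hr
  obtain ⟨ψ, hψ, hψ01, hψ1, hψ0, hψd⟩ := hcut x0 r hr
  set V : ℝ := volume.real (Metric.closedBall x0 (2 * r)) with hV
  have hVeq : V = (2 * r) ^ n * v := by
    rw [hV, Measure.addHaar_real_closedBall _ _ (by positivity), finrank_euclideanSpace_fin]
  have hV0 : 0 ≤ V := measureReal_nonneg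
  have hfin : 2 / κ * (B1 * r ^ (-b) * V) ≤ (2 / κ * B1 * 2 ^ n * v + 1) * r ^ ((n : ℝ) - b) := by
    have e1 : r ^ ((n : ℝ) - b) = r ^ n * r ^ (-b) := by
      rw [sub_eq_add_neg, Real.rpow_add hr, Real.rpow_natCast]
    rw [e1, hVeq, mul_pow]
    have : 0 ≤ r ^ n * r ^ (-b) := by positivity
    calc 2 / κ * (B1 * r ^ (-b) * (2 ^ n * r ^ n * v))
        = 2 / κ * B1 * 2 ^ n * v * (r ^ n * r ^ (-b)) := by ring
      _ ≤ (2 / κ * B1 * 2 ^ n * v + 1) * (r ^ n * r ^ (-b)) := by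
        rw [add_mul, one_mul]
        linarith
  -- for fixed `ε` and `K`
  have key : ∀ (ε : ℝ), 0 < ε → ∀ K : Set (E n), IsCompact K → K ⊆ Ω →
      ∫⁻ y in K ∩ Metric.ball x0 r, ENNReal.ofReal (thw ε b (φ y) * Real.exp (2 * φ y))
        ≤ ENNReal.ofReal ((2 / κ * B1 * 2 ^ n * v + 1) * r ^ ((n : ℝ) - b)) := by
    intro ε hε K hK hKΩ
    refine le_trans ?_ (ENNReal.ofReal_le_ofReal hfin)
    have h1 : ∀ ε' : ℝ, 0 < ε' →
        ∫⁻ y in K ∩ Metric.ball x0 r, ENNReal.ofReal (thw ε b (φ y) * Real.exp (2 * φ y))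
        ≤ ENNReal.ofReal (2 / κ * ((c1 * ε' ^ 2 / ε + B1 * r ^ (-b)) * V)) := by
      intro ε' hε'
      obtain ⟨χ, g1, g2, g3, g4, g5, g6⟩ := hχ K hK hKΩ ε' hε'
      exact energy_cutQ m hm3 hmb hb hκ hδ0 hε hC0 hΩ hφ hV' hineq hQ0 g1 g2 g3 g4 g6
        hr hψ hψ01 hψ0 hψd _ (hK.measurableSet.inter Metric.isOpen_ball.measurableSet)
        (fun y hy => ⟨hψ1 y hy.2, g5 y hy.1⟩)
    have h2 : Filter.Tendsto
        (fun ε' : ℝ => ENNReal.ofReal (2 / κ * ((c1 * ε' ^ 2 / ε + B1 * r ^ (-b)) * V)))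
        (nhdsWithin 0 (Ioi 0)) (nhds (ENNReal.ofReal (2 / κ * (B1 * r ^ (-b) * V)))) := by
      apply ENNReal.tendsto_ofReal
      have h3 : Continuous (fun ε' : ℝ => 2 / κ * ((c1 * ε' ^ 2 / ε + B1 * r ^ (-b)) * V)) := by
        fun_prop
      have h4 := (h3.tendsto 0).mono_left (nhdsWithin_le_nhds (s := Ioi 0))
      simpa using h4
    refine ge_of_tendsto h2 ?_
    filter_upwards [self_mem_nhdsWithin] with ε' hε'
    exact h1 ε' hε'
  -- exhaustion
  obtain ⟨Fc, hFc, hFΩ, hFU, hFm⟩ := hΩ.exists_iUnion_isClosed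
  set K : ℕ → Set (E n) := fun j => Fc j ∩ Metric.closedBall 0 j with hK
  have hKc : ∀ j, IsCompact (K j) := fun j => (isCompact_closedBall 0 (j : ℝ)).inter_left (hFc j)
  have hKΩ : ∀ j, K j ⊆ Ω := fun j => inter_subset_left.trans (hFΩ j)
  have hKev : ∀ y ∈ Ω, ∀ᶠ j : ℕ in Filter.atTop, y ∈ K j := by
    intro y hy
    rw [← hFU] at hy
    obtain ⟨j0, hj0⟩ := mem_iUnion.mp hy
    have h1 : ∀ᶠ j : ℕ in Filter.atTop, y ∈ Fc j := by
      filter_upwards [Filter.eventually_ge_atTop j0] with j hj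
      exact hFm hj hj0
    have h2 : ∀ᶠ j : ℕ in Filter.atTop, y ∈ Metric.closedBall (0 : E n) j := by
      filter_upwards [Filter.eventually_ge_atTop ⌈‖y‖⌉₊] with j hj
      rw [mem_closedBall_zero_iff]
      exact (Nat.le_ceil _).trans (by exact_mod_cast hj)
    filter_upwards [h1, h2] with j h3 h4 using ⟨h3, h4⟩
  set g : ℕ → E n → ℝ≥0∞ := fun j => (K j ∩ Metric.ball x0 r).indicator
    (fun y => ENNReal.ofReal (thw (1 / ((j : ℝ) + 1)) b (φ y) * Real.exp (2 * φ y))) with hg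
  have hgm : ∀ j, AEMeasurable (g j) := by
    intro j
    have hms : MeasurableSet (K j ∩ Metric.ball x0 r) :=
      (hKc j).measurableSet.inter Metric.isOpen_ball.measurableSet
    rw [hg]
    rw [aemeasurable_indicator_iff hms]
    apply ContinuousOn.aemeasurable ?_ hms
    apply ENNReal.continuous_ofReal.comp_continuousOn
    have h1 : ContinuousOn φ (K j ∩ Metric.ball x0 r) :=
      hφ.continuousOn.mono (inter_subset_left.trans (hKΩ j))
    have h2 : Continuous (thw (1 / ((j : ℝ) + 1)) b) := (contDiff_thw (by positivity)).continuous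
    exact (h2.comp_continuousOn h1).mul (Real.continuous_exp.comp_continuousOn (h1.const_mul 2))
  have hgi : ∀ j, ∫⁻ y, g j y ≤
      ENNReal.ofReal ((2 / κ * B1 * 2 ^ n * v + 1) * r ^ ((n : ℝ) - b)) := by
    intro j
    have hms : MeasurableSet (K j ∩ Metric.ball x0 r) :=
      (hKc j).measurableSet.inter Metric.isOpen_ball.measurableSet
    rw [hg]
    simp only
    rw [lintegral_indicator hms]
    exact key _ (by positivity) (K j) (hKc j) (hKΩ j)
  have hlim : ∀ y ∈ Metric.ball x0 r,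
      wt Ω φ y ^ b ≤ Filter.liminf (fun j => g j y) Filter.atTop := by
    intro y hy
    by_cases hyΩ : y ∈ Ω
    · have h1 : Filter.Tendsto (fun j => g j y) Filter.atTop (nhds (wt Ω φ y ^ b)) := by
        have h2 : Filter.Tendsto (fun j : ℕ => ENNReal.ofReal
            (thw (1 / ((j : ℝ) + 1)) b (φ y) * Real.exp (2 * φ y))) Filter.atTop
            (nhds (wt Ω φ y ^ b)) := by
          have e1 : wt Ω φ y ^ b = ENNReal.ofReal (Real.exp (b * φ y)) := by
            rw [wt, indicator_of_mem hyΩ, ENNReal.ofReal_rpow_of_pos (Real.exp_pos _),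
              ← Real.exp_mul, mul_comm]
          rw [e1]
          apply ENNReal.tendsto_ofReal
          have e2 : Real.exp (b * φ y)
              = Real.exp ((b - 2) * φ y) / (1 + 0 * Real.exp (b * φ y)) * Real.exp (2 * φ y) := by
            rw [zero_mul, add_zero, div_one, ← Real.exp_add]
            congr 1
            ring
          rw [e2]
          unfold thw
          apply Filter.Tendsto.mul_const
          apply Filter.Tendsto.div tendsto_const_nhds
          · apply Filter.Tendsto.const_add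
            apply Filter.Tendsto.mul_const
            exact tendsto_one_div_add_atTop_nhds_zero_nat
          · simp
        refine h2.congr' ?_
        filter_upwards [hKev y hyΩ] with j hj
        have hmem : y ∈ K j ∩ Metric.ball x0 r := ⟨hj, hy⟩
        rw [hg]
        simp only
        rw [indicator_of_mem hmem]
      exact h1.liminf_eq.ge
    · rw [wt, indicator_of_notMem hyΩ, ENNReal.zero_rpow_of_pos (by linarith)]
      exact bot_le
  calc ∫⁻ y in Metric.ball x0 r, wt Ω φ y ^ b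
      ≤ ∫⁻ y in Metric.ball x0 r, Filter.liminf (fun j => g j y) Filter.atTop :=
        setLIntegral_mono' Metric.isOpen_ball.measurableSet hlim
    _ ≤ ∫⁻ y, Filter.liminf (fun j => g j y) Filter.atTop := setLIntegral_le_lintegral _ _
    _ ≤ Filter.liminf (fun j => ∫⁻ y, g j y) Filter.atTop := lintegral_liminf_le' hgm
    _ ≤ _ := by
        refine le_trans (Filter.liminf_le_liminf (Filter.Eventually.of_forall hgi)) ?_
        simp

end TP

end Vale.Agent.P210
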