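import Vale.Agent.P210.TP.Props

/-! Block [PROD1]: the prism step. -/

set_option linter.all false

open scoped ENNReal ContDiff Topology
open MeasureTheory Set

namespace Vale.Agent.P210.TP

/-- length of `[p, p + l] ∩ (-∞, c]` -/
noncomputable def cl (c p l : ℝ) : ℝ := min (max c p) (p + l) - p

lemma cl_eq_zero {c p l : ℝ} (hl : 0 ≤ l) (h : c ≤ p) : cl c p l = 0 := by
  unfold cl
  rw [max_eq_right h, min_eq_left (by linarith), sub_self]

lemma cl_eq_self {c p l : ℝ} (hl : 0 ≤ l) (h : p + l ≤ c) : cl c p l = l := by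
  unfold cl
  rw [max_eq_left (by linarith), min_eq_right h]
  ring

lemma cl_mono {c c' p l : ℝ} (h : c ≤ c') : cl c p l ≤ cl c' p l := by
  unfold cl
  have := min_le_min_right (p + l) (max_le_max_right p h)
  linarith

lemma cl_zero (c p : ℝ) : cl c p 0 = 0 := by
  rcases le_total c p with h | h
  · exact cl_eq_zero le_rfl h
  · exact cl_eq_self le_rfl (by linarith)

/-- the intervals tile `[0, ∑ l]` -/
lemma sum_cl {V : Type} [LinearOrder V] (s : Finset V) (l : V → ℝ) (hl : ∀ v, 0 ≤ l v) (c : ℝ) :
    ∑ v ∈ s, cl c (∑ u ∈ s with u < v, l u) (l v) = min (max c 0) (∑ v ∈ s, l v) := by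
  classical
  induction s using Finset.induction_on_max with
  | empty => simp
  | insert a s ha ih =>
    have has : a ∉ s := fun h => lt_irrefl _ (ha a h)
    rw [Finset.sum_insert has, Finset.sum_insert has]
    have h1 : ∑ u ∈ insert a s with u < a, l u = ∑ v ∈ s, l v := by
      congr 1
      ext u
      simp only [Finset.mem_filter, Finset.mem_insert]
      constructor
      · rintro ⟨h | h, h2⟩
        · exact absurd h2 (by rw [h]; exact lt_irrefl _)
        · exact h
      · intro h
        exact ⟨Or.inr h, ha u h⟩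
    have h2 : ∑ v ∈ s, cl c (∑ u ∈ insert a s with u < v, l u) (l v)
        = ∑ v ∈ s, cl c (∑ u ∈ s with u < v, l u) (l v) := by
      apply Finset.sum_congr rfl
      intro v hv
      congr 1
      congr 1
      ext u
      simp only [Finset.mem_filter, Finset.mem_insert]
      constructor
      · rintro ⟨h | h, h2⟩
        · exact absurd h2 (by rw [h]; exact not_lt.2 (ha v hv).le)
        · exact ⟨h, h2⟩
      · rintro ⟨h, h2⟩
        exact ⟨Or.inr h, h2⟩
    rw [h1, h2, ih]
    set T := ∑ v ∈ s, l v with hT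
    have hT0 : 0 ≤ T := Finset.sum_nonneg fun v _ => hl v
    have hla := hl a
    unfold cl
    rcases le_total c 0 with h | h
    · rw [max_eq_right h, max_eq_right (by linarith : c ≤ T), min_eq_left hT0,
        min_eq_left (by linarith : T ≤ T + l a), min_eq_left (by linarith : (0 : ℝ) ≤ l a + T)]
      ring
    · rw [max_eq_left h]
      rcases le_total c T with h3 | h3
      · rw [max_eq_right h3, min_eq_left h3, min_eq_left (by linarith : T ≤ T + l a),
          min_eq_left (by linarith : c ≤ l a + T)]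
        ring
      · rw [max_eq_left h3, min_eq_right h3, add_comm T (l a)]
        ring

section Prism

variable {X V : Type} [TopologicalSpace X] [LinearOrder V] {k : ℕ} {lam : V → X → ℝ}

/-- the sum of the coordinates before `v` -/
noncomputable def pre (lam : V → X → ℝ) (v : V) (x : X) : ℝ := ∑ᶠ u, if u < v then lam u x else 0

/-- the prism coordinates -/
noncomputable def mu (lam : V → X → ℝ) (t : X → ℝ) (p : V × ℤ) (x : X) : ℝ :=
  cl (t x - p.2 + 1) (pre lam p.1 x) (lam p.1 x) - cl (t x - p.2) (pre lam p.1 x) (lam p.1 x)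

/-- the support at a point -/
noncomputable def spt (hB : Bary X V k lam) (x : X) : Finset V := (hB.fin.point_finite x).toFinset

lemma mem_spt (hB : Bary X V k lam) (x : X) (v : V) : v ∈ spt hB x ↔ lam v x ≠ 0 := by
  simp [spt]

lemma sum_spt (hB : Bary X V k lam) (x : X) : ∑ v ∈ spt hB x, lam v x = 1 := by
  rw [← hB.sum x]
  symm
  apply finsum_eq_sum_of_support_subset
  intro p hp
  exact (mem_spt hB x p).2 hp

lemma pre_eq (hB : Bary X V k lam) (x : X) (v : V) :
    pre lam v x = ∑ u ∈ spt hB x with u < v, lam u x := by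
  unfold pre
  rw [Finset.sum_filter]
  apply finsum_eq_sum_of_support_subset
  intro u hu
  rw [Function.mem_support] at hu
  simp only [Finset.mem_coe, mem_spt]
  intro h
  apply hu
  rw [h]
  simp

lemma pre_nonneg (hB : Bary X V k lam) (x : X) (v : V) : 0 ≤ pre lam v x := by
  rw [pre_eq hB]
  exact Finset.sum_nonneg fun u _ => hB.nonneg u x

lemma pre_add_le (hB : Bary X V k lam) (x : X) {u v : V} (h : u < v) :
    pre lam u x + lam u x ≤ pre lam v x := by
  rw [pre_eq hB, pre_eq hB]
  by_cases hu : u ∈ spt hB x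
  · have h1 : insert u ((spt hB x).filter (· < u)) ⊆ (spt hB x).filter (· < v) := by
      intro w hw
      simp only [Finset.mem_insert, Finset.mem_filter] at hw ⊢
      rcases hw with rfl | ⟨h2, h3⟩
      · exact ⟨hu, h⟩
      · exact ⟨h2, h3.trans h⟩
    have h2 := Finset.sum_le_sum_of_subset_of_nonneg h1 (f := fun w => lam w x)
      fun w _ _ => hB.nonneg w x
    rw [Finset.sum_insert (by simp)] at h2
    linarith
  · have hu0 : lam u x = 0 := by
      by_contra hcon
      exact hu ((mem_spt hB x u).2 hcon)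
    rw [hu0, add_zero]
    apply Finset.sum_le_sum_of_subset_of_nonneg
    · intro w hw
      simp only [Finset.mem_filter] at hw ⊢
      exact ⟨hw.1, hw.2.trans h⟩
    · exact fun w _ _ => hB.nonneg w x

lemma pre_add_le_one (hB : Bary X V k lam) (x : X) (v : V) : pre lam v x + lam v x ≤ 1 := by
  rw [pre_eq hB]
  by_cases hv : v ∈ spt hB x
  · have h1 : insert v ((spt hB x).filter (· < v)) ⊆ spt hB x := by
      intro w hw
      simp only [Finset.mem_insert, Finset.mem_filter] at hw
      rcases hw with rfl | ⟨h2, h3⟩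
      · exact hv
      · exact h2
    have h2 := Finset.sum_le_sum_of_subset_of_nonneg h1 (f := fun w => lam w x)
      fun w _ _ => hB.nonneg w x
    rw [Finset.sum_insert (by simp), sum_spt hB x] at h2
    linarith
  · have hv0 : lam v x = 0 := by
      by_contra hcon
      exact hv ((mem_spt hB x v).2 hcon)
    rw [hv0, add_zero, ← sum_spt hB x]
    exact Finset.sum_le_sum_of_subset_of_nonneg (Finset.filter_subset _ _)
      fun w _ _ => hB.nonneg w x

lemma continuous_pre (hB : Bary X V k lam) (v : V) : Continuous (pre lam v) := by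
  unfold pre
  apply continuous_finsum
  · intro u
    by_cases h : u < v
    · simp only [if_pos h]
      exact hB.cont u
    · simp only [if_neg h]
      exact continuous_const
  · refine hB.fin.subset fun u x hx => ?_
    rw [Function.mem_support] at hx ⊢
    intro h
    apply hx
    rw [h]
    simp

/-- the coordinate of level `⌊t⌋ + 1` -/
lemma mu_up (hB : Bary X V k lam) (t : X → ℝ) (x : X) (v : V) :
    mu lam t (v, ⌊t x⌋ + 1) x = cl (Int.fract (t x)) (pre lam v x) (lam v x) := by
  unfold mu
  have h1 : t x - ((⌊t x⌋ + 1 : ℤ) : ℝ) + 1 = Int.fract (t x) := by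
    push_cast
    rw [Int.fract]
    ring
  have h2 : t x - ((⌊t x⌋ + 1 : ℤ) : ℝ) ≤ pre lam v x := by
    have := Int.fract_lt_one (t x)
    have h3 := pre_nonneg hB x v
    rw [Int.fract] at this
    push_cast
    linarith
  simp only
  rw [h1, cl_eq_zero (hB.nonneg v x) h2, sub_zero]

/-- the coordinate of level `⌊t⌋` -/
lemma mu_dn (hB : Bary X V k lam) (t : X → ℝ) (x : X) (v : V) :
    mu lam t (v, ⌊t x⌋) x = lam v x - cl (Int.fract (t x)) (pre lam v x) (lam v x) := by
  unfold mu
  have h1 : t x - ((⌊t x⌋ : ℤ) : ℝ) = Int.fract (t x) := rfl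
  have h2 : pre lam v x + lam v x ≤ t x - ((⌊t x⌋ : ℤ) : ℝ) + 1 := by
    have h3 := pre_add_le_one hB x v
    rw [h1]
    linarith [Int.fract_nonneg (t x)]
  simp only
  rw [cl_eq_self (hB.nonneg v x) h2, h1]

lemma mu_other (hB : Bary X V k lam) (t : X → ℝ) (x : X) (v : V) (j : ℤ) (h1 : j ≠ ⌊t x⌋)
    (h2 : j ≠ ⌊t x⌋ + 1) : mu lam t (v, j) x = 0 := by
  unfold mu
  simp only
  have hfl := Int.floor_le (t x)
  have hfl' := Int.lt_floor_add_one (t x)
  rcases lt_or_gt_of_ne h1 with h | h
  · have h3 : j + 1 ≤ ⌊t x⌋ := by omega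
    have h4 : (j : ℝ) + 1 ≤ ⌊t x⌋ := by exact_mod_cast h3
    have h5 := pre_add_le_one hB x v
    rw [cl_eq_self (hB.nonneg v x) (by linarith), cl_eq_self (hB.nonneg v x) (by linarith), sub_self]
  · have h3 : ⌊t x⌋ + 2 ≤ j := by omega
    have h4 : (⌊t x⌋ : ℝ) + 2 ≤ j := by exact_mod_cast h3
    have h5 := pre_nonneg hB x v
    rw [cl_eq_zero (hB.nonneg v x) (by linarith), cl_eq_zero (hB.nonneg v x) (by linarith), sub_self]

lemma mu_zero (hB : Bary X V k lam) (t : X → ℝ) (x : X) (p : V × ℤ) (h : lam p.1 x = 0) :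
    mu lam t p x = 0 := by
  unfold mu
  rw [h, cl_zero, cl_zero, sub_self]

lemma mu_support (hB : Bary X V k lam) (t : X → ℝ) (x : X) (p : V × ℤ) (h : mu lam t p x ≠ 0) :
    p.1 ∈ spt hB x ∧ (p.2 = ⌊t x⌋ ∨ p.2 = ⌊t x⌋ + 1) := by
  constructor
  · rw [mem_spt]
    intro h0
    exact h (mu_zero hB t x p h0)
  · by_contra hcon
    push Not at hcon
    exact h (mu_other hB t x p.1 p.2 hcon.1 hcon.2)

lemma finsum_mu (hB : Bary X V k lam) (t : X → ℝ) (x : X) (G : V × ℤ → ℝ) :
    ∑ᶠ p, G p * mu lam t p x = ∑ v ∈ spt hB x, (G (v, ⌊t x⌋) * mu lam t (v, ⌊t x⌋) x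
      + G (v, ⌊t x⌋ + 1) * mu lam t (v, ⌊t x⌋ + 1) x) := by
  classical
  rw [finsum_eq_sum_of_support_subset (s := spt hB x ×ˢ {⌊t x⌋, ⌊t x⌋ + 1})]
  · rw [Finset.sum_product]
    apply Finset.sum_congr rfl
    intro v _
    rw [Finset.sum_pair (by omega)]
  · intro p hp
    rw [Function.mem_support] at hp
    have h1 : mu lam t p x ≠ 0 := fun h => hp (by rw [h, mul_zero])
    have h2 := mu_support hB t x p h1
    rw [Finset.coe_product]
    refine ⟨h2.1, ?_⟩
    simpa using h2.2

lemma sum_cl_spt (hB : Bary X V k lam) (t : X → ℝ) (x : X) :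
    ∑ v ∈ spt hB x, cl (Int.fract (t x)) (pre lam v x) (lam v x) = Int.fract (t x) := by
  have h1 := sum_cl (spt hB x) (fun v => lam v x) (fun v => hB.nonneg v x) (Int.fract (t x))
  rw [sum_spt hB x, max_eq_left (Int.fract_nonneg _), min_eq_left (Int.fract_lt_one _).le] at h1
  refine Eq.trans ?_ h1
  apply Finset.sum_congr rfl
  intro v _
  rw [pre_eq hB]

lemma finsum_mu_one (hB : Bary X V k lam) (t : X → ℝ) (x : X) : ∑ᶠ p, mu lam t p x = 1 := by
  have h1 := finsum_mu hB t x (fun _ => 1)
  simp only [one_mul] at h1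
  rw [h1, ← sum_spt hB x]
  apply Finset.sum_congr rfl
  intro v _
  rw [mu_up hB, mu_dn hB]
  ring

lemma finsum_mu_height (hB : Bary X V k lam) (t : X → ℝ) (x : X) :
    ∑ᶠ p : V × ℤ, (p.2 : ℝ) * mu lam t p x = t x := by
  rw [finsum_mu hB t x (fun p => (p.2 : ℝ))]
  have h1 : ∀ v ∈ spt hB x, ((⌊t x⌋ : ℤ) : ℝ) * mu lam t (v, ⌊t x⌋) x
      + ((⌊t x⌋ + 1 : ℤ) : ℝ) * mu lam t (v, ⌊t x⌋ + 1) x
      = ((⌊t x⌋ : ℤ) : ℝ) * lam v x + cl (Int.fract (t x)) (pre lam v x) (lam v x) := by
    intro v _
    rw [mu_up hB, mu_dn hB]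
    push_cast
    ring
  rw [Finset.sum_congr rfl h1, Finset.sum_add_distrib, ← Finset.mul_sum, sum_spt hB,
    sum_cl_spt hB, mul_one]
  exact Int.floor_add_fract (t x)

lemma finsum_mu_vertex (hB : Bary X V k lam) (t : X → ℝ) (x : X) (w : V) :
    ∑ᶠ p : V × ℤ, (if p.1 = w then (1 : ℝ) else 0) * mu lam t p x = lam w x := by
  classical
  rw [finsum_mu hB t x (fun p => if p.1 = w then (1 : ℝ) else 0)]
  have h1 : ∀ v ∈ spt hB x, (if v = w then (1 : ℝ) else 0) * mu lam t (v, ⌊t x⌋) x
      + (if v = w then (1 : ℝ) else 0) * mu lam t (v, ⌊t x⌋ + 1) x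
      = if v = w then lam v x else 0 := by
    intro v _
    rw [mu_up hB, mu_dn hB]
    split_ifs <;> ring
  simp only
  rw [Finset.sum_congr rfl h1, Finset.sum_ite_eq' (spt hB x) w fun v => lam v x]
  split_ifs with h
  · rfl
  · by_contra hcon
    exact h ((mem_spt hB x w).2 fun h0 => hcon h0.symm)

lemma ncard_mu (hB : Bary X V k lam) (t : X → ℝ) (x : X) :
    {p | mu lam t p x ≠ 0}.ncard ≤ k + 1 + 1 := by
  classical
  have hcard : (spt hB x).card ≤ k + 1 := by
    have h1 := hB.card x
    have h2 : {v | lam v x ≠ 0} = (spt hB x : Set V) := by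
      ext v
      simp [mem_spt]
    rw [h2, Set.ncard_coe_finset] at h1
    exact h1
  set τ := Int.fract (t x) with hτ
  set g : V → V × ℤ := fun v => (v, if pre lam v x + lam v x ≤ τ then ⌊t x⌋ + 1 else ⌊t x⌋) with hg
  by_cases hex : ∃ v0, pre lam v0 x < τ ∧ τ < pre lam v0 x + lam v0 x
  · obtain ⟨v0, h1, h2⟩ := hex
    have huniq : ∀ v, pre lam v x < τ → τ < pre lam v x + lam v x → v = v0 := by
      intro v h3 h4
      rcases lt_trichotomy v v0 with h | h | h
      · have := pre_add_le hB x h
        linarith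
      · exact h
      · have := pre_add_le hB x h
        linarith
    have hsub : {p | mu lam t p x ≠ 0} ⊆
        ((insert (v0, ⌊t x⌋ + 1) ((spt hB x).image g) : Finset (V × ℤ)) : Set (V × ℤ)) := by
      rintro ⟨v, j⟩ hp
      have h3 := mu_support hB t x (v, j) hp
      simp only at h3
      rw [Finset.coe_insert, Finset.coe_image]
      by_cases hv : v = v0
      · rcases h3.2 with h4 | h4
        · right
          refine ⟨v, h3.1, ?_⟩
          rw [hg]
          simp only
          rw [if_neg (by rw [hv]; linarith), h4]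
        · left
          rw [hv, h4]
      · right
        refine ⟨v, h3.1, ?_⟩
        rw [hg]
        simp only
        split_ifs with h5
        · rcases h3.2 with h4 | h4
          · exfalso
            apply hp
            rw [h4, mu_dn hB, cl_eq_self (hB.nonneg v x) h5, sub_self]
          · rw [h4]
        · rcases h3.2 with h4 | h4
          · rw [h4]
          · exfalso
            apply hp
            rw [h4, mu_up hB]
            apply cl_eq_zero (hB.nonneg v x)
            by_contra hcon
            push Not at hcon h5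
            exact hv (huniq v hcon h5)
    refine (Set.ncard_le_ncard hsub (Finset.finite_toSet _)).trans ?_
    rw [Set.ncard_coe_finset]
    refine (Finset.card_insert_le _ _).trans ?_
    have := Finset.card_image_le (s := spt hB x) (f := g)
    omega
  · push Not at hex
    have hsub : {p | mu lam t p x ≠ 0} ⊆ (((spt hB x).image g : Finset (V × ℤ)) : Set (V × ℤ)) := by
      rintro ⟨v, j⟩ hp
      have h3 := mu_support hB t x (v, j) hp
      simp only at h3
      rw [Finset.coe_image]
      refine ⟨v, h3.1, ?_⟩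
      rw [hg]
      simp only
      split_ifs with h5
      · rcases h3.2 with h4 | h4
        · exfalso
          apply hp
          rw [h4, mu_dn hB, cl_eq_self (hB.nonneg v x) h5, sub_self]
        · rw [h4]
      · rcases h3.2 with h4 | h4
        · rw [h4]
        · exfalso
          apply hp
          rw [h4, mu_up hB]
          apply cl_eq_zero (hB.nonneg v x)
          by_contra hcon
          push Not at hcon
          exact h5 (hex v hcon)
    refine (Set.ncard_le_ncard hsub (Finset.finite_toSet _)).trans ?_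
    rw [Set.ncard_coe_finset]
    have := Finset.card_image_le (s := spt hB x) (f := g)
    omega

lemma bary_mu (hB : Bary X V k lam) {t : X → ℝ} (ht : Continuous t) :
    Bary X (V × ℤ) (k + 1) (mu lam t) := by
  classical
  refine ⟨?_, ?_, ?_, finsum_mu_one hB t, ncard_mu hB t⟩
  · intro p
    have h1 := continuous_pre hB p.1
    have h2 := hB.cont p.1
    have h3 : Continuous fun x => t x - p.2 + 1 := (ht.sub continuous_const).add continuous_const
    have h4 : Continuous fun x => t x - p.2 := ht.sub continuous_const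
    unfold mu cl
    exact (((h3.max h1).min (h1.add h2)).sub h1).sub (((h4.max h1).min (h1.add h2)).sub h1)
  · intro p x
    unfold mu
    rw [sub_nonneg]
    exact cl_mono (by linarith)
  · intro x
    obtain ⟨N, hN, hNf⟩ := hB.fin x
    have h1 : ∀ᶠ y in 𝓝 x, |t y - t x| < 1 := by
      have : ContinuousAt (fun y => |t y - t x|) x :=
        ((ht.continuousAt).sub continuousAt_const).abs
      exact this.eventually_lt continuousAt_const (by simp)
    refine ⟨N ∩ {y | |t y - t x| < 1}, Filter.inter_mem hN h1, ?_⟩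
    refine ((hNf.toFinset ×ˢ Finset.Icc (⌊t x⌋ - 2) (⌊t x⌋ + 3)).finite_toSet).subset ?_
    rintro ⟨v, j⟩ ⟨y, hy, hyN, hyt⟩
    rw [Function.mem_support] at hy
    have h2 := mu_support hB t y (v, j) hy
    simp only at h2
    rw [Finset.coe_product]
    refine ⟨?_, ?_⟩
    · simp only [Finite.coe_toFinset, mem_ofPred_eq]
      exact ⟨y, (mem_spt hB y v).1 h2.1, hyN⟩
    · have h3 : |t y - t x| < 1 := hyt
      rw [abs_lt] at h3
      have f1 := Int.floor_le (t y)
      have f2 := Int.lt_floor_add_one (t y)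
      have f3 := Int.floor_le (t x)
      have f4 := Int.lt_floor_add_one (t x)
      have g1 : ((⌊t x⌋ : ℤ) : ℝ) - 2 < ⌊t y⌋ := by linarith
      have g2 : ((⌊t y⌋ : ℤ) : ℝ) < ⌊t x⌋ + 2 := by linarith
      have g3 : ⌊t x⌋ - 2 < ⌊t y⌋ := by exact_mod_cast g1
      have g4 : ⌊t y⌋ < ⌊t x⌋ + 2 := by exact_mod_cast g2
      rw [Finset.mem_coe, Finset.mem_Icc]
      rcases h2.2 with h | h <;> constructor <;> omega

end Prism

/-- [PROD1] -/
theorem prod1 : PROD1 := by
  classical
  intro X V _ k lam hB t ht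
  letI : LinearOrder V := IsWellOrder.linearOrder WellOrderingRel
  refine ⟨mu lam t, bary_mu hB ht, ?_⟩
  intro x y hxy
  constructor
  · intro v
    rw [← finsum_mu_vertex hB t x v, ← finsum_mu_vertex hB t y v]
    exact finsum_congr fun p => by rw [hxy p]
  · rw [← finsum_mu_height hB t x, ← finsum_mu_height hB t y]
    exact finsum_congr fun p => by rw [hxy p]

end Vale.Agent.P210.TP
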