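import Vale.Agent.P210.TP.Props

/-! Block [PROD2]: from locally finite barycentric coordinates to a continuous map. -/

set_option linter.all false

open scoped ENNReal ContDiff Topology
open MeasureTheory Set

namespace Vale.Agent.P210.TP

/-- [PROD2] -/
theorem prod2 : PROD2 := by
  classical
  intro X V _ k lam hB
  have hsf : ∀ x, {p | lam p x ≠ 0}.Finite := fun x => hB.fin.point_finite x
  set s : X → Finset V := fun x => (hsf x).toFinset with hs
  have hmem : ∀ x p, p ∈ s x ↔ lam p x ≠ 0 := by
    intro x p
    simp [hs]
  have hzero : ∀ x p, p ∉ s x → lam p x = 0 := by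
    intro x p hp
    rw [hmem, not_not] at hp
    exact hp
  have hsum : ∀ x (S : Finset V), s x ⊆ S → ∑ p ∈ S, lam p x = 1 := by
    intro x S hS
    rw [← hB.sum x]
    symm
    apply finsum_eq_sum_of_support_subset
    intro p hp
    exact hS ((hmem x p).2 hp)
  have hsface : ∀ x, s x ∈ (skel V k).faces := by
    intro x
    constructor
    · rw [Finset.nonempty_iff_ne_empty]
      intro hcon
      have := hsum x (s x) subset_rfl
      rw [hcon, Finset.sum_empty] at this
      exact zero_ne_one this
    · have h1 := hB.card x
      rw [Set.ncard_eq_toFinset_card _ (hsf x)] at h1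
      exact h1
  have hface : ∀ x (S : Finset V), s x ⊆ S → (fun p => lam p x) ∈ face S := by
    intro x S hS
    exact ⟨fun p => hB.nonneg p x, fun p hp => hzero x p fun h => hp (hS h), hsum x S hS⟩
  let f : X → Realization (skel V k) :=
    fun x => ⟨fun p => lam p x, s x, hsface x, hface x _ subset_rfl⟩
  refine ⟨f, ?_, fun x v => rfl⟩
  have hslf : LocallyFinite fun S : Finset V => {x | s x = S} := by
    intro x
    obtain ⟨N, hN, hNf⟩ := hB.fin x
    refine ⟨N, hN, (hNf.toFinset.powerset.finite_toSet).subset ?_⟩
    rintro S ⟨y, hyS, hyN⟩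
    simp only [mem_ofPred_eq] at hyS
    simp only [Finset.coe_powerset, mem_preimage, mem_powerset_iff]
    intro p hp
    rw [← hyS] at hp
    simp only [Finite.coe_toFinset, mem_ofPred_eq]
    exact ⟨y, (hmem y p).1 hp, hyN⟩
  refine hslf.continuous' ?_ ?_
  · ext x
    simp
  · intro S x hx
    set A : Set X := {y | ∀ p, p ∉ S → lam p y = 0} with hA
    have hAcl : IsClosed A := by
      have : A = ⋂ p, ⋂ (_ : p ∉ S), {y | lam p y = 0} := by
        ext y; simp [hA]
      rw [this]
      exact isClosed_iInter fun p => isClosed_iInter fun _ =>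
        isClosed_eq (hB.cont p) continuous_const
    have hsubA : {x | s x = S} ⊆ A := by
      intro y hy p hp
      simp only [mem_ofPred_eq] at hy
      rw [← hy] at hp
      exact hzero y p hp
    have hxA : x ∈ A := closure_minimal hsubA hAcl hx
    have hSface : S ∈ (skel V k).faces := by
      obtain ⟨y, hy⟩ : ({x | s x = S} : Set X).Nonempty := by
        rw [← closure_nonempty_iff]
        exact ⟨x, hx⟩
      simp only [mem_ofPred_eq] at hy
      rw [← hy]
      exact hsface y
    have hsA : ∀ y ∈ A, s y ⊆ S := by
      intro y hy p hp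
      by_contra hcon
      exact (hmem y p).1 hp (hy p hcon)
    have hcontA : ContinuousOn f A := by
      rw [continuousOn_iff_continuous_domRestrict]
      have heq : A.domRestrict f =
          faceMap (skel V k) ⟨S, hSface⟩ ∘
            (fun y : A => (⟨fun p => lam p y, hface y S (hsA y y.2)⟩ : face S)) := by
        rfl
      rw [heq]
      have hfm : Continuous (faceMap (skel V k) ⟨S, hSface⟩) := by
        exact continuous_iSup_rng (i := (⟨S, hSface⟩ : (skel V k).faces)) continuous_coinduced_rng
      refine hfm.comp ?_
      refine Continuous.subtype_mk ?_ _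
      refine continuous_pi fun p => ?_
      exact (hB.cont p).comp continuous_subtype_val
    exact (hcontA x hxA).mono hsubA

end Vale.Agent.P210.TP
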