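import Vale.Agent.P210.TP.Asm210
import Vale.Agent.P210.TP.Bil210
import Vale.Agent.P210.TP.Alg210
import Vale.Agent.P210.TP.EN646
import Vale.Agent.P210.TP.Prod1_646
import Vale.Agent.P210.TP.Prod2_646
import Vale.Agent.P210.TP.Conf646

set_option linter.all false

/-! P210, stage 2: assembly of the theorem for quasiconformally flat bases. -/

open scoped ENNReal ContDiff
open MeasureTheory Set

namespace Vale.Agent.P210.TP

section lin

variable {n : ℕ}

lemma dv_add {Ω : Set (EI (Fin n))} (hΩ : IsOpen Ω) (k : EI (Fin n) → Matrix (Fin n) (Fin n) ℝ)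
    {V W : Fin n → EI (Fin n) → ℝ} (hV : ∀ i, ContDiffOn ℝ ∞ (V i) Ω)
    (hW : ∀ i, ContDiffOn ℝ ∞ (W i) Ω) (c : ℝ) {x : EI (Fin n)} (hx : x ∈ Ω) :
    dv k (fun i y => V i y + c * W i y) x = dv k V x + c * dv k W x := by
  unfold dv
  simp only [Finset.mul_sum, ← Finset.sum_add_distrib]
  refine Finset.sum_congr rfl fun i _ => Finset.sum_congr rfl fun j _ => ?_
  have hd1 : DifferentiableAt ℝ (V i) x := differentiableAt_of_smoothOn hΩ (hV i) hx
  have hd2 : DifferentiableAt ℝ (W i) x := differentiableAt_of_smoothOn hΩ (hW i) hx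
  have h1 : pd j (fun y => V i y + c * W i y) x = pd j (V i) x + c * pd j (W i) x := by
    unfold pd
    have h2 : HasFDerivAt (fun y => V i y + c * W i y) (fderiv ℝ (V i) x + c • fderiv ℝ (W i) x) x :=
      hd1.hasFDerivAt.add (hd2.hasFDerivAt.const_mul c)
    rw [h2.fderiv]
    simp
  rw [h1]
  have h3 : ∑ l, christoffel k l i j x * (V l x + c * W l x)
      = ∑ l, christoffel k l i j x * V l x + c * ∑ l, christoffel k l i j x * W l x := by
    rw [Finset.mul_sum, ← Finset.sum_add_distrib]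
    refine Finset.sum_congr rfl fun l _ => ?_
    ring
  rw [h3]
  ring

end lin

/-- the pointwise inequality of stage 2 -/
theorem ineq_of_scal2 (hSCG : SCG) (hSCs : SCsmooth) {n N : ℕ} (hn : 3 ≤ n)
    {Ω : Set (EI (Fin n))} {F : Set (EI (Fin N))} {f : EI (Fin n) → ℝ}
    {k : EI (Fin n) → Matrix (Fin n) (Fin n) ℝ}
    {h : EI (Fin n) → EI (Fin N) → Matrix (Fin N) (Fin N) ℝ} (hΩ : IsOpen Ω) (hF : IsOpen F)
    (hf : ContDiffOn ℝ ∞ f Ω) (hk : IsRiemMetricOn Ω k)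
    (hG : IsRiemMetricOn (prod Ω F) (block (fun x => Real.exp (2 * f x) • k x) h))
    {y : EI (Fin N)} (hy : y ∈ F) (hτ : ∀ i, ContDiffOn ℝ ∞ (tau h y i) Ω)
    (hh : ∀ x ∈ Ω, Real.exp (-(2 * f x)) * scal k x + scal (h x) y ≤ 1 / 2)
    (hs : ∀ z ∈ prod Ω F, 1 ≤ scal (block (fun x => Real.exp (2 * f x) • k x) h) z)
    (V : Fin n → EI (Fin n) → ℝ)
    (hV : V = fun i x' => pd i f x' + ((n : ℝ) - 1)⁻¹ * tau h y i x') :
    ∀ x ∈ Ω, 1 / (4 * ((n : ℝ) - 1)) * Real.exp (2 * f x) ≤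
      -(dv k V x + ((n : ℝ) - 2) / 2 * ip (k x) (fun i => V i x) (fun i => V i x)
        + (1 / 2) * ip (k x) (fun i => V i x - pd i f x) (fun i => V i x - pd i f x)) := by
  intro x hx
  have hn' : (3 : ℝ) ≤ n := by exact_mod_cast hn
  have hN1 : (0 : ℝ) < (n : ℝ) - 1 := by linarith
  have hz : mk x y ∈ prod Ω F := ⟨by simpa using hx, by simpa using hy⟩
  have h1 := hs _ hz
  have h2 := hSCG n N Ω F f k h hΩ hF hf hk hG _ hz
  rw [fst_mk, snd_mk] at h2
  have h3 := hh x hx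
  have hpf : ∀ i, ContDiffOn ℝ ∞ (pd i f) Ω := fun i => contDiffOn_pd hΩ hf i
  have hdiv : dv k V x = dv k (fun i => pd i f) x + ((n : ℝ) - 1)⁻¹ * dv k (tau h y) x := by
    rw [hV]
    exact dv_add hΩ k hpf hτ _ hx
  set p : Fin n → ℝ := fun i => pd i f x with hp
  set t : Fin n → ℝ := fun i => tau h y i x with ht
  have hA := hk.posDef x hx
  have hVx : (fun i => V i x) = fun i => 1 * p i + ((n : ℝ) - 1)⁻¹ * t i := by
    funext i
    rw [hV, hp, ht]
    simp only [one_mul]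
  have hVx2 : (fun i => V i x - pd i f x) = fun i => 0 * p i + ((n : ℝ) - 1)⁻¹ * t i := by
    funext i
    rw [hV, hp, ht]
    ring
  rw [hdiv, hVx, hVx2, ip_comb, ip_comb, ip_comm hA t p]
  set D1 := dv k (fun i => pd i f) x with hD1
  set D2 := dv k (tau h y) x with hD2
  set P := ip (k x) p p with hP
  set X := ip (k x) p t with hX
  set U := ip (k x) t t with hU
  have he : Real.exp (2 * f x) * Real.exp (-(2 * f x)) = 1 := by
    rw [← Real.exp_add]; simp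
  set B := 2 * ((n : ℝ) - 1) * D1 + ((n : ℝ) - 1) * ((n : ℝ) - 2) * P + 2 * D2
    + 2 * ((n : ℝ) - 2) * X + U with hB
  have h4 : Real.exp (-(2 * f x)) * B ≤ -(1 / 2) := by
    have h5 : Real.exp (-(2 * f x)) * (scal k x - 2 * ((n : ℝ) - 1) * D1
        - ((n : ℝ) - 1) * ((n : ℝ) - 2) * P - 2 * D2 - 2 * ((n : ℝ) - 2) * X - U)
        = Real.exp (-(2 * f x)) * scal k x - Real.exp (-(2 * f x)) * B := by
      rw [hB]; ring
    rw [h5] at h2
    linarith
  have h5 : B ≤ -(1 / 2) * Real.exp (2 * f x) := by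
    have h6 := mul_le_mul_of_nonneg_left h4 (Real.exp_pos (2 * f x)).le
    rw [← mul_assoc, he, one_mul] at h6
    linarith
  have h7 : -(D1 + ((n : ℝ) - 1)⁻¹ * D2 + ((n : ℝ) - 2) / 2 *
      (1 ^ 2 * P + 1 * ((n : ℝ) - 1)⁻¹ * X + 1 * ((n : ℝ) - 1)⁻¹ * X + ((n : ℝ) - 1)⁻¹ ^ 2 * U)
      + 1 / 2 * (0 ^ 2 * P + 0 * ((n : ℝ) - 1)⁻¹ * X + 0 * ((n : ℝ) - 1)⁻¹ * X
        + ((n : ℝ) - 1)⁻¹ ^ 2 * U)) = -(1 / (2 * ((n : ℝ) - 1))) * B := by
    rw [hB]
    field_simp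
    ring
  rw [h7]
  have h8 : 1 / (4 * ((n : ℝ) - 1)) * Real.exp (2 * f x)
      = -(1 / (2 * ((n : ℝ) - 1))) * (-(1 / 2) * Real.exp (2 * f x)) := by
    field_simp
    ring
  rw [h8]
  have h9 : 0 < 1 / (2 * ((n : ℝ) - 1)) := by positivity
  nlinarith

/-- the weight of stage 2 -/
theorem isWeight2 (hSCG : SCG) (hSCs : ∀ (n N : ℕ) (Ω : Set (EI (Fin n))) (F : Set (EI (Fin N)))
      (g : EI (Fin n) → Matrix (Fin n) (Fin n) ℝ)
      (h : EI (Fin n) → EI (Fin N) → Matrix (Fin N) (Fin N) ℝ), IsOpen Ω → IsOpen F →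
      IsRiemMetricOn (prod Ω F) (block g h) → ∀ y ∈ F, ∀ i, ContDiffOn ℝ ∞ (tau h y i) Ω)
    (hSCs' : SCsmooth) (hDIV : DIV) (n N : ℕ) (hn : 3 ≤ n) (K : ℝ) (hK : 0 < K) (b : ℝ)
    (hb : 2 < b) (hbn : (b - 1) ^ 2 < (n : ℝ) - 1) :
    ∃ A : ℝ, 0 < A ∧ ∀ (Ω : Set (EI (Fin n))) (F : Set (EI (Fin N))) (f : EI (Fin n) → ℝ)
      (k : EI (Fin n) → Matrix (Fin n) (Fin n) ℝ)
      (h : EI (Fin n) → EI (Fin N) → Matrix (Fin N) (Fin N) ℝ), IsOpen Ω → IsOpen F →
      ContDiffOn ℝ ∞ f Ω → IsRiemMetricOn Ω k → (∀ x ∈ Ω, Pinched K (k x)) →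
      IsRiemMetricOn (prod Ω F) (block (fun x => Real.exp (2 * f x) • k x) h) →
      (∃ y ∈ F, ∀ x ∈ Ω, Real.exp (-(2 * f x)) * scal k x + scal (h x) y ≤ 1 / 2) →
      (∀ z ∈ prod Ω F, 1 ≤ scal (block (fun x => Real.exp (2 * f x) • k x) h) z) →
      Vale.Agent.P210.IsCompleteOn Ω (conf f) → IsWeight Ω (wt Ω f) b A := by
  have hn' : (3 : ℝ) ≤ n := by exact_mod_cast hn
  have hN1 : (0 : ℝ) < (n : ℝ) - 1 := by linarith
  obtain ⟨δ, hδ, hquad⟩ := quad n hn (b - 2) (by linarith) (by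
    have : b - 2 + 1 = b - 1 := by ring
    rw [this]; exact hbn)
  have hKn : 0 < K ^ n := by positivity
  have hκ' : (0 : ℝ) < (K ^ n)⁻¹ * (1 / (4 * ((n : ℝ) - 1))) := by positivity
  have hδ' : (0 : ℝ) < δ / (K ^ n * K ^ 2) := by positivity
  obtain ⟨A, hA, hen⟩ := en n (by omega) ((K ^ n)⁻¹ * (1 / (4 * ((n : ℝ) - 1))))
    (δ / (K ^ n * K ^ 2)) b hκ' hδ' hb
  refine ⟨A, hA, ?_⟩
  intro Ω F f k h hΩ hF hf hk hpin hG ⟨y, hy, hh⟩ hs hcomp
  have hfc : ContinuousOn f Ω := hf.continuousOn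
  refine ⟨hΩ, measurable_wt hΩ hfc, continuousOn_wt hfc, ?_, ?_, ?_,
    seg_of_complete hΩ hfc hcomp, ray_of_complete hΩ hfc hcomp⟩
  · intro x hx
    unfold wt
    rw [indicator_of_mem hx, ENNReal.ofReal_pos]
    exact Real.exp_pos _
  · intro x hx
    unfold wt
    rw [indicator_of_mem hx]
    exact ENNReal.ofReal_lt_top
  · have hτ : ∀ i, ContDiffOn ℝ ∞ (tau h y i) Ω := hSCs n N Ω F _ h hΩ hF hG y hy
    set V : Fin n → EI (Fin n) → ℝ := fun i x' => pd i f x' + ((n : ℝ) - 1)⁻¹ * tau h y i x'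
      with hV
    have hVs : ∀ i, ContDiffOn ℝ ∞ (V i) Ω := fun i =>
      (contDiffOn_pd hΩ hf i).add (contDiffOn_const.mul (hτ i))
    set Z : Fin n → EI (Fin n) → ℝ := fun j x => Real.sqrt (k x).det * ∑ i, (k x)⁻¹ i j * V i x
      with hZ
    set Q : EI (Fin n) → ℝ := fun x => Real.sqrt (k x).det *
      (((n : ℝ) - 2) / 2 * ip (k x) (fun i => V i x) (fun i => V i x)
        + (1 / 2) * ip (k x) (fun i => V i x - pd i f x) (fun i => V i x - pd i f x)) with hQ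
    have hinv : ∀ i j, ContDiffOn ℝ ∞ (fun x => (k x)⁻¹ i j) Ω := fun i j => CC.smooth_inv hk i j
    have hdet : ContDiffOn ℝ ∞ (fun x => (k x).det) Ω := by
      have h1 : (fun x => (k x).det) = fun x => ∑ σ : Equiv.Perm (Fin n),
          ((Equiv.Perm.sign σ : ℤ) : ℝ) * ∏ i, k x (σ i) i := by
        funext x
        rw [Matrix.det_apply]
        refine Finset.sum_congr rfl fun σ _ => ?_
        rw [Units.smul_def, zsmul_eq_mul]
      rw [h1]
      exact ContDiffOn.sum fun σ _ => contDiffOn_const.mul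
        (contDiffOn_prod fun i _ => hk.smooth _ _)
    have hsq : ContDiffOn ℝ ∞ (fun x => Real.sqrt (k x).det) Ω :=
      hdet.sqrt fun x hx => (hk.posDef x hx).det_pos.ne'
    have hZs : ∀ j, ContDiffOn ℝ ∞ (Z j) Ω := fun j =>
      hsq.mul (ContDiffOn.sum fun i _ => (hinv i j).mul (hVs i))
    refine hen Ω f Z Q hΩ hf hZs ?_ ?_ fun C hC hCΩ ε hε => exists_cutoff hΩ hfc hcomp C hC hCΩ ε hε
    · intro x hx
      have h1 := ineq_of_scal2 hSCG hSCs' hn hΩ hF hf hk hG hy hτ hh hs V hV x hx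
      have h2 : ∑ i, Vale.Agent.P210.pd i (Z i) x = Real.sqrt (k x).det * dv k V x :=
        hDIV n Ω k V hΩ hk hVs x hx
      rw [h2]
      obtain ⟨h3, _, _⟩ := alg2 n K (k x) hK (hk.posDef x hx) (hpin x hx)
      have h4 : 0 ≤ 1 / (4 * ((n : ℝ) - 1)) * Real.exp (2 * f x) := by positivity
      have h5 : (0 : ℝ) ≤ Real.sqrt (k x).det := Real.sqrt_nonneg _
      calc (K ^ n)⁻¹ * (1 / (4 * ((n : ℝ) - 1))) * Real.exp (2 * f x)
          = (K ^ n)⁻¹ * (1 / (4 * ((n : ℝ) - 1)) * Real.exp (2 * f x)) := by ring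
        _ ≤ Real.sqrt (k x).det * (1 / (4 * ((n : ℝ) - 1)) * Real.exp (2 * f x)) :=
            mul_le_mul_of_nonneg_right h3 h4
        _ ≤ Real.sqrt (k x).det * _ := mul_le_mul_of_nonneg_left h1 h5
        _ = _ := by rw [hQ]; ring
    · intro x hx β hβ
      have hAp := hk.posDef x hx
      obtain ⟨h3, h4, h5⟩ := alg2 n K (k x) hK hAp (hpin x hx)
      have h6 := hquad (k x) hAp (fun i => V i x) (fun i => pd i f x) β hβ
      have hsn : (0 : ℝ) ≤ Real.sqrt (k x).det := Real.sqrt_nonneg _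
      have hPn : 0 ≤ ip (k x) (fun i => V i x) (fun i => V i x) := ip_self_nonneg hAp _
      have h7 : ∑ i, Z i x * Vale.Agent.P210.pd i f x
          = Real.sqrt (k x).det * ip (k x) (fun i => V i x) (fun i => pd i f x) := by
        unfold ip
        rw [Finset.sum_comm, Finset.mul_sum]
        refine Finset.sum_congr rfl fun j _ => ?_
        rw [hZ]
        change Real.sqrt (k x).det * (∑ i, (k x)⁻¹ i j * V i x) * pd j f x = _
        rw [mul_assoc, Finset.sum_mul]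
      have h8 : ∑ i, Z i x ^ 2 ≤ K ^ n * K ^ 2 *
          (Real.sqrt (k x).det * ip (k x) (fun i => V i x) (fun i => V i x)) := by
        have h9 : ∑ i, Z i x ^ 2 = Real.sqrt (k x).det ^ 2 *
            ∑ j, (∑ i, (k x)⁻¹ i j * V i x) ^ 2 := by
          rw [Finset.mul_sum]
          refine Finset.sum_congr rfl fun j _ => ?_
          rw [hZ]
          ring
        rw [h9]
        have h10 := h5 (fun i => V i x)
        calc Real.sqrt (k x).det ^ 2 * ∑ j, (∑ i, (k x)⁻¹ i j * V i x) ^ 2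
            ≤ Real.sqrt (k x).det ^ 2 *
              (K ^ 2 * ip (k x) (fun i => V i x) (fun i => V i x)) :=
              mul_le_mul_of_nonneg_left h10 (by positivity)
          _ = Real.sqrt (k x).det * (Real.sqrt (k x).det *
              (K ^ 2 * ip (k x) (fun i => V i x) (fun i => V i x))) := by ring
          _ ≤ K ^ n * (Real.sqrt (k x).det *
              (K ^ 2 * ip (k x) (fun i => V i x) (fun i => V i x))) :=
              mul_le_mul_of_nonneg_right h4 (by positivity)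
          _ = _ := by ring
      rw [h7]
      have h11 : -(δ / (K ^ n * K ^ 2)) * (K ^ n * K ^ 2 *
          (Real.sqrt (k x).det * ip (k x) (fun i => V i x) (fun i => V i x)))
          = Real.sqrt (k x).det * (-δ * ip (k x) (fun i => V i x) (fun i => V i x)) := by
        field_simp
      have h12 : -(δ / (K ^ n * K ^ 2)) * (K ^ n * K ^ 2 *
          (Real.sqrt (k x).det * ip (k x) (fun i => V i x) (fun i => V i x)))
          ≤ -(δ / (K ^ n * K ^ 2)) * ∑ i, Z i x ^ 2 :=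
        mul_le_mul_of_nonpos_left h8 (by linarith)
      refine le_trans ?_ h12
      rw [h11]
      have h13 := mul_le_mul_of_nonneg_left h6 hsn
      refine le_trans (le_of_eq ?_) h13
      rw [hQ]
      ring

theorem width_step2 (hSCG : SCG) (hSCs : ∀ (n N : ℕ) (Ω : Set (EI (Fin n))) (F : Set (EI (Fin N)))
      (g : EI (Fin n) → Matrix (Fin n) (Fin n) ℝ)
      (h : EI (Fin n) → EI (Fin N) → Matrix (Fin N) (Fin N) ℝ), IsOpen Ω → IsOpen F →
      IsRiemMetricOn (prod Ω F) (block g h) → ∀ y ∈ F, ∀ i, ContDiffOn ℝ ∞ (tau h y i) Ω)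
    (hSCs' : SCsmooth) (hDIV : DIV) (hP1 : PROD1) (hP2 : PROD2) (n N j : ℕ)
    (hn : 3 ≤ n) (hjn : j + 1 ≤ n) (hj : ((n : ℝ) - 1 - j) ^ 2 < (n : ℝ) - 1) (K : ℝ) (hK : 0 < K) :
    ∃ C : ℝ, ∀ (Ω : Set (EI (Fin n))) (F : Set (EI (Fin N))) (w : EI (Fin n) → ℝ)
        (k : EI (Fin n) → Matrix (Fin n) (Fin n) ℝ)
        (h : EI (Fin n) → EI (Fin N) → Matrix (Fin N) (Fin N) ℝ),
        IsOpen Ω → IsOpen F → IsRiemMetricOn Ω k → (∀ x ∈ Ω, Pinched K (k x)) →
        IsRiemMetricOn (prod Ω F) (block (fun x => w x • k x) h) →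
        (∃ y ∈ F, ∀ x ∈ Ω, (w x)⁻¹ * scal k x + scal (h x) y ≤ 1 / 2) →
        IsCompleteOn (prod Ω F) (block (fun x => w x • k x) h) →
        (∀ z ∈ prod Ω F, 1 ≤ scal (block (fun x => w x • k x) h) z) →
        UrysohnWidthLE (prod Ω F) (rdist (prod Ω F) (block (fun x => w x • k x) h)) (j + N) C := by
  have hn' : (3 : ℝ) ≤ n := by exact_mod_cast hn
  have hjn' : (j : ℝ) + 1 ≤ n := by exact_mod_cast hjn
  have hN1 : (0 : ℝ) < (n : ℝ) - 1 := by linarith
  have hj0 : 0 < j := by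
    rcases Nat.eq_zero_or_pos j with h0 | h0
    · exfalso
      rw [h0] at hj
      push_cast at hj
      nlinarith
    · exact h0
  set q : ℝ := Real.sqrt ((n : ℝ) - 1) with hq
  have hq0 : 0 ≤ q := Real.sqrt_nonneg _
  have hq2 : q ^ 2 = (n : ℝ) - 1 := Real.sq_sqrt hN1.le
  have hq1 : 1 < q := by
    by_contra hcon
    push Not at hcon
    nlinarith
  have hkq : (n : ℝ) - j < q + 1 := by
    by_contra hcon
    push Not at hcon
    nlinarith
  set m0 : ℝ := max 2 ((n : ℝ) - j) with hm0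
  have hm0q : m0 < q + 1 := by
    rw [hm0, max_lt_iff]
    constructor <;> linarith
  set b : ℝ := (m0 + (q + 1)) / 2 with hb
  have hm0b : m0 < b := by rw [hb]; linarith
  have hbq : b < q + 1 := by rw [hb]; linarith
  have h2m : 2 ≤ m0 := le_max_left _ _
  have hkm : (n : ℝ) - j ≤ m0 := le_max_right _ _
  have hb2 : 2 < b := by linarith
  obtain ⟨A, hA, hW⟩ := isWeight2 hSCG hSCs hSCs' hDIV n N hn K hK b hb2 (by nlinarith)
  obtain ⟨C, hC, hcore⟩ := prod3 n j (by omega) hj0 b A (by linarith) (by linarith) hA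
  refine ⟨K * (2 * C), ?_⟩
  intro Ω F w k h hΩ hF hk hpin hG ⟨y0, hy0, hh⟩ hcomp hs
  set i0 : Fin n := ⟨0, by omega⟩ with hi0
  have hmem : ∀ x ∈ Ω, mk x y0 ∈ prod Ω F := fun x hx => ⟨by simpa using hx, by simpa using hy0⟩
  have hkpos : ∀ x ∈ Ω, 0 < k x i0 i0 := fun x hx => (hk.posDef x hx).diag_pos
  have hwk : ∀ x ∈ Ω, 0 < w x * k x i0 i0 := by
    intro x hx
    have h1 := (hG.posDef _ (hmem x hx)).diag_pos (i := Sum.inl i0)
    simpa [block] using h1
  have hwpos : ∀ x ∈ Ω, 0 < w x := fun x hx => (pos_iff_pos_of_mul_pos (hwk x hx)).mpr (hkpos x hx)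
  have hwksm : ContDiffOn ℝ ∞ (fun x => w x * k x i0 i0) Ω := by
    have h1 := hG.smooth (Sum.inl i0) (Sum.inl i0)
    have h2 : ContDiff ℝ ∞ (fun x : EI (Fin n) => mk x y0) := by
      have : (fun u : EI (Fin n) => mk u y0) = fun u => inlL u + mk 0 y0 := by
        funext u; exact mk_eq _ _
      rw [this]
      exact (inlL (α := Fin n) (β := Fin N)).contDiff.add contDiff_const
    have h3 := h1.comp h2.contDiffOn (s := Ω) (fun x hx => hmem x hx)
    refine h3.congr fun x hx => ?_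
    simp [block]
  have hwsm : ContDiffOn ℝ ∞ w Ω := by
    have h1 := hwksm.div (hk.smooth i0 i0) fun x hx => (hkpos x hx).ne'
    refine h1.congr fun x hx => ?_
    have := (hkpos x hx).ne'
    simp only [Pi.div_apply]
    field_simp
  set f : EI (Fin n) → ℝ := fun x => Real.log (w x) / 2 with hfdef
  have hf : ContDiffOn ℝ ∞ f Ω := (hwsm.log fun x hx => (hwpos x hx).ne').div_const 2
  have hexp : ∀ x ∈ Ω, Real.exp (2 * f x) = w x := by
    intro x hx
    rw [hfdef]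
    simp only
    rw [mul_div_cancel₀ _ (two_ne_zero), Real.exp_log (hwpos x hx)]
  have hexp' : ∀ x ∈ Ω, Real.exp (-(2 * f x)) = (w x)⁻¹ := by
    intro x hx
    rw [Real.exp_neg, hexp x hx]
  have hblock : ∀ z ∈ prod Ω F, block (fun x => w x • k x) h z
      = block (fun x => Real.exp (2 * f x) • k x) h z := by
    intro z hz
    unfold block
    simp only [hexp _ hz.1]
  have hPo : IsOpen (prod Ω F) := by
    have h1 : Continuous (fun z : EI (Fin n ⊕ Fin N) => fst z) :=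
      (fstL (α := Fin n) (β := Fin N)).continuous
    have h2 : Continuous (fun z : EI (Fin n ⊕ Fin N) => snd z) := by
      unfold snd
      fun_prop
    exact (hΩ.preimage h1).inter (hF.preimage h2)
  have hG' : IsRiemMetricOn (prod Ω F) (block (fun x => Real.exp (2 * f x) • k x) h) := by
    refine ⟨fun i j => (hG.smooth i j).congr fun z hz => by rw [hblock z hz], fun z hz => ?_⟩
    rw [← hblock z hz]
    exact hG.posDef z hz
  have hs' : ∀ z ∈ prod Ω F, 1 ≤ scal (block (fun x => Real.exp (2 * f x) • k x) h) z := by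
    intro z hz
    rw [← tscal_congr hPo hblock hz]
    exact hs z hz
  have hrd : rdist (prod Ω F) (block (fun x => w x • k x) h)
      = rdist (prod Ω F) (block (fun x => Real.exp (2 * f x) • k x) h) := trdist_congr hblock
  have hcomp' : IsCompleteOn (prod Ω F) (block (fun x => Real.exp (2 * f x) • k x) h) := by
    unfold IsCompleteOn at hcomp ⊢
    rw [hrd] at hcomp
    exact hcomp
  have hcomp1 := leaf2 n N Ω F (fun x => Real.exp (2 * f x) • k x) h hG'.posDef ⟨y0, hy0⟩ hcomp'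
  obtain ⟨hbil1, hbil2⟩ := bil n K Ω f k hK hpin
  have hcomp2 : Vale.Agent.P210.IsCompleteOn Ω (conf f) :=
    (isCompleteOn_iff Ω (conf f)).mp (hbil2 hcomp1)
  have hwt : IsWeight Ω (wt Ω f) b A :=
    hW Ω F f k h hΩ hF hf hk hpin hG' ⟨y0, hy0, fun x hx => by
      rw [hexp' x hx]; exact hh x hx⟩ hs' hcomp2
  obtain ⟨lam, hlam, hfib⟩ := hcore Ω (wt Ω f) hwt
  have hfc : Continuous (fun z : prod Ω F => (⟨fst z.1, z.2.1⟩ : Ω)) := by
    apply Continuous.subtype_mk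
    exact (fstL (α := Fin n) (β := Fin N)).continuous.comp continuous_subtype_val
  have hlam2 := hlam.comp hfc
  obtain ⟨V', mu, hmu, hmu2⟩ := prodN hP1 N (prod Ω F) (Vtx n) j _ hlam2
    (fun i z => snd z.1 i) (by
      intro i
      have h2 : Continuous (fun z : EI (Fin n ⊕ Fin N) => snd z i) := by
        unfold snd
        fun_prop
      exact h2.comp continuous_subtype_val)
  obtain ⟨Φ, hΦc, hΦ⟩ := hP2 (prod Ω F) V' (j + N) mu hmu
  refine ⟨V', skel V' (j + N), Φ, fun s hs => hs.2, hΦc, ?_⟩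
  intro z z' hzz
  obtain ⟨h1, h2⟩ := hmu2 z z' (fun p => by rw [← hΦ z p, ← hΦ z' p, hzz])
  obtain ⟨p, h3, h4, h5, h6⟩ := hfib _ _ h1
  have h7 : Vale.Agent.P210.rdist Ω (conf f) (fst z.1) (fst z'.1) ≤ ENNReal.ofReal (2 * C) :=
    rdist_le_of_segments _ _ p C hC.le h3 h4 h5 h6
  rw [hrd]
  have h8 : snd z.1 = snd z'.1 := by
    ext i
    exact h2 i
  have h9 := leaf1 n N Ω F (fun x => Real.exp (2 * f x) • k x) h z.1 z'.1 h8 z.2.2
  have h10 := hbil1 (fst z.1) (fst z'.1)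
  rw [rdist_eq Ω (conf f)] at h10
  refine h9.trans (h10.trans ?_)
  rw [ENNReal.ofReal_mul hK.le]
  exact mul_le_mul_right h7 _

/-- Target of stage 2. -/
def TargetQ : Prop :=
    ∀ m : ℕ, 3 ≤ m → ∀ K : ℝ, 0 < K → ∃ C : ℝ,
      ∀ (n N : ℕ), 3 ≤ n → n + N = m →
      ∀ (Ω : Set (EI (Fin n))) (F : Set (EI (Fin N))) (w : EI (Fin n) → ℝ)
        (k : EI (Fin n) → Matrix (Fin n) (Fin n) ℝ)
        (h : EI (Fin n) → EI (Fin N) → Matrix (Fin N) (Fin N) ℝ),
        IsOpen Ω → IsOpen F → IsRiemMetricOn Ω k → (∀ x ∈ Ω, Pinched K (k x)) →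
        IsRiemMetricOn (prod Ω F) (block (fun x => w x • k x) h) →
        (∃ y ∈ F, ∀ x ∈ Ω, (w x)⁻¹ * scal k x + scal (h x) y ≤ 1 / 2) →
        IsCompleteOn (prod Ω F) (block (fun x => w x • k x) h) →
        (∀ z ∈ prod Ω F, 1 ≤ scal (block (fun x => w x • k x) h) z) →
        UrysohnWidthLE (prod Ω F) (rdist (prod Ω F) (block (fun x => w x • k x) h)) (m - 2) C ∧
        ∀ j : ℕ, j + 1 ≤ n → ((n : ℝ) - 1 - j) ^ 2 < (n : ℝ) - 1 →
          UrysohnWidthLE (prod Ω F) (rdist (prod Ω F) (block (fun x => w x • k x) h)) (j + N) C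

theorem targetQ (hSCG : SCG) (hSCs : ∀ (n N : ℕ) (Ω : Set (EI (Fin n))) (F : Set (EI (Fin N)))
      (g : EI (Fin n) → Matrix (Fin n) (Fin n) ℝ)
      (h : EI (Fin n) → EI (Fin N) → Matrix (Fin N) (Fin N) ℝ), IsOpen Ω → IsOpen F →
      IsRiemMetricOn (prod Ω F) (block g h) → ∀ y ∈ F, ∀ i, ContDiffOn ℝ ∞ (tau h y i) Ω)
    (hSCs' : SCsmooth) (hDIV : DIV) (hP1 : PROD1) (hP2 : PROD2) : TargetQ := by
  classical
  intro m hm K hK
  have hall : ∀ n j : ℕ, ∃ C : ℝ, 3 ≤ n → j + 1 ≤ n → ((n : ℝ) - 1 - j) ^ 2 < (n : ℝ) - 1 →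
      ∀ (Ω : Set (EI (Fin n))) (F : Set (EI (Fin (m - n)))) (w : EI (Fin n) → ℝ)
        (k : EI (Fin n) → Matrix (Fin n) (Fin n) ℝ)
        (h : EI (Fin n) → EI (Fin (m - n)) → Matrix (Fin (m - n)) (Fin (m - n)) ℝ),
        IsOpen Ω → IsOpen F → IsRiemMetricOn Ω k → (∀ x ∈ Ω, Pinched K (k x)) →
        IsRiemMetricOn (prod Ω F) (block (fun x => w x • k x) h) →
        (∃ y ∈ F, ∀ x ∈ Ω, (w x)⁻¹ * scal k x + scal (h x) y ≤ 1 / 2) →
        IsCompleteOn (prod Ω F) (block (fun x => w x • k x) h) →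
        (∀ z ∈ prod Ω F, 1 ≤ scal (block (fun x => w x • k x) h) z) →
        UrysohnWidthLE (prod Ω F) (rdist (prod Ω F) (block (fun x => w x • k x) h))
          (j + (m - n)) C := by
    intro n j
    by_cases h1 : 3 ≤ n ∧ j + 1 ≤ n ∧ ((n : ℝ) - 1 - j) ^ 2 < (n : ℝ) - 1
    · obtain ⟨C, hC⟩ := width_step2 hSCG hSCs hSCs' hDIV hP1 hP2 n (m - n) j h1.1 h1.2.1 h1.2.2 K hK
      exact ⟨C, fun _ _ _ => hC⟩
    · exact ⟨0, fun h2 h3 h4 => absurd ⟨h2, h3, h4⟩ h1⟩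
  choose Cf hCf using hall
  refine ⟨∑ n ∈ Finset.range (m + 1), ∑ j ∈ Finset.range (m + 1), |Cf n j|, ?_⟩
  intro n N hn hnN
  obtain rfl : N = m - n := by omega
  intro Ω F w k h hΩ hF hk hpin hG hy hcomp hs
  have hmain : ∀ j : ℕ, j + 1 ≤ n → ((n : ℝ) - 1 - j) ^ 2 < (n : ℝ) - 1 →
      UrysohnWidthLE (prod Ω F) (rdist (prod Ω F) (block (fun x => w x • k x) h)) (j + (m - n))
        (∑ n ∈ Finset.range (m + 1), ∑ j ∈ Finset.range (m + 1), |Cf n j|) := by
    intro j hk1 hk2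
    refine width_mono (hCf n j hn hk1 hk2 Ω F w k h hΩ hF hk hpin hG hy hcomp hs) ?_
    refine (le_abs_self _).trans ?_
    refine le_trans ?_ (Finset.single_le_sum
      (f := fun n => ∑ k ∈ Finset.range (m + 1), |Cf n k|)
      (fun i _ => Finset.sum_nonneg fun j _ => abs_nonneg _) (Finset.mem_range.mpr (by omega : n < m + 1)))
    exact Finset.single_le_sum (f := fun k => |Cf n k|) (fun j _ => abs_nonneg _)
      (Finset.mem_range.mpr (by omega : j < m + 1))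
  refine ⟨?_, hmain⟩
  have h2 := hmain (n - 2) (by omega) (by
    have h3 : ((n - 2 : ℕ) : ℝ) = (n : ℝ) - 2 := by
      rw [Nat.cast_sub (by omega)]
      norm_num
    rw [h3]
    have : (3 : ℝ) ≤ n := by exact_mod_cast hn
    nlinarith)
  have h4 : n - 2 + (m - n) = m - 2 := by omega
  rw [h4] at h2
  exact h2

end Vale.Agent.P210.TP
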