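import Vale.Agent.P210.TP.Props2
import Vale.Agent.P210.TP.Conf646

/-! Blocks [CC] and [CHR] in the exact form of `Props2`. -/

set_option linter.all false

open scoped ENNReal ContDiff Topology
open MeasureTheory Set

namespace Vale.Agent.P210.TP

open CC in
/-- `div grad f` in both forms -/
lemma dv_eq_lap {ι : Type} [Fintype ι] [DecidableEq ι] {U : Set (EI ι)}
    {g : EI ι → Matrix ι ι ℝ} {f : EI ι → ℝ} (hU : IsOpen U) (hg : IsRiemMetricOn U g)
    (hf : ContDiffOn ℝ ∞ f U) {x : EI ι} (hx : x ∈ U) :
    dv g (fun i => pd i f) x = lap g f x := by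
  have htr := trace_alg (G := fun i j => g x i j) (H := fun i j => (g x)⁻¹ i j)
    (D := fun m i j => pd m (fun y => g y i j) x)
    (Γ := fun k i j => christoffel g k i j x) (a := fun l => pd l f x)
    (u := fun l => grad g f l x) (A := fun m l => pd m (pd l f) x)
    (Du := fun m l => pd m (grad g f l) x)
    (fun i j => g_sym hg hx i j) (fun i j => inv_mul_g hg hx i j) (fun i j => inv_sym hg hx i j)
    (fun l => by
      rw [← g_mul_grad (f := f) hg hx l]
      exact Finset.sum_congr rfl fun k _ => by rw [g_sym hg hx])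
    (fun k i j => christoffel_sym hU hg hx k i j)
    (fun i j => pd_comm' hU hf hx i j)
    (fun m i j => compat hU hg hx m i j)
    (fun i j => by
      have h1 : (fun y => ∑ k, g y i k * grad g f k y) =ᶠ[nhds x] pd i f := by
        filter_upwards [hU.mem_nhds hx] with y hy
        exact g_mul_grad hg hy i
      rw [← pd_congr' j h1, pd_sum' _ j fun k _ =>
        (diffAt hU (hg.smooth i k) hx).fun_mul (diffAt hU (smooth_grad hU hg hf k) hx)]
      apply Finset.sum_congr rfl
      intro k _
      rw [pd_mul' j (diffAt hU (hg.smooth i k) hx) (diffAt hU (smooth_grad hU hg hf k) hx)])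
  rw [show lap g f x = ∑ k, pd k (grad g f k) x + ∑ k, ∑ l, christoffel g k k l x * grad g f l x
    from rfl, ← htr]
  unfold dv
  apply Finset.sum_congr rfl
  intro i _
  apply Finset.sum_congr rfl
  intro j _
  rw [pd_comm' hU hf hx j i]
  congr 2
  exact Finset.sum_congr rfl fun l _ => mul_comm _ _

/-- [CC] -/
theorem cc : CC := by
  intro n Ω f k hΩ hf hk x hx
  have h1 := CC.scal_cf hΩ hk hf hx
  rw [Fintype.card_fin] at h1
  have h2 : (fun x => Real.exp (2 * f x) • k x) = CC.cf f k := rfl
  rw [h2, h1, dv_eq_lap hΩ hk hf hx]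
  have h3 : ip (k x) (fun i => pd i f x) (fun i => pd i f x)
      = ∑ l, pd l f x * CC.grad k f l x := by
    unfold ip CC.grad
    apply Finset.sum_congr rfl
    intro i _
    rw [Finset.mul_sum]
    exact Finset.sum_congr rfl fun j _ => by ring
  rw [h3]

/-- [CHR] -/
theorem chr : CHR := by
  intro n Ω f k hΩ hf hk x hx l i j
  have h2 : (fun x => Real.exp (2 * f x) • k x) = CC.cf f k := rfl
  rw [h2, CC.christoffel_cf hΩ hk hf hx]
  unfold CC.TT CC.grad
  have e1 : (if l = i then pd j f x else 0) = (if i = l then pd j f x else 0) := by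
    by_cases h : l = i
    · rw [if_pos h, if_pos h.symm]
    · rw [if_neg h, if_neg (Ne.symm h)]
  have e2 : (if l = j then pd i f x else 0) = (if j = l then pd i f x else 0) := by
    by_cases h : l = j
    · rw [if_pos h, if_pos h.symm]
    · rw [if_neg h, if_neg (Ne.symm h)]
  simp only [e1, e2]
  ring

end Vale.Agent.P210.TP
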