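import Vale.Agent.P210.TP.Props

open scoped ENNReal ContDiff
open MeasureTheory Set

namespace Vale.Agent.P210.TP.S

set_option linter.unusedSectionVars false
set_option linter.unusedSimpArgs false

/-! ### Generic calculus -/

section General

variable {ι : Type} [Fintype ι] [DecidableEq ι]

lemma pd_congr' {f f' : EI ι → ℝ} {x : EI ι} (h : f =ᶠ[nhds x] f') (i : ι) :
    pd i f x = pd i f' x := by
  unfold pd
  rw [h.fderiv_eq]

lemma pd_congr_on' {U : Set (EI ι)} (hU : IsOpen U) {f f' : EI ι → ℝ}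
    (h : ∀ y ∈ U, f y = f' y) (i : ι) {x : EI ι} (hx : x ∈ U) : pd i f x = pd i f' x := by
  apply pd_congr'
  filter_upwards [hU.mem_nhds hx] with y hy using h y hy

lemma pd_const' (c : ℝ) (i : ι) (x : EI ι) : pd i (fun _ => c) x = 0 := by
  simp [pd]

lemma pd_add' {f f' : EI ι → ℝ} {x : EI ι} (i : ι) (hf : DifferentiableAt ℝ f x)
    (hf' : DifferentiableAt ℝ f' x) : pd i (fun y => f y + f' y) x = pd i f x + pd i f' x := by
  have := hf.hasFDerivAt.add hf'.hasFDerivAt
  unfold pd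
  rw [show (fun y => f y + f' y) = f + f' from rfl, this.fderiv]
  rfl

lemma pd_mul' {f f' : EI ι → ℝ} {x : EI ι} (i : ι) (hf : DifferentiableAt ℝ f x)
    (hf' : DifferentiableAt ℝ f' x) :
    pd i (fun y => f y * f' y) x = pd i f x * f' x + f x * pd i f' x := by
  have := hf.hasFDerivAt.mul hf'.hasFDerivAt
  unfold pd
  rw [show (fun y => f y * f' y) = f * f' from rfl, this.fderiv]
  simp
  ring

lemma pd_const_mul' {f : EI ι → ℝ} {x : EI ι} (i : ι) (c : ℝ) (hf : DifferentiableAt ℝ f x) :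
    pd i (fun y => c * f y) x = c * pd i f x := by
  rw [pd_mul' i (differentiableAt_const c) hf, pd_const']
  ring

lemma pd_sum' {σ : Type} (s : Finset σ) {f : σ → EI ι → ℝ} {x : EI ι} (i : ι)
    (hf : ∀ j ∈ s, DifferentiableAt ℝ (f j) x) :
    pd i (fun y => ∑ j ∈ s, f j y) x = ∑ j ∈ s, pd i (f j) x := by
  unfold pd
  rw [fderiv_fun_sum hf]
  simp

lemma contDiffOn_pd' {U : Set (EI ι)} (hU : IsOpen U) {f : EI ι → ℝ} (hf : ContDiffOn ℝ ∞ f U)
    (i : ι) : ContDiffOn ℝ ∞ (pd i f) U := by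
  have h1 : ContDiffOn ℝ ∞ (fderiv ℝ f) U := hf.fderiv_of_isOpen hU (by simp)
  exact h1.clm_apply contDiffOn_const

lemma diffAt {U : Set (EI ι)} (hU : IsOpen U) {f : EI ι → ℝ} (hf : ContDiffOn ℝ ∞ f U)
    {x : EI ι} (hx : x ∈ U) : DifferentiableAt ℝ f x :=
  (hf.contDiffAt (hU.mem_nhds hx)).differentiableAt (by simp)

lemma contDiffOn_det {U : Set (EI ι)} {κ : Type} [Fintype κ] [DecidableEq κ]
    {A : EI ι → Matrix κ κ ℝ} (hA : ∀ i j, ContDiffOn ℝ ∞ (fun x => A x i j) U) :
    ContDiffOn ℝ ∞ (fun x => (A x).det) U := by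
  simp only [Matrix.det_apply']
  apply ContDiffOn.sum
  intro σ _
  apply ContDiffOn.mul contDiffOn_const
  exact contDiffOn_prod fun i _ => hA _ _

lemma contDiffOn_inv_apply {U : Set (EI ι)} {κ : Type} [Fintype κ] [DecidableEq κ]
    {A : EI ι → Matrix κ κ ℝ} (hA : ∀ i j, ContDiffOn ℝ ∞ (fun x => A x i j) U)
    (hp : ∀ x ∈ U, (A x).PosDef) (i j : κ) : ContDiffOn ℝ ∞ (fun x => (A x)⁻¹ i j) U := by
  simp only [Matrix.inv_def, Matrix.smul_apply, smul_eq_mul, Ring.inverse_eq_inv']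
  apply ContDiffOn.mul
  · apply (contDiffOn_det hA).inv
    intro x hx
    exact ((Matrix.isUnit_iff_isUnit_det _).mp (hp x hx).isUnit).ne_zero
  · simp only [Matrix.adjugate_apply]
    apply contDiffOn_det
    intro a b
    by_cases h : a = j
    · subst h
      simp only [Matrix.updateRow_self]
      exact contDiffOn_const
    · simp only [Matrix.updateRow_ne h]
      exact hA a b

lemma contDiffOn_christoffel {U : Set (EI ι)} (hU : IsOpen U) {g : EI ι → Matrix ι ι ℝ}
    (hg : IsRiemMetricOn U g) (k i j : ι) : ContDiffOn ℝ ∞ (christoffel g k i j) U := by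
  unfold christoffel
  apply ContDiffOn.mul contDiffOn_const
  apply ContDiffOn.sum
  intro l _
  apply ContDiffOn.mul (contDiffOn_inv_apply hg.smooth hg.posDef k l)
  exact ((contDiffOn_pd' hU (hg.smooth j l) i).add (contDiffOn_pd' hU (hg.smooth i l) j)).sub
    (contDiffOn_pd' hU (hg.smooth i j) l)

lemma inv_mul_of_posDef {κ : Type} [Fintype κ] [DecidableEq κ] {A : Matrix κ κ ℝ}
    (h : A.PosDef) : A⁻¹ * A = 1 :=
  Matrix.nonsing_inv_mul _ (Matrix.isUnit_iff_isUnit_det _ |>.mp h.isUnit)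

lemma mul_inv_of_posDef {κ : Type} [Fintype κ] [DecidableEq κ] {A : Matrix κ κ ℝ}
    (h : A.PosDef) : A * A⁻¹ = 1 :=
  Matrix.mul_nonsing_inv _ (Matrix.isUnit_iff_isUnit_det _ |>.mp h.isUnit)

/-- derivative of the inverse matrix -/
lemma pd_inv {U : Set (EI ι)} (hU : IsOpen U) {κ : Type} [Fintype κ] [DecidableEq κ]
    {A : EI ι → Matrix κ κ ℝ} (hA : ∀ i j, ContDiffOn ℝ ∞ (fun x => A x i j) U)
    (hp : ∀ x ∈ U, (A x).PosDef) {x : EI ι} (hx : x ∈ U) (m : ι) (a b : κ) :
    pd m (fun y => (A y)⁻¹ a b) x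
      = -((A x)⁻¹ * (Matrix.of fun c d => pd m (fun y => A y c d) x) * (A x)⁻¹) a b := by
  set P : Matrix κ κ ℝ := Matrix.of fun c d => pd m (fun y => (A y)⁻¹ c d) x with hP
  set D : Matrix κ κ ℝ := Matrix.of fun c d => pd m (fun y => A y c d) x with hD
  have h1 : P * A x + (A x)⁻¹ * D = 0 := by
    ext c d
    have e1 : ∀ y ∈ U, (∑ e, (A y)⁻¹ c e * A y e d) = (1 : Matrix κ κ ℝ) c d := by
      intro y hy
      rw [← Matrix.mul_apply, inv_mul_of_posDef (hp y hy)]
    have e2 : pd m (fun y => ∑ e, (A y)⁻¹ c e * A y e d) x = 0 := by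
      rw [pd_congr_on' hU e1 m hx, pd_const']
    have e3 := pd_sum' (Finset.univ : Finset κ) (f := fun e y => (A y)⁻¹ c e * A y e d) (x := x) m
      fun e _ => (diffAt hU (contDiffOn_inv_apply hA hp c e) hx).mul (diffAt hU (hA e d) hx)
    rw [e3] at e2
    simp only [Matrix.add_apply, Matrix.mul_apply, Matrix.zero_apply]
    rw [← Finset.sum_add_distrib, ← e2]
    apply Finset.sum_congr rfl
    intro e _
    rw [pd_mul' m (diffAt hU (contDiffOn_inv_apply hA hp c e) hx) (diffAt hU (hA e d) hx)]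
    simp [hP, hD]
  have h2 : P = -((A x)⁻¹ * D * (A x)⁻¹) := by
    have h3 : (P * A x + (A x)⁻¹ * D) * (A x)⁻¹ = 0 := by rw [h1, Matrix.zero_mul]
    rw [Matrix.add_mul, Matrix.mul_assoc, mul_inv_of_posDef (hp x hx), Matrix.mul_one] at h3
    exact eq_neg_of_add_eq_zero_left h3
  have h3 : pd m (fun y => (A y)⁻¹ a b) x = P a b := by simp [hP]
  rw [h3, h2]
  rfl

end General

/-! ### The product -/

section Product

variable {α β : Type} [Fintype α] [Fintype β] [DecidableEq α] [DecidableEq β]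

/-- the point `(x, y)` -/
noncomputable def mk (x : EI α) (y : EI β) : EI (α ⊕ β) :=
  WithLp.toLp 2 (Sum.elim (fun i => x i) (fun i => y i))

@[simp] lemma fst_mk (x : EI α) (y : EI β) : fst (mk x y) = x := by
  ext i; simp [fst, mk]

@[simp] lemma snd_mk (x : EI α) (y : EI β) : snd (mk x y) = y := by
  ext i; simp [snd, mk]

@[simp] lemma mk_fst_snd (z : EI (α ⊕ β)) : mk (fst z) (snd z) = z := by
  ext i
  rcases i with i | i <;> simp [fst, snd, mk]

/-- `fst` as a continuous linear map -/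
noncomputable def fstL : EI (α ⊕ β) →L[ℝ] EI α :=
  LinearMap.toContinuousLinearMap
    { toFun := fst
      map_add' := fun x y => by ext i; simp [fst]
      map_smul' := fun c x => by ext i; simp [fst] }

/-- `snd` as a continuous linear map -/
noncomputable def sndL : EI (α ⊕ β) →L[ℝ] EI β :=
  LinearMap.toContinuousLinearMap
    { toFun := snd
      map_add' := fun x y => by ext i; simp [snd]
      map_smul' := fun c x => by ext i; simp [snd] }

/-- `x ↦ (x, 0)` -/
noncomputable def inlL : EI α →L[ℝ] EI (α ⊕ β) :=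
  LinearMap.toContinuousLinearMap
    { toFun := fun x => mk x 0
      map_add' := fun x y => by ext i; rcases i with i | i <;> simp [mk]
      map_smul' := fun c x => by ext i; rcases i with i | i <;> simp [mk] }

/-- `y ↦ (0, y)` -/
noncomputable def inrL : EI β →L[ℝ] EI (α ⊕ β) :=
  LinearMap.toContinuousLinearMap
    { toFun := fun y => mk 0 y
      map_add' := fun x y => by ext i; rcases i with i | i <;> simp [mk]
      map_smul' := fun c x => by ext i; rcases i with i | i <;> simp [mk] }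

@[simp] lemma fstL_apply (z : EI (α ⊕ β)) : fstL z = fst z := rfl
@[simp] lemma sndL_apply (z : EI (α ⊕ β)) : sndL z = snd z := rfl
@[simp] lemma inlL_apply (x : EI α) : (inlL x : EI (α ⊕ β)) = mk x 0 := rfl
@[simp] lemma inrL_apply (y : EI β) : (inrL y : EI (α ⊕ β)) = mk 0 y := rfl

lemma continuous_fst' : Continuous (fst : EI (α ⊕ β) → EI α) := fstL.continuous
lemma continuous_snd' : Continuous (snd : EI (α ⊕ β) → EI β) := sndL.continuous

lemma mk_eq (x : EI α) (y : EI β) : mk x y = inlL x + inrL y := by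
  ext i
  rcases i with i | i <;> simp [mk]

lemma inlL_single (i : α) : (inlL (EuclideanSpace.single i (1 : ℝ)) : EI (α ⊕ β))
    = EuclideanSpace.single (Sum.inl i) 1 := by
  ext j
  rcases j with j | j <;> simp [mk, Pi.single_apply]

lemma inrL_single (i : β) : (inrL (EuclideanSpace.single i (1 : ℝ)) : EI (α ⊕ β))
    = EuclideanSpace.single (Sum.inr i) 1 := by
  ext j
  rcases j with j | j <;> simp [mk, Pi.single_apply]

lemma isOpen_prod {Ω : Set (EI α)} {F : Set (EI β)} (hΩ : IsOpen Ω) (hF : IsOpen F) :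
    IsOpen (prod Ω F) :=
  (hΩ.preimage continuous_fst').inter (hF.preimage continuous_snd')

lemma contDiff_mk_left (y : EI β) : ContDiff ℝ ∞ (fun x : EI α => mk x y) := by
  have : (fun x : EI α => mk x y) = fun x => inlL x + inrL y := by
    funext x; exact mk_eq x y
  rw [this]
  have h : ContDiff ℝ ∞ (fun x : EI α => (inlL x : EI (α ⊕ β))) :=
    ContinuousLinearMap.contDiff (inlL : EI α →L[ℝ] EI (α ⊕ β))
  exact h.add contDiff_const

lemma contDiff_mk_right (x : EI α) : ContDiff ℝ ∞ (fun y : EI β => mk x y) := by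
  have : (fun y : EI β => mk x y) = fun y => inlL x + inrL y := by
    funext y; exact mk_eq x y
  rw [this]
  have h : ContDiff ℝ ∞ (fun y : EI β => (inrL y : EI (α ⊕ β))) :=
    ContinuousLinearMap.contDiff (inrL : EI β →L[ℝ] EI (α ⊕ β))
  exact contDiff_const.add h

/-- slice in `x` -/
lemma contDiffOn_left {Ω : Set (EI α)} {F : Set (EI β)} {v : EI (α ⊕ β) → ℝ}
    (hv : ContDiffOn ℝ ∞ v (prod Ω F)) {y : EI β} (hy : y ∈ F) :
    ContDiffOn ℝ ∞ (fun x => v (mk x y)) Ω :=
  hv.comp (contDiff_mk_left y).contDiffOn fun x hx => ⟨by simpa using hx, by simpa using hy⟩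

/-- slice in `y` -/
lemma contDiffOn_right {Ω : Set (EI α)} {F : Set (EI β)} {v : EI (α ⊕ β) → ℝ}
    (hv : ContDiffOn ℝ ∞ v (prod Ω F)) {x : EI α} (hx : x ∈ Ω) :
    ContDiffOn ℝ ∞ (fun y => v (mk x y)) F :=
  hv.comp (contDiff_mk_right x).contDiffOn fun y hy => ⟨by simpa using hx, by simpa using hy⟩

lemma pd_inl {v : EI (α ⊕ β) → ℝ} {z : EI (α ⊕ β)} (hv : DifferentiableAt ℝ v z) (i : α) :
    pd (Sum.inl i) v z = pd i (fun x => v (mk x (snd z))) (fst z) := by
  have h1 : HasFDerivAt (fun x : EI α => mk x (snd z)) (inlL : EI α →L[ℝ] EI (α ⊕ β)) (fst z) := by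
    have : (fun x : EI α => mk x (snd z)) = fun x => inlL x + inrL (snd z) := by
      funext x; exact mk_eq x _
    rw [this]
    exact inlL.hasFDerivAt.add_const _
  have h2 : HasFDerivAt v (fderiv ℝ v z) (mk (fst z) (snd z)) := by
    rw [mk_fst_snd]; exact hv.hasFDerivAt
  have h3 := h2.comp (fst z) h1
  unfold pd
  rw [show (fun x => v (mk x (snd z))) = v ∘ (fun x : EI α => mk x (snd z)) from rfl, h3.fderiv]
  rw [ContinuousLinearMap.comp_apply, inlL_single]

lemma pd_inr {v : EI (α ⊕ β) → ℝ} {z : EI (α ⊕ β)} (hv : DifferentiableAt ℝ v z) (i : β) :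
    pd (Sum.inr i) v z = pd i (fun y => v (mk (fst z) y)) (snd z) := by
  have h1 : HasFDerivAt (fun y : EI β => mk (fst z) y) (inrL : EI β →L[ℝ] EI (α ⊕ β)) (snd z) := by
    have : (fun y : EI β => mk (fst z) y) = fun y => inlL (fst z) + inrL y := by
      funext y; exact mk_eq _ _
    rw [this]
    exact inrL.hasFDerivAt.const_add _
  have h2 : HasFDerivAt v (fderiv ℝ v z) (mk (fst z) (snd z)) := by
    rw [mk_fst_snd]; exact hv.hasFDerivAt
  have h3 := h2.comp (snd z) h1
  unfold pd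
  rw [show (fun y => v (mk (fst z) y)) = v ∘ (fun y : EI β => mk (fst z) y) from rfl, h3.fderiv]
  rw [ContinuousLinearMap.comp_apply, inrL_single]

/-- functions of `x` alone -/
lemma pd_inr_fst {u : EI α → ℝ} (z : EI (α ⊕ β)) (hu : DifferentiableAt ℝ u (fst z)) (i : β) :
    pd (Sum.inr i) (fun z => u (fst z)) z = 0 := by
  have h : DifferentiableAt ℝ (fun z : EI (α ⊕ β) => u (fst z)) z :=
    hu.comp z (fstL : EI (α ⊕ β) →L[ℝ] EI α).differentiableAt
  rw [pd_inr h]
  simp only [fst_mk]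
  exact pd_const' _ _ _

lemma pd_inl_fst {u : EI α → ℝ} (z : EI (α ⊕ β)) (hu : DifferentiableAt ℝ u (fst z)) (i : α) :
    pd (Sum.inl i) (fun z => u (fst z)) z = pd i u (fst z) := by
  have h : DifferentiableAt ℝ (fun z : EI (α ⊕ β) => u (fst z)) z :=
    hu.comp z (fstL : EI (α ⊕ β) →L[ℝ] EI α).differentiableAt
  rw [pd_inl h]
  simp only [fst_mk]

lemma contDiffOn_fst {Ω : Set (EI α)} {F : Set (EI β)} {u : EI α → ℝ}
    (hu : ContDiffOn ℝ ∞ u Ω) : ContDiffOn ℝ ∞ (fun z => u (fst z)) (prod Ω F) :=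
  hu.comp (fstL : EI (α ⊕ β) →L[ℝ] EI α).contDiff.contDiffOn fun _ hz => hz.1

end Product

end Vale.Agent.P210.TP.S
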