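import Vale.Agent.P210.Defs

open scoped ENNReal ContDiff
open MeasureTheory Set

namespace Vale.Agent.P210.TP

/-- Euclidean space with coordinates indexed by the finite type `ι`. -/
abbrev EI (ι : Type) [Fintype ι] : Type := EuclideanSpace ℝ ι

section General

variable {ι : Type} [Fintype ι] [DecidableEq ι]

/-- Partial derivative in the `i`-th coordinate direction. -/
noncomputable def pd (i : ι) (f : EI ι → ℝ) (x : EI ι) : ℝ :=
  fderiv ℝ f x (EuclideanSpace.single i 1)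

/-- A smooth Riemannian metric on the set `U` of Euclidean space, given by its matrix of
coefficients. -/
structure IsRiemMetricOn (U : Set (EI ι)) (g : EI ι → Matrix ι ι ℝ) : Prop where
  smooth : ∀ i j, ContDiffOn ℝ ∞ (fun x => g x i j) U
  posDef : ∀ x ∈ U, (g x).PosDef

/-- Christoffel symbols `Γ^k_{ij}` of the Levi-Civita connection of `g`. -/
noncomputable def christoffel (g : EI ι → Matrix ι ι ℝ) (k i j : ι) (x : EI ι) : ℝ :=
  (1 / 2) * ∑ l, (g x)⁻¹ k l *
    (pd i (fun y => g y j l) x + pd j (fun y => g y i l) x - pd l (fun y => g y i j) x)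

/-- Ricci curvature `R_{ij} = ∂_k Γ^k_{ij} - ∂_j Γ^k_{ik} + Γ^k_{kl} Γ^l_{ij} - Γ^k_{jl} Γ^l_{ik}`. -/
noncomputable def ricci (g : EI ι → Matrix ι ι ℝ) (i j : ι) (x : EI ι) : ℝ :=
  ∑ k, (pd k (christoffel g k i j) x - pd j (christoffel g k i k) x
    + ∑ l, (christoffel g k k l x * christoffel g l i j x
      - christoffel g k j l x * christoffel g l i k x))

/-- Scalar curvature `g^{ij} R_{ij}`. -/
noncomputable def scal (g : EI ι → Matrix ι ι ℝ) (x : EI ι) : ℝ :=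
  ∑ i, ∑ j, (g x)⁻¹ i j * ricci g i j x

/-- Piecewise `C¹` curves `γ : [0,1] → U` from `x` to `y`. -/
structure IsCurve (U : Set (EI ι)) (x y : EI ι) (γ : ℝ → EI ι) : Prop where
  source : γ 0 = x
  target : γ 1 = y
  cont : ContinuousOn γ (Icc 0 1)
  mem : ∀ t ∈ Icc (0 : ℝ) 1, γ t ∈ U
  c1 : ∃ s : Set ℝ, s.Finite ∧ ∀ t ∈ Ioo (0 : ℝ) 1 \ s, ContDiffAt ℝ 1 γ t

/-- The length of a curve on `[0,1]` for the metric `g`. -/
noncomputable def len (g : EI ι → Matrix ι ι ℝ) (γ : ℝ → EI ι) : ℝ≥0∞ :=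
  ∫⁻ t in Icc (0 : ℝ) 1,
    ENNReal.ofReal (Real.sqrt (∑ i, ∑ j, g (γ t) i j * deriv γ t i * deriv γ t j))

/-- The Riemannian distance of `(U, g)`. -/
noncomputable def rdist (U : Set (EI ι)) (g : EI ι → Matrix ι ι ℝ) (x y : EI ι) : ℝ≥0∞ :=
  ⨅ (γ : ℝ → EI ι) (_ : IsCurve U x y γ), len g γ

/-- `(U, g)` is a complete metric space. -/
def IsCompleteOn (U : Set (EI ι)) (g : EI ι → Matrix ι ι ℝ) : Prop :=
  ∀ u : ℕ → EI ι, (∀ i, u i ∈ U) →
    (∀ ε : ℝ≥0∞, 0 < ε → ∃ N, ∀ i ≥ N, ∀ j ≥ N, rdist U g (u i) (u j) < ε) →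
    ∃ x ∈ U, ∀ ε : ℝ≥0∞, 0 < ε → ∃ N, ∀ i ≥ N, rdist U g (u i) x < ε

/-- There is a continuous map from `U` to a simplicial complex of dimension at most `d` all of
whose fibres have diameter at most `C` for the distance `dist`. -/
def UrysohnWidthLE (U : Set (EI ι)) (dist : EI ι → EI ι → ℝ≥0∞) (d : ℕ) (C : ℝ) : Prop :=
  ∃ (V : Type) (K : PreAbstractSimplicialComplex V) (f : U → Realization K),
    (∀ s ∈ K.faces, s.card ≤ d + 1) ∧ Continuous f ∧
      ∀ x y : U, f x = f y → dist x y ≤ ENNReal.ofReal C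

end General

section Product

variable {α β : Type} [Fintype α] [Fintype β]

/-- First component of a point of `ℝ^α × ℝ^β = ℝ^(α ⊕ β)`. -/
noncomputable def fst (z : EI (α ⊕ β)) : EI α := WithLp.toLp 2 fun i => z (Sum.inl i)

/-- Second component of a point of `ℝ^α × ℝ^β = ℝ^(α ⊕ β)`. -/
noncomputable def snd (z : EI (α ⊕ β)) : EI β := WithLp.toLp 2 fun i => z (Sum.inr i)

/-- The product of two sets. -/
def prod (Ω : Set (EI α)) (F : Set (EI β)) : Set (EI (α ⊕ β)) := {z | fst z ∈ Ω ∧ snd z ∈ F}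

/-- The metric `g(x) ⊕ h(x, y)` on `ℝ^α × ℝ^β`: the slices `{y = const}` all carry the metric `g`,
are orthogonal to the slices `{x = const}`, and these carry the arbitrary metrics `h(x, ·)`. -/
noncomputable def block (g : EI α → Matrix α α ℝ) (h : EI α → EI β → Matrix β β ℝ) (z : EI (α ⊕ β)) :
    Matrix (α ⊕ β) (α ⊕ β) ℝ :=
  Matrix.fromBlocks (g (fst z)) 0 0 (h (fst z) (snd z))

end Product

end Vale.Agent.P210.TP
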