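import Vale.Agent.P210.TP.Props

/-! Stage 2: exact statements of the blocks (bi-Lipschitz base). -/

open scoped ENNReal ContDiff
open MeasureTheory Set

namespace Vale.Agent.P210.TP

/-- `K⁻² |v|² ≤ A(v,v) ≤ K² |v|²` -/
def Pinched {ι : Type} [Fintype ι] (K : ℝ) (A : Matrix ι ι ℝ) : Prop :=
  ∀ v : ι → ℝ, (K ^ 2)⁻¹ * ∑ i, v i ^ 2 ≤ ∑ i, ∑ j, A i j * v i * v j ∧
    ∑ i, ∑ j, A i j * v i * v j ≤ K ^ 2 * ∑ i, v i ^ 2

/-- TARGET 3 -/
def Target3 : Prop :=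
    ∀ m : ℕ, 3 ≤ m → ∀ K : ℝ, 0 < K → ∃ C : ℝ,
      ∀ (n N : ℕ), 3 ≤ n → n + N = m →
      ∀ (Ω : Set (EI (Fin n))) (F : Set (EI (Fin N))) (w : EI (Fin n) → ℝ)
        (k : EI (Fin n) → Matrix (Fin n) (Fin n) ℝ)
        (h : EI (Fin n) → EI (Fin N) → Matrix (Fin N) (Fin N) ℝ),
        IsOpen Ω → IsOpen F → IsRiemMetricOn Ω k → (∀ x ∈ Ω, Pinched K (k x)) →
        (∀ x ∈ Ω, scal k x ≤ 0) →
        IsRiemMetricOn (prod Ω F) (block (fun x => w x • k x) h) →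
        (∃ y ∈ F, ∀ x ∈ Ω, scal (h x) y ≤ 1 / 2) →
        IsCompleteOn (prod Ω F) (block (fun x => w x • k x) h) →
        (∀ z ∈ prod Ω F, 1 ≤ scal (block (fun x => w x • k x) h) z) →
        UrysohnWidthLE (prod Ω F) (rdist (prod Ω F) (block (fun x => w x • k x) h)) (m - 2) C

section

variable {ι : Type} [Fintype ι] [DecidableEq ι]

/-- divergence of the covector field `V` for the metric `k` -/
noncomputable def dv (k : EI ι → Matrix ι ι ℝ) (V : ι → EI ι → ℝ) (x : EI ι) : ℝ :=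
  ∑ i, ∑ j, (k x)⁻¹ i j * (pd j (V i) x - ∑ l, christoffel k l i j x * V l x)

/-- inner product of covectors -/
noncomputable def ip (A : Matrix ι ι ℝ) (p q : ι → ℝ) : ℝ := ∑ i, ∑ j, A⁻¹ i j * p i * q j

end

/-- [CC] (646) conformal change -/
def CC : Prop :=
  ∀ (n : ℕ) (Ω : Set (EI (Fin n))) (f : EI (Fin n) → ℝ)
    (k : EI (Fin n) → Matrix (Fin n) (Fin n) ℝ), IsOpen Ω → ContDiffOn ℝ ∞ f Ω →
    IsRiemMetricOn Ω k → ∀ x ∈ Ω,
      scal (fun x => Real.exp (2 * f x) • k x) x = Real.exp (-(2 * f x)) *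
        (scal k x - 2 * ((n : ℝ) - 1) * dv k (fun i => pd i f) x
          - ((n : ℝ) - 1) * ((n : ℝ) - 2) * ip (k x) (fun i => pd i f x) (fun i => pd i f x))

/-- [CHR] (646) Christoffel symbols of `e^{2f} k` -/
def CHR : Prop :=
  ∀ (n : ℕ) (Ω : Set (EI (Fin n))) (f : EI (Fin n) → ℝ)
    (k : EI (Fin n) → Matrix (Fin n) (Fin n) ℝ), IsOpen Ω → ContDiffOn ℝ ∞ f Ω →
    IsRiemMetricOn Ω k → ∀ x ∈ Ω, ∀ l i j,
      christoffel (fun x => Real.exp (2 * f x) • k x) l i j x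
        = christoffel k l i j x + (if j = l then pd i f x else 0) + (if i = l then pd j f x else 0)
          - k x i j * ∑ m, (k x)⁻¹ l m * pd m f x

/-- [SCG] (586) -/
def SCG : Prop :=
  ∀ (n N : ℕ) (Ω : Set (EI (Fin n))) (F : Set (EI (Fin N))) (f : EI (Fin n) → ℝ)
    (k : EI (Fin n) → Matrix (Fin n) (Fin n) ℝ)
    (h : EI (Fin n) → EI (Fin N) → Matrix (Fin N) (Fin N) ℝ), IsOpen Ω → IsOpen F →
    ContDiffOn ℝ ∞ f Ω → IsRiemMetricOn Ω k →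
    IsRiemMetricOn (prod Ω F) (block (fun x => Real.exp (2 * f x) • k x) h) →
    ∀ z ∈ prod Ω F,
      scal (block (fun x => Real.exp (2 * f x) • k x) h) z ≤ scal (h (fst z)) (snd z)
        + Real.exp (-(2 * f (fst z))) *
          (scal k (fst z) - 2 * ((n : ℝ) - 1) * dv k (fun i => pd i f) (fst z)
            - ((n : ℝ) - 1) * ((n : ℝ) - 2)
              * ip (k (fst z)) (fun i => pd i f (fst z)) (fun i => pd i f (fst z))
            - 2 * dv k (tau h (snd z)) (fst z)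
            - 2 * ((n : ℝ) - 2)
              * ip (k (fst z)) (fun i => pd i f (fst z)) (fun i => tau h (snd z) i (fst z))
            - ip (k (fst z)) (fun i => tau h (snd z) i (fst z))
                (fun i => tau h (snd z) i (fst z)))

/-- [DIV] (586) divergence form -/
def DIV : Prop :=
  ∀ (n : ℕ) (Ω : Set (EI (Fin n))) (k : EI (Fin n) → Matrix (Fin n) (Fin n) ℝ)
    (V : Fin n → EI (Fin n) → ℝ), IsOpen Ω → IsRiemMetricOn Ω k →
    (∀ i, ContDiffOn ℝ ∞ (V i) Ω) → ∀ x ∈ Ω,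
      ∑ j, pd j (fun y => Real.sqrt (k y).det * ∑ i, (k y)⁻¹ i j * V i y) x
        = Real.sqrt (k x).det * dv k V x

/-- [ALG2] (342 or whoever is free first) -/
def ALG2 : Prop :=
  ∀ (n : ℕ) (K : ℝ) (A : Matrix (Fin n) (Fin n) ℝ), 0 < K → A.PosDef → Pinched K A →
    (K ^ n)⁻¹ ≤ Real.sqrt A.det ∧ Real.sqrt A.det ≤ K ^ n ∧
    ∀ p : Fin n → ℝ, ∑ j, (∑ i, A⁻¹ i j * p i) ^ 2 ≤ K ^ 2 * ip A p p

/-- [QUAD] (342 or whoever is free first): `Q` inequality, `a = (n-2)/2`, `d = 1/2`. -/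
def QUAD : Prop :=
  ∀ (n : ℕ), 3 ≤ n → ∀ s : ℝ, 0 < s → (s + 1) ^ 2 < (n : ℝ) - 1 → ∃ δ : ℝ, 0 < δ ∧
    ∀ (A : Matrix (Fin n) (Fin n) ℝ), A.PosDef → ∀ (p u : Fin n → ℝ), ∀ β ∈ Icc (-2 : ℝ) s,
      β * ip A p u - ((n : ℝ) - 2) / 2 * ip A p p
        - 1 / 2 * ip A (fun i => p i - u i) (fun i => p i - u i) ≤ -δ * ip A p p

/-- [BIL] (210) -/
def BIL : Prop :=
  ∀ (n : ℕ) (K : ℝ) (Ω : Set (EI (Fin n))) (f : EI (Fin n) → ℝ)
    (k : EI (Fin n) → Matrix (Fin n) (Fin n) ℝ), 0 < K → (∀ x ∈ Ω, Pinched K (k x)) →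
    (∀ x y, rdist Ω (fun x => Real.exp (2 * f x) • k x) x y
      ≤ ENNReal.ofReal K * rdist Ω (conf f) x y) ∧
    (IsCompleteOn Ω (fun x => Real.exp (2 * f x) • k x) → IsCompleteOn Ω (conf f))

end Vale.Agent.P210.TP
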