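import Vale.Agent.P210.TP.Calc
import Vale.Agent.P210.TP.Props2
import Mathlib.Analysis.Matrix.PosDef

open scoped ENNReal ContDiff
open MeasureTheory Set

namespace Vale.Agent.P210.TP.S

set_option linter.unusedSectionVars false
set_option linter.unusedVariables false

variable {ι : Type} [Fintype ι] [DecidableEq ι]

/-- Jacobi's formula -/
lemma pd_det {U : Set (EI ι)} (hU : IsOpen U) {κ : Type} [Fintype κ] [DecidableEq κ]
    {A : EI ι → Matrix κ κ ℝ} (hA : ∀ i j, ContDiffOn ℝ ∞ (fun x => A x i j) U)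
    {x : EI ι} (hx : x ∈ U) (hp : (A x).PosDef) (m : ι) :
    pd m (fun y => (A y).det) x
      = (A x).det * ∑ a, ∑ b, (A x)⁻¹ a b * pd m (fun y => A y b a) x := by
  have hd : ∀ i j, DifferentiableAt ℝ (fun y => A y i j) x := fun i j => diffAt hU (hA i j) hx
  set D : Matrix κ κ ℝ := Matrix.of fun r i => pd m (fun y => A y r i) x with hD
  have h1 : pd m (fun y => (A y).det) x = ∑ i, ((A x).updateCol i (fun r => D r i)).det := by
    have e1 : ∀ σ : Equiv.Perm κ, HasFDerivAt (fun y => ∏ i, A y (σ i) i)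
        (∑ i, (∏ j ∈ Finset.univ.erase i, A x (σ j) j) • fderiv ℝ (fun y => A y (σ i) i) x) x := by
      intro σ
      exact HasFDerivAt.finsetProd (u := Finset.univ) (g := fun i y => A y (σ i) i)
        fun i _ => (hd (σ i) i).hasFDerivAt
    have e2 : HasFDerivAt (fun y => (A y).det)
        (∑ σ : Equiv.Perm κ, ((Equiv.Perm.sign σ : ℤ) : ℝ) •
          ∑ i, (∏ j ∈ Finset.univ.erase i, A x (σ j) j) • fderiv ℝ (fun y => A y (σ i) i) x) x := by
      simp only [Matrix.det_apply']
      exact HasFDerivAt.fun_sum fun σ _ => (e1 σ).const_mul _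
    unfold pd
    rw [e2.fderiv]
    simp only [Matrix.det_apply', _root_.sum_apply, _root_.smul_apply, smul_eq_mul]
    rw [Finset.sum_comm]
    apply Finset.sum_congr rfl
    intro σ _
    rw [Finset.mul_sum]
    apply Finset.sum_congr rfl
    intro i _
    congr 1
    rw [← Finset.mul_prod_erase Finset.univ _ (Finset.mem_univ i)]
    rw [Matrix.updateCol_self]
    have e3 : ∏ j ∈ Finset.univ.erase i, (A x).updateCol i (fun r => D r i) (σ j) j
        = ∏ j ∈ Finset.univ.erase i, A x (σ j) j := by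
      apply Finset.prod_congr rfl
      intro j hj
      rw [Matrix.updateCol_ne (Finset.ne_of_mem_erase hj)]
    rw [e3, mul_comm]
    rfl
  rw [h1]
  have hdet : (A x).det ≠ 0 := ((Matrix.isUnit_iff_isUnit_det _).mp hp.isUnit).ne_zero
  have h2 : (A x).adjugate = (A x).det • (A x)⁻¹ := by
    rw [Matrix.inv_def, Ring.inverse_eq_inv', smul_smul, mul_inv_cancel₀ hdet, one_smul]
  rw [Finset.mul_sum]
  apply Finset.sum_congr rfl
  intro i _
  rw [← Matrix.cramer_apply, Matrix.cramer_eq_adjugate_mulVec, h2, Matrix.smul_mulVec]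
  simp only [Pi.smul_apply, smul_eq_mul, Matrix.mulVec, dotProduct]
  rfl

lemma det_pos' {κ : Type} [Fintype κ] [DecidableEq κ] {A : Matrix κ κ ℝ} (hp : A.PosDef) :
    0 < A.det := Matrix.PosDef.det_pos hp

lemma pd_sqrt_det {U : Set (EI ι)} (hU : IsOpen U) {κ : Type} [Fintype κ] [DecidableEq κ]
    {A : EI ι → Matrix κ κ ℝ} (hA : ∀ i j, ContDiffOn ℝ ∞ (fun x => A x i j) U)
    {x : EI ι} (hx : x ∈ U) (hp : (A x).PosDef) (m : ι) :
    pd m (fun y => Real.sqrt (A y).det) x
      = Real.sqrt (A x).det * (1 / 2 * ∑ a, ∑ b, (A x)⁻¹ a b * pd m (fun y => A y b a) x) := by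
  have hpos := det_pos' hp
  have h1 : DifferentiableAt ℝ (fun y => (A y).det) x := diffAt hU (contDiffOn_det hA) hx
  have h2 : HasFDerivAt (fun y => Real.sqrt (A y).det)
      ((1 / (2 * Real.sqrt (A x).det)) • fderiv ℝ (fun y => (A y).det) x) x :=
    h1.hasFDerivAt.sqrt hpos.ne'
  have h3 : pd m (fun y => Real.sqrt (A y).det) x
      = 1 / (2 * Real.sqrt (A x).det) * pd m (fun y => (A y).det) x := by
    unfold pd
    rw [h2.fderiv]
    rfl
  rw [h3, pd_det hU hA hx hp]
  have h4 : Real.sqrt (A x).det ≠ 0 := (Real.sqrt_pos.mpr hpos).ne'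
  have h5 : (A x).det = Real.sqrt (A x).det * Real.sqrt (A x).det :=
    (Real.mul_self_sqrt hpos.le).symm
  set s := Real.sqrt (A x).det with hs
  rw [h5]
  field_simp

/-- index juggling -/
lemma juggle (P : Matrix ι ι ℝ) (D : ι → Matrix ι ι ℝ) (hP : P.transpose = P)
    (hD : ∀ m, (D m).transpose = D m) (l : ι) :
    ∑ i, ∑ j, P i j * (1 / 2 * ∑ m, P l m * (D i j m + D j i m - D m i j))
      = ∑ j, (P * D j * P) l j - 1 / 2 * ∑ j, (∑ a, ∑ b, P a b * D j b a) * P l j := by
  have hPs : ∀ a b, P a b = P b a := fun a b => by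
    rw [show P a b = P.transpose b a from rfl, hP]
  have hDs : ∀ m a b, D m a b = D m b a := fun m a b => by
    rw [show D m a b = (D m).transpose b a from rfl, hD]
  have e1 : ∑ i, ∑ j, P i j * (1 / 2 * ∑ m, P l m * (D i j m + D j i m - D m i j))
      = 1 / 2 * (∑ i, ∑ j, ∑ m, P i j * P l m * D i j m)
        + 1 / 2 * (∑ i, ∑ j, ∑ m, P i j * P l m * D j i m)
        - 1 / 2 * (∑ i, ∑ j, ∑ m, P i j * P l m * D m i j) := by
    simp only [Finset.mul_sum]
    simp only [← Finset.sum_add_distrib, ← Finset.sum_sub_distrib]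
    apply Finset.sum_congr rfl; intro i _
    apply Finset.sum_congr rfl; intro j _
    apply Finset.sum_congr rfl; intro m _
    ring
  have e2 : ∑ i, ∑ j, ∑ m, P i j * P l m * D j i m = ∑ i, ∑ j, ∑ m, P i j * P l m * D i j m := by
    rw [Finset.sum_comm]
    apply Finset.sum_congr rfl; intro i _
    apply Finset.sum_congr rfl; intro j _
    apply Finset.sum_congr rfl; intro m _
    rw [hPs j i]
  have e3 : ∑ j, (P * D j * P) l j = ∑ i, ∑ j, ∑ m, P i j * P l m * D i j m := by
    apply Finset.sum_congr rfl; intro i _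
    rw [Matrix.mul_apply]
    apply Finset.sum_congr rfl; intro j _
    rw [Matrix.mul_apply, Finset.sum_mul]
    apply Finset.sum_congr rfl; intro m _
    rw [hPs j i, hDs i m j]
    ring
  have e4 : ∑ j, (∑ a, ∑ b, P a b * D j b a) * P l j
      = ∑ i, ∑ j, ∑ m, P i j * P l m * D m i j := by
    have : ∀ m, (∑ a, ∑ b, P a b * D m b a) * P l m = ∑ i, ∑ j, P i j * P l m * D m i j := by
      intro m
      rw [Finset.sum_mul]
      apply Finset.sum_congr rfl; intro a _
      rw [Finset.sum_mul]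
      apply Finset.sum_congr rfl; intro b _
      rw [hDs m b a]
      ring
    simp only [this]
    rw [Finset.sum_comm]
    apply Finset.sum_congr rfl; intro i _
    rw [Finset.sum_comm]
  rw [e1, e2, e3, e4]
  ring

lemma symm_inv {A : Matrix ι ι ℝ} (hp : A.PosDef) : (A⁻¹).transpose = A⁻¹ := by
  have := hp.isHermitian
  rw [Matrix.transpose_nonsing_inv]
  congr 1

lemma symm_pd {U : Set (EI ι)} (hU : IsOpen U) {κ : Type} [Fintype κ] [DecidableEq κ]
    {A : EI ι → Matrix κ κ ℝ} (hp : ∀ x ∈ U, (A x).PosDef) {x : EI ι} (hx : x ∈ U) (m : ι) :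
    (Matrix.of fun a b => pd m (fun y => A y a b) x).transpose
      = Matrix.of fun a b => pd m (fun y => A y a b) x := by
  ext a b
  simp only [Matrix.transpose_apply, Matrix.of_apply]
  apply pd_congr_on' hU _ _ hx
  intro y hy
  have h2 := (hp y hy).isHermitian.apply a b
  simpa using h2

theorem div_general {U : Set (EI ι)} (hU : IsOpen U) {k : EI ι → Matrix ι ι ℝ}
    (hk : IsRiemMetricOn U k) {V : ι → EI ι → ℝ} (hV : ∀ i, ContDiffOn ℝ ∞ (V i) U)
    {x : EI ι} (hx : x ∈ U) :
    ∑ j, pd j (fun y => Real.sqrt (k y).det * ∑ i, (k y)⁻¹ i j * V i y) x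
        = Real.sqrt (k x).det * dv k V x := by
  set P := (k x)⁻¹ with hP
  set D : ι → Matrix ι ι ℝ := fun m => Matrix.of fun a b => pd m (fun y => k y a b) x with hD
  have hPs : P.transpose = P := symm_inv (hk.posDef x hx)
  have hDs : ∀ m, (D m).transpose = D m := fun m => symm_pd hU hk.posDef hx m
  have hPd : ∀ i j, DifferentiableAt ℝ (fun y => (k y)⁻¹ i j) x := fun i j =>
    diffAt hU (contDiffOn_inv_apply hk.smooth hk.posDef i j) hx
  have hVd : ∀ i, DifferentiableAt ℝ (V i) x := fun i => diffAt hU (hV i) hx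
  have hρd : DifferentiableAt ℝ (fun y => Real.sqrt (k y).det) x :=
    (diffAt hU (contDiffOn_det hk.smooth) hx).sqrt (det_pos' (hk.posDef x hx)).ne'
  set ρ := Real.sqrt (k x).det with hρ
  have e1 : ∀ j, pd j (fun y => Real.sqrt (k y).det * ∑ i, (k y)⁻¹ i j * V i y) x
      = ρ * (1 / 2 * ∑ a, ∑ b, P a b * D j b a) * (∑ i, P i j * V i x)
        + ρ * ∑ i, (-(P * D j * P) i j * V i x + P i j * pd j (V i) x) := by
    intro j
    have e0 : DifferentiableAt ℝ (fun y => ∑ i, (k y)⁻¹ i j * V i y) x :=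
      DifferentiableAt.fun_sum fun i _ => (hPd i j).mul (hVd i)
    rw [pd_mul' j hρd e0, pd_sqrt_det hU hk.smooth hx (hk.posDef x hx)]
    have e2 := pd_sum' (Finset.univ : Finset ι) (f := fun i y => (k y)⁻¹ i j * V i y) (x := x) j
      (fun i _ => (hPd i j).mul (hVd i))
    rw [e2]
    congr 1
    congr 1
    apply Finset.sum_congr rfl
    intro i _
    rw [pd_mul' j (hPd i j) (hVd i), pd_inv hU hk.smooth hk.posDef hx j i j]
  have hchr : ∀ l i j, christoffel k l i j x
      = 1 / 2 * ∑ m, P l m * (D i j m + D j i m - D m i j) := by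
    intro l i j
    rfl
  simp only [e1]
  unfold dv
  rw [← hP]
  -- the zeroth order terms
  have hj : ∀ l, ∑ i, ∑ j, P i j * christoffel k l i j x
      = ∑ j, (P * D j * P) l j - 1 / 2 * ∑ j, (∑ a, ∑ b, P a b * D j b a) * P l j := by
    intro l
    simp only [hchr]
    exact juggle P D hPs hDs l
  have t1 : ∑ i, ∑ j, P i j * (pd j (V i) x - ∑ l, christoffel k l i j x * V l x)
      = (∑ i, ∑ j, P i j * pd j (V i) x)
        - ∑ l, (∑ i, ∑ j, P i j * christoffel k l i j x) * V l x := by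
    have : ∀ l, (∑ i, ∑ j, P i j * christoffel k l i j x) * V l x
        = ∑ i, ∑ j, P i j * (christoffel k l i j x * V l x) := by
      intro l
      rw [Finset.sum_mul]
      apply Finset.sum_congr rfl; intro i _
      rw [Finset.sum_mul]
      apply Finset.sum_congr rfl; intro j _
      ring
    simp only [this]
    rw [Finset.sum_comm (s := Finset.univ) (t := Finset.univ)
      (f := fun l i => ∑ j, P i j * (christoffel k l i j x * V l x))]
    rw [← Finset.sum_sub_distrib]
    apply Finset.sum_congr rfl; intro i _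
    rw [Finset.sum_comm, ← Finset.sum_sub_distrib]
    apply Finset.sum_congr rfl; intro j _
    rw [mul_sub, Finset.mul_sum]
  rw [t1]
  simp only [hj]
  -- left side
  have t2 : ∑ j, (ρ * (1 / 2 * ∑ a, ∑ b, P a b * D j b a) * (∑ i, P i j * V i x)
        + ρ * ∑ i, (-(P * D j * P) i j * V i x + P i j * pd j (V i) x))
      = ρ * (∑ l, (1 / 2 * ∑ j, (∑ a, ∑ b, P a b * D j b a) * P l j) * V l x
        - ∑ l, (∑ j, (P * D j * P) l j) * V l x + ∑ i, ∑ j, P i j * pd j (V i) x) := by
    have u1 : ∑ j, ρ * (1 / 2 * ∑ a, ∑ b, P a b * D j b a) * (∑ i, P i j * V i x)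
        = ρ * ∑ l, (1 / 2 * ∑ j, (∑ a, ∑ b, P a b * D j b a) * P l j) * V l x := by
      rw [Finset.mul_sum]
      have : ∀ l, ρ * ((1 / 2 * ∑ j, (∑ a, ∑ b, P a b * D j b a) * P l j) * V l x)
          = ∑ j, ρ * (1 / 2 * ∑ a, ∑ b, P a b * D j b a) * (P l j * V l x) := by
        intro l
        rw [Finset.mul_sum, Finset.sum_mul, Finset.mul_sum]
        apply Finset.sum_congr rfl; intro j _
        ring
      simp only [this]
      rw [Finset.sum_comm]
      apply Finset.sum_congr rfl; intro j _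
      rw [Finset.mul_sum]
    have u2 : ∑ j, ρ * ∑ i, (-(P * D j * P) i j * V i x + P i j * pd j (V i) x)
        = ρ * (-(∑ l, (∑ j, (P * D j * P) l j) * V l x) + ∑ i, ∑ j, P i j * pd j (V i) x) := by
      rw [← Finset.mul_sum]
      congr 1
      rw [Finset.sum_comm, ← Finset.sum_neg_distrib, ← Finset.sum_add_distrib]
      apply Finset.sum_congr rfl; intro l _
      rw [Finset.sum_add_distrib, Finset.sum_mul, ← Finset.sum_neg_distrib]
      congr 1
      apply Finset.sum_congr rfl; intro j _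
      ring
    rw [Finset.sum_add_distrib, u1, u2]
    ring
  rw [t2]
  simp only [sub_mul, Finset.sum_sub_distrib]
  ring

theorem div' : DIV := by
  intro n Ω k V hΩ hk hV x hx
  exact div_general hΩ hk hV hx

end Vale.Agent.P210.TP.S
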