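import Vale.Agent.P210.TP.SC2
import Mathlib.Analysis.Matrix.Order

open scoped ENNReal ContDiff
open MeasureTheory Set

namespace Vale.Agent.P210.TP.S

set_option linter.unusedSectionVars false
set_option linter.unusedVariables false

variable {n N : ℕ} {f : EI (Fin n) → ℝ}
  {h : EI (Fin n) → EI (Fin N) → Matrix (Fin N) (Fin N) ℝ}
  {Ω : Set (EI (Fin n))} {F : Set (EI (Fin N))}

section gen

variable {g : EI (Fin n) → Matrix (Fin n) (Fin n) ℝ} (hΩ : IsOpen Ω) (hF : IsOpen F)
  (hG : IsRiemMetricOn (prod Ω F) (block g h))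

include hΩ hF hG

lemma taux_eq {z : EI (Fin n ⊕ Fin N)} (hz : z ∈ prod Ω F) (i : Fin n) :
    taux h i z = tau h (snd z) i (fst z) := by
  have hD : ∀ a b, Dh h i z a b = pd i (fun x' => h x' (snd z) b a) (fst z) := by
    intro a b
    rw [show Dh h i z a b = (Dh h i z).transpose b a from rfl, Dh_symm hΩ hF hG hz i]
    unfold Dh
    rw [Matrix.of_apply, pd_inl (v := fun z : EI (Fin n ⊕ Fin N) => h (fst z) (snd z) b a)
      (diffAt (isOpen_prod hΩ hF) (smooth_H hG b a) hz)]
    simp only [fst_mk, snd_mk]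
  unfold taux tau Ac
  simp only [Matrix.of_apply, hD]
  rw [Finset.mul_sum]

lemma pd_taux {z : EI (Fin n ⊕ Fin N)} (hz : z ∈ prod Ω F) (i j : Fin n) :
    pd (Sum.inl j) (taux h i) z = pd j (tau h (snd z) i) (fst z) := by
  rw [pd_inl (diffAt (isOpen_prod hΩ hF) (smooth_taux hΩ hF hG i) hz)]
  apply pd_congr_on' hΩ _ j hz.1
  intro x hx
  have hz' : (mk x (snd z) : EI (Fin n ⊕ Fin N)) ∈ prod Ω F :=
    ⟨by simpa using hx, by simpa using hz.2⟩
  rw [taux_eq hΩ hF hG hz']
  simp only [fst_mk, snd_mk]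

lemma smooth_tau {y : EI (Fin N)} (hy : y ∈ F) (i : Fin n) : ContDiffOn ℝ ∞ (tau h y i) Ω := by
  have h1 := contDiffOn_left (smooth_taux hΩ hF hG i) hy
  refine h1.congr ?_
  intro x hx
  have hz' : (mk x y : EI (Fin n ⊕ Fin N)) ∈ prod Ω F :=
    ⟨by simpa using hx, by simpa using hy⟩
  rw [taux_eq hΩ hF hG hz']
  simp only [fst_mk, snd_mk]

end gen

/-- positivity of the dropped term -/
lemma trace_sq_nonneg {κ : Type} [Fintype κ] [DecidableEq κ] {A D : Matrix κ κ ℝ} (hA : A.PosDef)
    (hD : D.transpose = D) : 0 ≤ ((A⁻¹ * D) * (A⁻¹ * D)).trace := by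
  have hAi : (A⁻¹).PosSemidef := hA.inv.posSemidef
  obtain ⟨B, hB'⟩ : ∃ B : Matrix κ κ ℝ, A⁻¹ = B.transpose * B := by
    open scoped MatrixOrder in
    obtain ⟨B, hB⟩ := CStarAlgebra.nonneg_iff_eq_star_mul_self.mp hAi.nonneg
    exact ⟨B, hB⟩
  have e1 : ((A⁻¹ * D) * (A⁻¹ * D)).trace
      = ((B * D * B.transpose) * (B * D * B.transpose)).trace := by
    rw [hB']
    rw [show B.transpose * B * D * (B.transpose * B * D)
      = B.transpose * (B * D * B.transpose * B * D) by simp only [Matrix.mul_assoc],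
      Matrix.trace_mul_comm]
    simp only [Matrix.mul_assoc]
  have e2 : (B * D * B.transpose).transpose = B * D * B.transpose := by
    rw [Matrix.transpose_mul, Matrix.transpose_mul, Matrix.transpose_transpose, hD,
      Matrix.mul_assoc]
  rw [e1]
  set M := B * D * B.transpose with hM
  have e3 : (M * M).trace = ∑ a, ∑ b, M a b ^ 2 := by
    rw [← sum_mul_trace]
    apply Finset.sum_congr rfl
    intro a _
    apply Finset.sum_congr rfl
    intro b _
    rw [show M b a = M.transpose a b from rfl, e2]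
    ring
  rw [e3]
  exact Finset.sum_nonneg fun a _ => Finset.sum_nonneg fun b _ => sq_nonneg _

lemma conf_inv_apply' (x : EI (Fin n)) (i j : Fin n) :
    (conf f x)⁻¹ i j = if i = j then Real.exp (-(2 * f x)) else 0 := conf_inv_apply f x i j

lemma christoffel_conf' {x : EI (Fin n)} (hf : DifferentiableAt ℝ f x) (k i j : Fin n) :
    christoffel (conf f) k i j x
      = (if j = k then pd i f x else 0) + (if i = k then pd j f x else 0)
        - (if i = j then pd k f x else 0) := christoffel_conf hf k i j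

lemma scal_conf' (hΩ : IsOpen Ω) (hf : ContDiffOn ℝ ∞ f Ω) (x : EI (Fin n)) (hx : x ∈ Ω) :
    scal (conf f) x = -Real.exp (-(2 * f x)) *
      (2 * ((n : ℝ) - 1) * ∑ i, pd i (pd i f) x
        + ((n : ℝ) - 1) * ((n : ℝ) - 2) * ∑ i, (pd i f x) ^ 2) := scal_conf hΩ hf x hx

theorem sc : SC := by
  intro n N Ω F f h hΩ hF hf hG z hz
  have hU := isOpen_prod hΩ hF
  have hfx : DifferentiableAt ℝ f (fst z) := diffAt hΩ hf hz.1
  rw [scal_block hΩ hF hG hz, scal_conf' hΩ hf _ hz.1]
  simp only [conf_inv_apply', christoffel_conf' hfx, ite_mul, zero_mul, Finset.sum_ite_eq,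
    Finset.mem_univ, if_true]
  set ex := Real.exp (-(2 * f (fst z))) with hex
  -- S
  have hS : ∀ k, ∀ w ∈ prod Ω F, Sx (conf f) h k w
      = -(Real.exp (-(2 * f (fst w))) * taux h k w) := by
    intro k w hw
    rw [Sx_eq]
    simp only [conf_inv_apply', ite_mul, zero_mul, Finset.sum_ite_eq, Finset.mem_univ, if_true]
  have hE : DifferentiableAt ℝ (fun w : EI (Fin n ⊕ Fin N) => Real.exp (-(2 * f (fst w)))) z := by
    have : DifferentiableAt ℝ (fun x : EI (Fin n) => Real.exp (-(2 * f x))) (fst z) :=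
      ((hfx.const_mul 2).neg).exp
    exact this.comp z (fstL : EI (Fin n ⊕ Fin N) →L[ℝ] EI (Fin n)).differentiableAt
  have hpE : ∀ k, pd (Sum.inl k) (fun w : EI (Fin n ⊕ Fin N) => Real.exp (-(2 * f (fst w)))) z
      = -2 * pd k f (fst z) * ex := by
    intro k
    rw [pd_inl_fst (u := fun x : EI (Fin n) => Real.exp (-(2 * f x))) z
      ((hfx.const_mul 2).neg).exp k]
    have h1 : HasFDerivAt (fun x : EI (Fin n) => Real.exp (-(2 * f x)))
        (Real.exp (-(2 * f (fst z))) • (-((2 : ℝ) • fderiv ℝ f (fst z)))) (fst z) :=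
      ((hfx.hasFDerivAt.const_mul 2).neg).exp
    unfold pd
    rw [h1.fderiv]
    simp [hex]
    ring
  have hT : ∀ k, DifferentiableAt ℝ (taux h k) z := fun k =>
    diffAt hU (smooth_taux hΩ hF hG k) hz
  have hpS : ∀ k, pd (Sum.inl k) (Sx (conf f) h k) z
      = ex * (2 * pd k f (fst z) * tau h (snd z) k (fst z) - pd k (tau h (snd z) k) (fst z)) := by
    intro k
    rw [pd_congr_on' hU (hS k) _ hz]
    have e1 : (fun w : EI (Fin n ⊕ Fin N) => -(Real.exp (-(2 * f (fst w))) * taux h k w))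
        = fun w => (-1) * (Real.exp (-(2 * f (fst w))) * taux h k w) := by
      funext w; ring
    have e2 := pd_const_mul' (f := fun w : EI (Fin n ⊕ Fin N) =>
      Real.exp (-(2 * f (fst w))) * taux h k w) (x := z) (Sum.inl k) (-1) (hE.mul (hT k))
    rw [e1, e2, pd_mul' _ hE (hT k), hpE, pd_taux hΩ hF hG hz, taux_eq hΩ hF hG hz]
    ring
  simp only [hpS, hS _ z hz, pd_taux hΩ hF hG hz, taux_eq hΩ hF hG hz]
  rw [← hex]
  set τ : Fin n → ℝ := fun i => tau h (snd z) i (fst z) with hτ
  set u : Fin n → ℝ := fun i => pd i f (fst z) with hu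
  set d : Fin n → ℝ := fun i => pd i (tau h (snd z) i) (fst z) with hd
  -- trace term
  have htr : 0 ≤ ∑ i, ex * (Ac h i z * Ac h i z).trace := by
    apply Finset.sum_nonneg
    intro i _
    apply mul_nonneg (Real.exp_pos _).le
    rw [Ac_eq hΩ hF hG hz, Matrix.smul_mul, Matrix.mul_smul, smul_smul, Matrix.trace_smul,
      smul_eq_mul]
    exact mul_nonneg (by norm_num)
      (trace_sq_nonneg (posDef_h (hG.posDef z hz)) (Dh_symm hΩ hF hG hz i))
  -- sums with the Christoffel symbols
  have g1 : ∀ i : Fin n, ∑ l, tau h (snd z) l (fst z) *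
      ((if i = l then pd i f (fst z) else 0) + (if i = l then pd i f (fst z) else 0)
        - pd l f (fst z)) = 2 * (τ i * u i) - ∑ l, τ l * u l := by
    intro i
    have : ∀ l, tau h (snd z) l (fst z) *
      ((if i = l then pd i f (fst z) else 0) + (if i = l then pd i f (fst z) else 0)
        - pd l f (fst z)) = (if i = l then 2 * (τ i * u i) else 0) - τ l * u l := by
      intro l
      by_cases hil : i = l
      · subst hil; simp [hτ, hu]; ring
      · simp [hil, hτ, hu]
    simp only [this, Finset.sum_sub_distrib, Finset.sum_ite_eq, Finset.mem_univ, if_true]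
  have g2 : ∀ k : Fin n, ∑ l, ((if l = k then pd k f (fst z) else 0) + pd l f (fst z)
        - (if k = l then pd k f (fst z) else 0)) * -(ex * tau h (snd z) l (fst z))
        = -ex * ∑ l, τ l * u l := by
    intro k
    rw [Finset.mul_sum]
    apply Finset.sum_congr rfl
    intro l _
    by_cases hkl : k = l
    · subst hkl; simp [hτ, hu]; ring
    · have hlk : ¬ l = k := fun h => hkl h.symm
      simp [hkl, hlk, hτ, hu]; ring
  simp only [g1, g2]
  have g3 : ∑ i, ex * (pd i (tau h (snd z) i) (fst z) - (2 * (τ i * u i) - ∑ l, τ l * u l))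
      = ex * (∑ i, d i - 2 * ∑ i, τ i * u i + n * ∑ i, τ i * u i) := by
    rw [← Finset.mul_sum, Finset.sum_sub_distrib, Finset.sum_sub_distrib, ← Finset.mul_sum]
    rw [Finset.sum_const, Finset.card_univ, Fintype.card_fin, nsmul_eq_mul]
    ring
  have g4 : ∑ k, (ex * (2 * pd k f (fst z) * tau h (snd z) k (fst z)
      - pd k (tau h (snd z) k) (fst z)) + -ex * ∑ l, τ l * u l)
      = ex * (2 * ∑ i, τ i * u i - ∑ i, d i - n * ∑ i, τ i * u i) := by
    rw [Finset.sum_add_distrib, ← Finset.mul_sum, Finset.sum_sub_distrib]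
    have : ∑ k, 2 * pd k f (fst z) * tau h (snd z) k (fst z) = 2 * ∑ i, τ i * u i := by
      rw [Finset.mul_sum]
      apply Finset.sum_congr rfl
      intro k _
      simp only [hτ, hu]
      ring
    rw [this, Finset.sum_const, Finset.card_univ, Fintype.card_fin, nsmul_eq_mul]
    ring
  have g5 : ∑ l, tau h (snd z) l (fst z) * -(ex * tau h (snd z) l (fst z))
      = -ex * ∑ i, τ i ^ 2 := by
    rw [Finset.mul_sum]
    apply Finset.sum_congr rfl
    intro l _
    simp only [hτ]
    ring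
  have g6 : ∑ i, pd i f (fst z) * tau h (snd z) i (fst z) = ∑ i, τ i * u i := by
    apply Finset.sum_congr rfl
    intro l _
    simp only [hτ, hu]
    ring
  rw [g3, g4, g5, g6]
  have g7 : ∑ i, pd i (tau h (snd z) i) (fst z) = ∑ i, d i := rfl
  have g8 : ∑ i, (tau h (snd z) i (fst z)) ^ 2 = ∑ i, τ i ^ 2 := rfl
  rw [g7, g8]
  nlinarith [htr]

theorem sc_smooth : SCsmooth := by
  intro n N Ω F f h hΩ hF hG y hy i
  exact smooth_tau hΩ hF hG hy i

end Vale.Agent.P210.TP.S
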