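import Vale.Agent.P210.TP.Asm210
import Vale.Agent.P210.TP.SC3
import Vale.Agent.P210.TP.Prod1_646
import Vale.Agent.P210.TP.Prod2_646

/-! P210: the twisted product theorem. -/

namespace Vale.Agent.P210.TP

theorem target2_final : Target2 := target2 S.sc S.sc_smooth prod1 prod2

end Vale.Agent.P210.TP
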