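import Vale.Agent.P210.TP.SC3
import Vale.Agent.P210.TP.Div

open scoped ENNReal ContDiff
open MeasureTheory Set

namespace Vale.Agent.P210.TP.S

set_option linter.unusedSectionVars false
set_option linter.unusedVariables false

section

variable {ι : Type} [Fintype ι] [DecidableEq ι]

/-- `Γ^k_{kj} = ½ tr (g⁻¹ ∂_j g)` -/
lemma trace_christoffel {U : Set (EI ι)} (hU : IsOpen U) {k : EI ι → Matrix ι ι ℝ}
    (hk : IsRiemMetricOn U k) {x : EI ι} (hx : x ∈ U) (j : ι) :
    ∑ a, christoffel k a a j x = 1 / 2 * ∑ a, ∑ b, (k x)⁻¹ a b * pd j (fun y => k y b a) x := by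
  set P := (k x)⁻¹ with hP
  set D : ι → Matrix ι ι ℝ := fun m => Matrix.of fun a b => pd m (fun y => k y a b) x with hD
  have hPs : ∀ a b, P a b = P b a := fun a b => by
    rw [show P a b = P.transpose b a from rfl, symm_inv (hk.posDef x hx)]
  have hDs : ∀ m a b, D m a b = D m b a := fun m a b => by
    have := symm_pd hU hk.posDef hx m
    rw [show D m a b = (D m).transpose b a from rfl]
    rw [show (D m).transpose = D m from this]
  have hchr : ∀ l i j, christoffel k l i j x
      = 1 / 2 * ∑ m, P l m * (D i j m + D j i m - D m i j) := fun l i j => rfl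
  simp only [hchr]
  rw [← Finset.mul_sum]
  congr 1
  have e1 : ∀ a, ∑ m, P a m * (D a j m + D j a m - D m a j)
      = (∑ m, P a m * D a j m) + (∑ m, P a m * D j a m) - ∑ m, P a m * D m a j := by
    intro a
    rw [← Finset.sum_add_distrib, ← Finset.sum_sub_distrib]
    apply Finset.sum_congr rfl; intro m _
    ring
  simp only [e1, Finset.sum_add_distrib, Finset.sum_sub_distrib]
  have e2 : ∑ a, ∑ m, P a m * D m a j = ∑ a, ∑ m, P a m * D a j m := by
    rw [Finset.sum_comm]
    apply Finset.sum_congr rfl; intro a _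
    apply Finset.sum_congr rfl; intro m _
    rw [hPs m a, hDs a m j]
  have e3 : ∑ a, ∑ m, P a m * D j a m = ∑ a, ∑ b, P a b * pd j (fun y => k y b a) x := by
    apply Finset.sum_congr rfl; intro a _
    apply Finset.sum_congr rfl; intro m _
    rw [hDs j a m]
    rfl
  rw [e2, e3]
  ring

/-- the divergence in terms of the contravariant components -/
lemma div_contra {U : Set (EI ι)} (hU : IsOpen U) {k : EI ι → Matrix ι ι ℝ}
    (hk : IsRiemMetricOn U k) {V : ι → EI ι → ℝ} (hV : ∀ i, ContDiffOn ℝ ∞ (V i) U)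
    {x : EI ι} (hx : x ∈ U) :
    ∑ j, (pd j (fun y => ∑ i, (k y)⁻¹ i j * V i y) x
      + ∑ l, christoffel k j j l x * ∑ i, (k x)⁻¹ i l * V i x) = dv k V x := by
  have h1 := div_general hU hk hV hx
  have hρ : 0 < Real.sqrt (k x).det := Real.sqrt_pos.mpr (det_pos' (hk.posDef x hx))
  have hPd : ∀ i j, DifferentiableAt ℝ (fun y => (k y)⁻¹ i j) x := fun i j =>
    diffAt hU (contDiffOn_inv_apply hk.smooth hk.posDef i j) hx
  have hVd : ∀ i, DifferentiableAt ℝ (V i) x := fun i => diffAt hU (hV i) hx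
  have hρd : DifferentiableAt ℝ (fun y => Real.sqrt (k y).det) x :=
    (diffAt hU (contDiffOn_det hk.smooth) hx).sqrt (det_pos' (hk.posDef x hx)).ne'
  have e1 : ∀ j, pd j (fun y => Real.sqrt (k y).det * ∑ i, (k y)⁻¹ i j * V i y) x
      = Real.sqrt (k x).det * (∑ a, christoffel k a a j x) * (∑ i, (k x)⁻¹ i j * V i x)
        + Real.sqrt (k x).det * pd j (fun y => ∑ i, (k y)⁻¹ i j * V i y) x := by
    intro j
    have e0 : DifferentiableAt ℝ (fun y => ∑ i, (k y)⁻¹ i j * V i y) x :=
      DifferentiableAt.fun_sum fun i _ => (hPd i j).mul (hVd i)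
    rw [pd_mul' j hρd e0, pd_sqrt_det hU hk.smooth hx (hk.posDef x hx),
      trace_christoffel hU hk hx j]
  simp only [e1] at h1
  have h2 : Real.sqrt (k x).det * ∑ j, (pd j (fun y => ∑ i, (k y)⁻¹ i j * V i y) x
      + ∑ l, christoffel k j j l x * ∑ i, (k x)⁻¹ i l * V i x)
      = Real.sqrt (k x).det * dv k V x := by
    rw [← h1, Finset.sum_add_distrib, Finset.sum_add_distrib, mul_add, Finset.mul_sum,
      Finset.sum_comm (s := Finset.univ) (t := Finset.univ)
        (f := fun j l => christoffel k j j l x * ∑ i, (k x)⁻¹ i l * V i x), add_comm]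
    congr 1
    rw [Finset.mul_sum]
    apply Finset.sum_congr rfl; intro j _
    rw [← Finset.sum_mul]
    ring
  exact mul_left_cancel₀ hρ.ne' h2

end

variable {n N : ℕ} {g : EI (Fin n) → Matrix (Fin n) (Fin n) ℝ}
  {h : EI (Fin n) → EI (Fin N) → Matrix (Fin N) (Fin N) ℝ}
  {Ω : Set (EI (Fin n))} {F : Set (EI (Fin N))}

/-- positivity of the dropped term for a general base -/
lemma trace_gen_nonneg {m : ℕ} {P : Matrix (Fin n) (Fin n) ℝ} (hP : P.PosSemidef)
    {A : Matrix (Fin m) (Fin m) ℝ} (hA : A.PosDef) {D : Fin n → Matrix (Fin m) (Fin m) ℝ}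
    (hD : ∀ i, (D i).transpose = D i) :
    0 ≤ ∑ i, ∑ j, P i j * ((A⁻¹ * D j) * (A⁻¹ * D i)).trace := by
  obtain ⟨B, hB'⟩ : ∃ B : Matrix (Fin n) (Fin n) ℝ, P = B.transpose * B := by
    open scoped MatrixOrder in
    obtain ⟨B, hB⟩ := CStarAlgebra.nonneg_iff_eq_star_mul_self.mp hP.nonneg
    exact ⟨B, hB⟩
  have e1 : ∀ c, ((A⁻¹ * (∑ i, B c i • D i)) * (A⁻¹ * (∑ i, B c i • D i))).trace
      = ∑ i, ∑ j, B c i * B c j * ((A⁻¹ * D j) * (A⁻¹ * D i)).trace := by
    intro c
    rw [Matrix.mul_sum, Matrix.sum_mul, Matrix.trace_sum, Finset.sum_comm]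
    apply Finset.sum_congr rfl; intro j _
    rw [Matrix.mul_sum, Matrix.trace_sum]
    apply Finset.sum_congr rfl; intro i _
    simp only [Matrix.mul_smul, Matrix.smul_mul, Matrix.trace_smul, smul_eq_mul]
    ring
  have e2 : ∑ i, ∑ j, P i j * ((A⁻¹ * D j) * (A⁻¹ * D i)).trace
      = ∑ c, ((A⁻¹ * (∑ i, B c i • D i)) * (A⁻¹ * (∑ i, B c i • D i))).trace := by
    simp only [e1]
    have e3 : ∑ c, ∑ i, ∑ j, B c i * B c j * ((A⁻¹ * D j) * (A⁻¹ * D i)).trace
        = ∑ i, ∑ j, ∑ c, B c i * B c j * ((A⁻¹ * D j) * (A⁻¹ * D i)).trace := by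
      rw [Finset.sum_comm]
      apply Finset.sum_congr rfl; intro i _
      rw [Finset.sum_comm]
    rw [e3]
    apply Finset.sum_congr rfl; intro i _
    apply Finset.sum_congr rfl; intro j _
    rw [hB', Matrix.mul_apply, Finset.sum_mul]
    apply Finset.sum_congr rfl; intro c _
    rw [Matrix.transpose_apply]
  rw [e2]
  apply Finset.sum_nonneg
  intro c _
  apply trace_sq_nonneg hA
  rw [Matrix.transpose_sum]
  apply Finset.sum_congr rfl; intro i _
  rw [Matrix.transpose_smul, hD]

theorem scal_block_le (hΩ : IsOpen Ω) (hF : IsOpen F)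
    (hG : IsRiemMetricOn (prod Ω F) (block g h)) {z : EI (Fin n ⊕ Fin N)} (hz : z ∈ prod Ω F) :
    scal (block g h) z ≤ scal g (fst z) + scal (h (fst z)) (snd z)
      - 2 * dv g (tau h (snd z)) (fst z)
      - ip (g (fst z)) (fun i => tau h (snd z) i (fst z)) (fun i => tau h (snd z) i (fst z)) := by
  have hU := isOpen_prod hΩ hF
  have hg : IsRiemMetricOn Ω g := metric_g hG hz.2
  rw [scal_block hΩ hF hG hz]
  -- A1
  have a1 : ∑ i, ∑ j, (g (fst z))⁻¹ i j *
          (pd (Sum.inl j) (taux h i) z - ∑ l, taux h l z * christoffel g l i j (fst z))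
      = dv g (tau h (snd z)) (fst z) := by
    unfold dv
    simp only [pd_taux hΩ hF hG hz, taux_eq hΩ hF hG hz]
    apply Finset.sum_congr rfl; intro i _
    apply Finset.sum_congr rfl; intro j _
    congr 2
    apply Finset.sum_congr rfl; intro l _
    ring
  -- A2
  have a2 : 0 ≤ ∑ i, ∑ j, (g (fst z))⁻¹ i j * (Ac h j z * Ac h i z).trace := by
    have h1 := trace_gen_nonneg (hg.posDef _ hz.1).inv.posSemidef (posDef_h (hG.posDef z hz))
      (D := fun i => Dh h i z) (fun i => Dh_symm hΩ hF hG hz i)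
    have h2 : ∑ i, ∑ j, (g (fst z))⁻¹ i j * (Ac h j z * Ac h i z).trace
        = (1 / 4) * ∑ i, ∑ j, (g (fst z))⁻¹ i j *
          (((h (fst z) (snd z))⁻¹ * Dh h j z) * ((h (fst z) (snd z))⁻¹ * Dh h i z)).trace := by
      rw [Finset.mul_sum]
      apply Finset.sum_congr rfl; intro i _
      rw [Finset.mul_sum]
      apply Finset.sum_congr rfl; intro j _
      rw [Ac_eq hΩ hF hG hz, Ac_eq hΩ hF hG hz, Matrix.smul_mul, Matrix.mul_smul, smul_smul,
        Matrix.trace_smul, smul_eq_mul]
      ring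
    rw [h2]
    exact mul_nonneg (by norm_num) h1
  -- A3
  have hSfun : ∀ k, ∀ w ∈ prod Ω F, Sx g h k w
      = (fun x => -∑ i, (g x)⁻¹ i k * tau h (snd w) i x) (fst w) := by
    intro k w hw
    rw [Sx_eq]
    simp only [taux_eq hΩ hF hG hw]
    congr 1
    apply Finset.sum_congr rfl; intro i _
    have hs := symm_inv (hg.posDef _ hw.1)
    rw [show (g (fst w))⁻¹ k i = ((g (fst w))⁻¹).transpose i k from rfl, hs]
  have hS : ∀ k, Sx g h k z = -∑ i, (g (fst z))⁻¹ i k * tau h (snd z) i (fst z) := fun k =>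
    hSfun k z hz
  have hpS : ∀ k, pd (Sum.inl k) (Sx g h k) z
      = -pd k (fun x => ∑ i, (g x)⁻¹ i k * tau h (snd z) i x) (fst z) := by
    intro k
    rw [pd_inl (diffAt hU (smooth_Sx hΩ hF hG hz.2 k) hz)]
    have e1 : pd k (fun x => Sx g h k (mk x (snd z))) (fst z)
        = pd k (fun x => -∑ i, (g x)⁻¹ i k * tau h (snd z) i x) (fst z) := by
      apply pd_congr_on' hΩ _ k hz.1
      intro x hx
      have hz' : (mk x (snd z) : EI (Fin n ⊕ Fin N)) ∈ prod Ω F :=
        ⟨by simpa using hx, by simpa using hz.2⟩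
      rw [hSfun k _ hz']
      simp only [fst_mk, snd_mk]
    rw [e1]
    unfold pd
    rw [fderiv_fun_neg]
    rfl
  have hτs : ∀ i, ContDiffOn ℝ ∞ (tau h (snd z) i) Ω := fun i => smooth_tau hΩ hF hG hz.2 i
  have a3 : ∑ k, (pd (Sum.inl k) (Sx g h k) z + ∑ l, christoffel g k k l (fst z) * Sx g h l z)
      = -dv g (tau h (snd z)) (fst z) := by
    rw [← div_contra hΩ hg hτs hz.1, ← Finset.sum_neg_distrib]
    apply Finset.sum_congr rfl; intro k _
    rw [hpS k, neg_add]
    congr 1
    rw [← Finset.sum_neg_distrib]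
    apply Finset.sum_congr rfl; intro l _
    rw [hS l]
    ring
  -- A4
  have a4 : ∑ l, taux h l z * Sx g h l z
      = -ip (g (fst z)) (fun i => tau h (snd z) i (fst z)) (fun i => tau h (snd z) i (fst z)) := by
    unfold ip
    rw [Finset.sum_comm, ← Finset.sum_neg_distrib]
    apply Finset.sum_congr rfl; intro l _
    rw [hS l, taux_eq hΩ hF hG hz, mul_neg, Finset.mul_sum]
    congr 1
    apply Finset.sum_congr rfl; intro i _
    ring
  rw [a1, a3, a4]
  linarith

/-- conformal change of the divergence -/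
lemma dv_conf (hCHR : CHR) (hΩ : IsOpen Ω) {f : EI (Fin n) → ℝ} (hf : ContDiffOn ℝ ∞ f Ω)
    {k : EI (Fin n) → Matrix (Fin n) (Fin n) ℝ} (hk : IsRiemMetricOn Ω k)
    (V : Fin n → EI (Fin n) → ℝ) {x : EI (Fin n)} (hx : x ∈ Ω) :
    dv (fun x => Real.exp (2 * f x) • k x) V x
      = Real.exp (-(2 * f x)) * (dv k V x
        + ((n : ℝ) - 2) * ip (k x) (fun i => pd i f x) (fun i => V i x)) := by
  have hinv : (Real.exp (2 * f x) • k x)⁻¹ = Real.exp (-(2 * f x)) • (k x)⁻¹ := by
    apply Matrix.inv_eq_right_inv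
    rw [smul_mul_smul_comm, mul_inv_of_posDef (hk.posDef x hx), ← Real.exp_add]
    simp
  set P := (k x)⁻¹ with hP
  have hPs : ∀ a b, P a b = P b a := fun a b => by
    rw [show P a b = P.transpose b a from rfl, symm_inv (hk.posDef x hx)]
  unfold dv
  simp only [hinv, hCHR n Ω f k hΩ hf hk x hx, Matrix.smul_apply, smul_eq_mul]
  simp only [← hP]
  set e := Real.exp (-(2 * f x)) with he
  -- expand the Christoffel sum
  have h1 : ∀ i j, ∑ l, (christoffel k l i j x + (if j = l then pd i f x else 0)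
      + (if i = l then pd j f x else 0) - k x i j * ∑ m, P l m * pd m f x) * V l x
      = (∑ l, christoffel k l i j x * V l x) + pd i f x * V j x + pd j f x * V i x
        - k x i j * ip (k x) (fun i => pd i f x) (fun i => V i x) := by
    intro i j
    have e1 : ∀ l, (christoffel k l i j x + (if j = l then pd i f x else 0)
      + (if i = l then pd j f x else 0) - k x i j * ∑ m, P l m * pd m f x) * V l x
      = christoffel k l i j x * V l x + (if j = l then pd i f x * V j x else 0)
        + (if i = l then pd j f x * V i x else 0)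
        - k x i j * ∑ m, P m l * pd m f x * V l x := by
      intro l
      have e2 : ∑ m, P m l * pd m f x * V l x = (∑ m, P l m * pd m f x) * V l x := by
        rw [Finset.sum_mul]
        apply Finset.sum_congr rfl; intro m _
        rw [hPs m l]
      rw [e2]
      by_cases hj : j = l
      · subst hj
        by_cases hi : i = j
        · subst hi; simp; ring
        · simp [hi]; ring
      · by_cases hi : i = l
        · subst hi; simp [hj]; ring
        · simp [hj, hi]; ring
    simp only [e1, Finset.sum_add_distrib, Finset.sum_sub_distrib, Finset.sum_ite_eq,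
      Finset.mem_univ, if_true]
    congr 1
    rw [← Finset.mul_sum]
    congr 1
    unfold ip
    rw [Finset.sum_comm]
  simp only [h1]
  -- contraction `k^{ij} k_{ij} = n`
  have h2 : ∑ i, ∑ j, P i j * k x i j = n := by
    have e1 : ∑ i, ∑ j, P i j * k x i j = (P * k x).trace := by
      rw [← sum_mul_trace]
      apply Finset.sum_congr rfl; intro i _
      apply Finset.sum_congr rfl; intro j _
      have := (hk.posDef x hx).isHermitian.apply i j
      rw [show k x j i = k x i j by simpa using this]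
    rw [e1, hP, inv_mul_of_posDef (hk.posDef x hx), Matrix.trace_one]
    simp
  set I := ip (k x) (fun i => pd i f x) (fun i => V i x) with hI
  have h3 : ∑ i, ∑ j, P i j * (pd i f x * V j x) = I := by
    rw [hI]
    unfold ip
    apply Finset.sum_congr rfl; intro i _
    apply Finset.sum_congr rfl; intro j _
    ring
  have h4 : ∑ i, ∑ j, P i j * (pd j f x * V i x) = I := by
    rw [← h3, Finset.sum_comm]
    apply Finset.sum_congr rfl; intro i _
    apply Finset.sum_congr rfl; intro j _
    rw [hPs j i]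
  have h5 : ∑ i, ∑ j, P i j * (k x i j * I) = n * I := by
    rw [← h2, Finset.sum_mul]
    apply Finset.sum_congr rfl; intro i _
    rw [Finset.sum_mul]
    apply Finset.sum_congr rfl; intro j _
    ring
  have h6 : ∑ i, ∑ j, e * P i j * (pd j (V i) x - ((∑ l, christoffel k l i j x * V l x)
      + pd i f x * V j x + pd j f x * V i x - k x i j * I))
      = e * ((∑ i, ∑ j, P i j * (pd j (V i) x - ∑ l, christoffel k l i j x * V l x))
        - (∑ i, ∑ j, P i j * (pd i f x * V j x)) - (∑ i, ∑ j, P i j * (pd j f x * V i x))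
        + ∑ i, ∑ j, P i j * (k x i j * I)) := by
    rw [← Finset.sum_sub_distrib, ← Finset.sum_sub_distrib, ← Finset.sum_add_distrib,
      Finset.mul_sum]
    apply Finset.sum_congr rfl; intro i _
    rw [← Finset.sum_sub_distrib, ← Finset.sum_sub_distrib, ← Finset.sum_add_distrib,
      Finset.mul_sum]
    apply Finset.sum_congr rfl; intro j _
    ring
  rw [h6, h3, h4, h5]
  ring

theorem scg (hCC : CC) (hCHR : CHR) : SCG := by
  intro n N Ω F f k h hΩ hF hf hk hG z hz
  have h1 := scal_block_le hΩ hF hG hz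
  rw [hCC n Ω f k hΩ hf hk _ hz.1, dv_conf hCHR hΩ hf hk _ hz.1] at h1
  have hinv : (Real.exp (2 * f (fst z)) • k (fst z))⁻¹
      = Real.exp (-(2 * f (fst z))) • (k (fst z))⁻¹ := by
    apply Matrix.inv_eq_right_inv
    rw [smul_mul_smul_comm, mul_inv_of_posDef (hk.posDef _ hz.1), ← Real.exp_add]
    simp
  have h2 : ip (Real.exp (2 * f (fst z)) • k (fst z)) (fun i => tau h (snd z) i (fst z))
      (fun i => tau h (snd z) i (fst z))
      = Real.exp (-(2 * f (fst z))) * ip (k (fst z)) (fun i => tau h (snd z) i (fst z))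
      (fun i => tau h (snd z) i (fst z)) := by
    unfold ip
    rw [hinv, Finset.mul_sum]
    apply Finset.sum_congr rfl; intro i _
    rw [Finset.mul_sum]
    apply Finset.sum_congr rfl; intro j _
    simp only [Matrix.smul_apply, smul_eq_mul]
    ring
  rw [h2] at h1
  refine h1.trans (le_of_eq ?_)
  ring

end Vale.Agent.P210.TP.S
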