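import Vale.Agent.P210.TP.Asm2_210
import Vale.Agent.P210.TP.SC3
import Vale.Agent.P210.TP.CC646
import Vale.Agent.P210.TP.SCG
import Vale.Agent.P210.TP.Div

/-! P210, stage 2: quasiconformally flat bases. -/

namespace Vale.Agent.P210.TP

theorem targetQ_final : TargetQ :=
  targetQ (S.scg cc chr) (fun n N Ω F g h hΩ hF hG y hy i => S.smooth_tau hΩ hF hG hy i)
    S.sc_smooth S.div' prod1 prod2

end Vale.Agent.P210.TP
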