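import Vale.Agent.P210.TP.Props

set_option linter.all false

/-! P210, blocks LEAF1 and LEAF2: the slices of a block metric and the projection to the base. -/

open scoped ENNReal ContDiff
open MeasureTheory Set

namespace Vale.Agent.P210.TP

section

variable {α β : Type} [Fintype α] [Fintype β] [DecidableEq α] [DecidableEq β]

/-- the pair map -/
noncomputable def mk (x : EI α) (y : EI β) : EI (α ⊕ β) :=
  WithLp.toLp 2 (Sum.elim (fun i => x i) (fun i => y i))

omit [DecidableEq α] [DecidableEq β] in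
@[simp] lemma mk_inl (x : EI α) (y : EI β) (i : α) : mk x y (Sum.inl i) = x i := rfl

omit [DecidableEq α] [DecidableEq β] in
@[simp] lemma mk_inr (x : EI α) (y : EI β) (i : β) : mk x y (Sum.inr i) = y i := rfl

omit [DecidableEq α] [DecidableEq β] in
@[simp] lemma fst_apply (z : EI (α ⊕ β)) (i : α) : fst z i = z (Sum.inl i) := rfl

omit [DecidableEq α] [DecidableEq β] in
@[simp] lemma snd_apply (z : EI (α ⊕ β)) (i : β) : snd z i = z (Sum.inr i) := rfl

omit [DecidableEq α] [DecidableEq β] in
@[simp] lemma fst_mk (x : EI α) (y : EI β) : fst (mk x y) = x := by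
  ext i; rfl

omit [DecidableEq α] [DecidableEq β] in
@[simp] lemma snd_mk (x : EI α) (y : EI β) : snd (mk x y) = y := by
  ext i; rfl

omit [DecidableEq α] [DecidableEq β] in
@[simp] lemma mk_fst_snd (z : EI (α ⊕ β)) : mk (fst z) (snd z) = z := by
  ext i
  rcases i with i | i <;> rfl

/-- first projection as a continuous linear map -/
noncomputable def fstL : EI (α ⊕ β) →L[ℝ] EI α :=
  LinearMap.toContinuousLinearMap
    { toFun := fst
      map_add' := by intro x y; ext i; rfl
      map_smul' := by intro c x; ext i; rfl }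

/-- inclusion of the first factor as a continuous linear map -/
noncomputable def inlL : EI α →L[ℝ] EI (α ⊕ β) :=
  LinearMap.toContinuousLinearMap
    { toFun := fun x => mk x 0
      map_add' := by
        intro x y; ext i
        rcases i with i | i
        · rfl
        · simp [mk]
      map_smul' := by
        intro c x; ext i
        rcases i with i | i
        · rfl
        · simp [mk] }

omit [DecidableEq α] [DecidableEq β] in
lemma fstL_apply (z : EI (α ⊕ β)) : fstL z = fst z := rfl

omit [DecidableEq α] [DecidableEq β] in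
lemma inlL_apply (x : EI α) : inlL (β := β) x = mk x 0 := rfl

omit [DecidableEq α] [DecidableEq β] in
lemma mk_eq (x : EI α) (y : EI β) : mk x y = inlL x + mk 0 y := by
  ext i
  rcases i with i | i <;> simp [inlL_apply, mk]

omit [DecidableEq α] [DecidableEq β] in
lemma deriv_mk (γ : ℝ → EI α) (y : EI β) (t : ℝ) :
    deriv (fun s => mk (γ s) y) t = mk (deriv γ t) 0 := by
  by_cases h : DifferentiableAt ℝ γ t
  · have h1 : HasDerivAt (fun s => mk (γ s) y) (inlL (deriv γ t)) t := by
      have h2 := (inlL (β := β)).hasFDerivAt.comp_hasDerivAt t h.hasDerivAt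
      have h3 := h2.add_const (mk (0 : EI α) y)
      refine h3.congr_of_eventuallyEq ?_
      exact Filter.Eventually.of_forall fun s => by
        simp only [Function.comp]
        exact mk_eq _ _
    rw [h1.deriv, inlL_apply]
  · rw [deriv_zero_of_not_differentiableAt h]
    have h2 : ¬ DifferentiableAt ℝ (fun s => mk (γ s) y) t := by
      intro h3
      apply h
      have h4 := (fstL (α := α) (β := β)).differentiableAt.comp t h3
      have h5 : (fstL (α := α) (β := β)) ∘ (fun s => mk (γ s) y) = γ := by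
        funext s
        simp [fstL_apply]
      rwa [h5] at h4
    rw [deriv_zero_of_not_differentiableAt h2]
    ext i
    rcases i with i | i <;> simp [mk]

omit [DecidableEq α] [DecidableEq β] in
lemma deriv_fst {γ : ℝ → EI (α ⊕ β)} {t : ℝ} (h : DifferentiableAt ℝ γ t) :
    deriv (fun s => fst (γ s)) t = fst (deriv γ t) := by
  have h1 : HasDerivAt (fun s => fst (γ s)) (fstL (deriv γ t)) t :=
    (fstL (α := α) (β := β)).hasFDerivAt.comp_hasDerivAt t h.hasDerivAt
  rw [h1.deriv, fstL_apply]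

omit [DecidableEq α] [DecidableEq β] in
lemma block_sum (g : EI α → Matrix α α ℝ) (h : EI α → EI β → Matrix β β ℝ)
    (z : EI (α ⊕ β)) (v : EI (α ⊕ β)) :
    ∑ i, ∑ j, block g h z i j * v i * v j
      = (∑ i, ∑ j, g (fst z) i j * fst v i * fst v j)
        + ∑ i, ∑ j, h (fst z) (snd z) i j * snd v i * snd v j := by
  simp only [Fintype.sum_sum_type, block, Matrix.fromBlocks_apply₁₁, Matrix.fromBlocks_apply₁₂,
    Matrix.fromBlocks_apply₂₁, Matrix.fromBlocks_apply₂₂, fst_apply, snd_apply, Matrix.zero_apply,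
    zero_mul, Finset.sum_const_zero, add_zero, zero_add]

lemma isCurve_mk {Ω : Set (EI α)} {F : Set (EI β)} {x x' : EI α} {y : EI β} (hy : y ∈ F)
    {γ : ℝ → EI α} (h : IsCurve Ω x x' γ) :
    IsCurve (prod Ω F) (mk x y) (mk x' y) (fun t => mk (γ t) y) := by
  have hc : Continuous fun u : EI α => mk u y := by
    have : (fun u : EI α => mk u y) = fun u => inlL u + mk 0 y := by
      funext u; exact mk_eq _ _
    rw [this]
    exact (inlL (β := β)).continuous.add continuous_const
  have hd : ContDiff ℝ 1 fun u : EI α => mk u y := by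
    have : (fun u : EI α => mk u y) = fun u => inlL u + mk 0 y := by
      funext u; exact mk_eq _ _
    rw [this]
    exact (inlL (α := α) (β := β)).contDiff.add contDiff_const
  refine ⟨by simp [h.source], by simp [h.target], hc.comp_continuousOn h.cont, ?_, ?_⟩
  · intro t ht
    refine ⟨?_, ?_⟩
    · simpa using h.mem t ht
    · simpa using hy
  · obtain ⟨s, hs, hs'⟩ := h.c1
    exact ⟨s, hs, fun t ht => hd.contDiffAt.comp t (hs' t ht)⟩

lemma isCurve_fst {Ω : Set (EI α)} {F : Set (EI β)} {z z' : EI (α ⊕ β)}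
    {γ : ℝ → EI (α ⊕ β)} (h : IsCurve (prod Ω F) z z' γ) :
    IsCurve Ω (fst z) (fst z') (fun t => fst (γ t)) := by
  refine ⟨by simp [h.source], by simp [h.target],
    (fstL (α := α) (β := β)).continuous.comp_continuousOn h.cont, fun t ht => (h.mem t ht).1, ?_⟩
  obtain ⟨s, hs, hs'⟩ := h.c1
  exact ⟨s, hs, fun t ht => (fstL (α := α) (β := β)).contDiff.contDiffAt.comp t (hs' t ht)⟩

lemma len_mk (g : EI α → Matrix α α ℝ) (h : EI α → EI β → Matrix β β ℝ) (γ : ℝ → EI α)
    (y : EI β) : len (block g h) (fun t => mk (γ t) y) = len g γ := by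
  unfold len
  refine lintegral_congr fun t => ?_
  rw [deriv_mk, block_sum]
  simp

lemma len_fst_le {Ω : Set (EI α)} {F : Set (EI β)} (g : EI α → Matrix α α ℝ)
    (h : EI α → EI β → Matrix β β ℝ) (hpos : ∀ z ∈ prod Ω F, (block g h z).PosDef)
    {z z' : EI (α ⊕ β)} {γ : ℝ → EI (α ⊕ β)} (hγ : IsCurve (prod Ω F) z z' γ) :
    len g (fun t => fst (γ t)) ≤ len (block g h) γ := by
  unfold len
  obtain ⟨s, hs, hs'⟩ := hγ.c1
  have hnull : (volume : Measure ℝ) (s ∪ {0, 1}) = 0 :=
    (hs.union (Set.toFinite _)).measure_zero _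
  refine lintegral_mono_ae ?_
  show ∀ᵐ t ∂(volume.restrict (Icc (0 : ℝ) 1)), _ ≤ _
  rw [ae_restrict_iff' measurableSet_Icc]
  have h0 : ∀ᵐ t : ℝ, t ∉ s ∪ {0, 1} := measure_eq_zero_iff_ae_notMem.mp hnull
  filter_upwards [h0] with t ht htI
  have ht1 : t ∈ Ioo (0 : ℝ) 1 \ s := by
    simp only [mem_union, mem_insert_iff, mem_singleton_iff, not_or] at ht
    exact ⟨⟨lt_of_le_of_ne htI.1 (Ne.symm ht.2.1), lt_of_le_of_ne htI.2 ht.2.2⟩, ht.1⟩
  have hd : DifferentiableAt ℝ γ t := (hs' t ht1).differentiableAt (by simp)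
  rw [deriv_fst hd, block_sum]
  apply ENNReal.ofReal_le_ofReal
  apply Real.sqrt_le_sqrt
  have hp : 0 ≤ ∑ i, ∑ j, block g h (γ t) i j * (mk (0 : EI α) (snd (deriv γ t))) i *
      (mk (0 : EI α) (snd (deriv γ t))) j := by
    have h1 := (hpos (γ t) (hγ.mem t htI)).posSemidef.dotProduct_mulVec_nonneg
      (fun i => mk (0 : EI α) (snd (deriv γ t)) i)
    simp only [dotProduct, Matrix.mulVec, Finset.mul_sum, star_trivial, Pi.star_apply] at h1
    refine h1.trans (le_of_eq ?_)
    refine Finset.sum_congr rfl fun i _ => Finset.sum_congr rfl fun j _ => ?_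
    ring
  rw [block_sum] at hp
  simp only [fst_mk, snd_mk, PiLp.zero_apply, mul_zero, zero_mul, Finset.sum_const_zero,
    zero_add] at hp
  linarith

end

theorem leaf1 : LEAF1 := by
  intro n N Ω F g h z z' hzz hF
  unfold rdist
  refine le_iInf₂ fun γ hγ => ?_
  have h1 := isCurve_mk (F := F) hF hγ
  have h2 : mk (fst z) (snd z) = z := mk_fst_snd z
  have h3 : mk (fst z') (snd z) = z' := by rw [hzz]; exact mk_fst_snd z'
  rw [h2, h3] at h1
  exact (iInf₂_le _ h1).trans (len_mk g h γ (snd z)).le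

lemma rdist_fst_le {n N : ℕ} {Ω : Set (EI (Fin n))} {F : Set (EI (Fin N))}
    {g : EI (Fin n) → Matrix (Fin n) (Fin n) ℝ}
    {h : EI (Fin n) → EI (Fin N) → Matrix (Fin N) (Fin N) ℝ}
    (hpos : ∀ z ∈ prod Ω F, (block g h z).PosDef) (z z' : EI (Fin n ⊕ Fin N)) :
    rdist Ω g (fst z) (fst z') ≤ rdist (prod Ω F) (block g h) z z' := by
  unfold rdist
  refine le_iInf₂ fun γ hγ => ?_
  exact (iInf₂_le _ (isCurve_fst hγ)).trans (len_fst_le g h hpos hγ)

theorem leaf2 : LEAF2 := by
  intro n N Ω F g h hpos ⟨y, hy⟩ hcomp u hu hcauchy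
  obtain ⟨z, hz, hlim⟩ := hcomp (fun i => mk (u i) y)
    (fun i => ⟨by simpa using hu i, by simpa using hy⟩) (by
      intro ε hε
      obtain ⟨N0, hN0⟩ := hcauchy ε hε
      refine ⟨N0, fun i hi j hj => lt_of_le_of_lt ?_ (hN0 i hi j hj)⟩
      have := leaf1 n N Ω F g h (mk (u i) y) (mk (u j) y) (by simp) (by simpa using hy)
      simpa using this)
  refine ⟨fst z, hz.1, ?_⟩
  intro ε hε
  obtain ⟨N0, hN0⟩ := hlim ε hε
  refine ⟨N0, fun i hi => lt_of_le_of_lt ?_ (hN0 i hi)⟩
  have := rdist_fst_le (F := F) hpos (mk (u i) y) z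
  simpa using this

end Vale.Agent.P210.TP
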