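import Vale.Agent.P210.TP.Defs
import Vale.Agent.P210.Bdl.B1

/-! Exact statements of the blocks (not imported by the final file). -/

open scoped ENNReal ContDiff
open MeasureTheory Set

namespace Vale.Agent.P210.TP

/-- TARGET -/
def Target : Prop :=
    ∀ m : ℕ, 3 ≤ m → ∃ C : ℝ,
      ∀ (n N : ℕ), 3 ≤ n → n + N = m →
      ∀ (Ω : Set (EI (Fin n))) (F : Set (EI (Fin N))) (w : EI (Fin n) → ℝ)
        (h : EI (Fin n) → EI (Fin N) → Matrix (Fin N) (Fin N) ℝ),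
        IsOpen Ω → IsOpen F →
        IsRiemMetricOn (prod Ω F) (block (fun x => w x • 1) h) →
        (∃ y ∈ F, ∀ x ∈ Ω, scal (h x) y ≤ 1 / 2) →
        IsCompleteOn (prod Ω F) (block (fun x => w x • 1) h) →
        (∀ z ∈ prod Ω F, 1 ≤ scal (block (fun x => w x • 1) h) z) →
        UrysohnWidthLE (prod Ω F) (rdist (prod Ω F) (block (fun x => w x • 1) h)) (m - 2) C

/-! ### [SC] (helper586) -/

/-- `τ_i = ½ tr (h⁻¹ ∂_i h)` at `(x, y)`. -/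
noncomputable def tau {n N : ℕ} (h : EI (Fin n) → EI (Fin N) → Matrix (Fin N) (Fin N) ℝ)
    (y : EI (Fin N)) (i : Fin n) (x : EI (Fin n)) : ℝ :=
  (1 / 2) * ∑ a, ∑ b, (h x y)⁻¹ a b * pd i (fun x' => h x' y b a) x

/-- [SC] -/
def SC : Prop :=
  ∀ (n N : ℕ) (Ω : Set (EI (Fin n))) (F : Set (EI (Fin N))) (f : EI (Fin n) → ℝ)
    (h : EI (Fin n) → EI (Fin N) → Matrix (Fin N) (Fin N) ℝ), IsOpen Ω → IsOpen F →
    ContDiffOn ℝ ∞ f Ω → IsRiemMetricOn (prod Ω F) (block (conf f) h) →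
    ∀ z ∈ prod Ω F,
      scal (block (conf f) h) z ≤ scal (h (fst z)) (snd z)
        - Real.exp (-(2 * f (fst z))) *
          (2 * ((n : ℝ) - 1) * ∑ i, pd i (pd i f) (fst z)
            + ((n : ℝ) - 1) * ((n : ℝ) - 2) * ∑ i, (pd i f (fst z)) ^ 2
            + 2 * ∑ i, pd i (tau h (snd z) i) (fst z)
            + 2 * ((n : ℝ) - 2) * ∑ i, pd i f (fst z) * tau h (snd z) i (fst z)
            + ∑ i, (tau h (snd z) i (fst z)) ^ 2)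

/-- smoothness of `τ` -/
def SCsmooth : Prop :=
  ∀ (n N : ℕ) (Ω : Set (EI (Fin n))) (F : Set (EI (Fin N))) (f : EI (Fin n) → ℝ)
    (h : EI (Fin n) → EI (Fin N) → Matrix (Fin N) (Fin N) ℝ), IsOpen Ω → IsOpen F →
    IsRiemMetricOn (prod Ω F) (block (conf f) h) →
    ∀ y ∈ F, ∀ i, ContDiffOn ℝ ∞ (tau h y i) Ω

/-! ### [EN] (helper646) -/

/-- [EN]: same as `energy_ineq` of `Bdl/B1.lean`, with `∇φ` replaced by a vector field `V`. -/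
def EN : Prop :=
  ∀ (n : ℕ), 0 < n → ∀ κ δ b : ℝ, 0 < κ → 0 < δ → 2 < b →
    ∃ A : ℝ, 0 < A ∧ ∀ (Ω : Set (E n)) (φ : E n → ℝ) (V : Fin n → E n → ℝ) (Q : E n → ℝ),
      IsOpen Ω → ContDiffOn ℝ ∞ φ Ω → (∀ i, ContDiffOn ℝ ∞ (V i) Ω) →
      (∀ x ∈ Ω, κ * Real.exp (2 * φ x) ≤ -(∑ i, Vale.Agent.P210.pd i (V i) x) - Q x) →
      (∀ x ∈ Ω, ∀ β ∈ Icc (-2 : ℝ) (b - 2),
        β * ∑ i, V i x * Vale.Agent.P210.pd i φ x - Q x ≤ -δ * ∑ i, V i x ^ 2) →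
      (∀ K : Set (E n), IsCompact K → K ⊆ Ω → ∀ ε : ℝ, 0 < ε →
        ∃ χ : E n → ℝ, ContDiff ℝ ∞ χ ∧ HasCompactSupport χ ∧ tsupport χ ⊆ Ω ∧
        (∀ x, 0 ≤ χ x ∧ χ x ≤ 1) ∧ (∀ x ∈ K, χ x = 1) ∧
        ∀ x ∈ Ω, ‖fderiv ℝ χ x‖ ≤ ε * Real.exp (φ x)) →
      ∀ (x : E n) (r : ℝ), 0 < r →
        ∫⁻ y in Metric.ball x r, wt Ω φ y ^ b ≤ ENNReal.ofReal (A * r ^ ((n : ℝ) - b))

/-! ### [PROD] (helper342) -/

/-- A locally finite continuous family of barycentric coordinates with at most `k + 1` nonzero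
coordinates at each point. -/
structure Bary (X V : Type) [TopologicalSpace X] (k : ℕ) (lam : V → X → ℝ) : Prop where
  cont : ∀ v, Continuous (lam v)
  nonneg : ∀ v x, 0 ≤ lam v x
  fin : LocallyFinite fun v => Function.support (lam v)
  sum : ∀ x, ∑ᶠ v, lam v x = 1
  card : ∀ x, {v | lam v x ≠ 0}.ncard ≤ k + 1

/-- [PROD1]: the prism step. -/
def PROD1 : Prop :=
  ∀ (X V : Type) [TopologicalSpace X] (k : ℕ) (lam : V → X → ℝ), Bary X V k lam →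
    ∀ t : X → ℝ, Continuous t → ∃ mu : V × ℤ → X → ℝ, Bary X (V × ℤ) (k + 1) mu ∧
      ∀ x y, (∀ p, mu p x = mu p y) → (∀ v, lam v x = lam v y) ∧ t x = t y

/-- [PROD2]: from coordinates to a continuous map (proof inside `exists_map_to_skeleton`). -/
def PROD2 : Prop :=
  ∀ (X V : Type) [TopologicalSpace X] (k : ℕ) (lam : V → X → ℝ), Bary X V k lam →
    ∃ f : X → Realization (skel V k), Continuous f ∧ ∀ x v, (f x).1 v = lam v x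

/-- [PROD3]: `core` of `Bdl/B1.lean` with a `Bary` output. -/
def PROD3 : Prop :=
  ∀ (n k : ℕ), 0 < n → 0 < k → ∀ b A : ℝ, 1 < b → (n : ℝ) - k < b → 0 < A →
    ∃ C : ℝ, 0 < C ∧ ∀ (Ω : Set (E n)) (W : E n → ℝ≥0∞), IsWeight Ω W b A →
      ∃ lam : Vtx n → Ω → ℝ, Bary Ω (Vtx n) k lam ∧ ∀ x y : Ω, (∀ v, lam v x = lam v y) →
        ∃ p : E n, (∀ s ∈ Icc (0 : ℝ) 1, (x : E n) + s • (p - x) ∈ Ω) ∧
          (∀ s ∈ Icc (0 : ℝ) 1, (y : E n) + s • (p - y) ∈ Ω) ∧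
          ∫⁻ s in Ioo (0 : ℝ) 1, W (x + s • (p - x)) * ‖p - x‖ₑ ≤ ENNReal.ofReal C ∧
          ∫⁻ s in Ioo (0 : ℝ) 1, W (y + s • (p - y)) * ‖p - y‖ₑ ≤ ENNReal.ofReal C

/-! ### [LEAF] (helper210) -/

/-- [LEAF1]: slices are no longer than in the base. -/
def LEAF1 : Prop :=
  ∀ (n N : ℕ) (Ω : Set (EI (Fin n))) (F : Set (EI (Fin N))) (g : EI (Fin n) → Matrix (Fin n) (Fin n) ℝ)
    (h : EI (Fin n) → EI (Fin N) → Matrix (Fin N) (Fin N) ℝ) (z z' : EI (Fin n ⊕ Fin N)),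
    snd z = snd z' → snd z ∈ F →
    rdist (prod Ω F) (block g h) z z' ≤ rdist Ω g (fst z) (fst z')

/-- [LEAF2]: completeness of the base. -/
def LEAF2 : Prop :=
  ∀ (n N : ℕ) (Ω : Set (EI (Fin n))) (F : Set (EI (Fin N))) (g : EI (Fin n) → Matrix (Fin n) (Fin n) ℝ)
    (h : EI (Fin n) → EI (Fin N) → Matrix (Fin N) (Fin N) ℝ),
    (∀ z ∈ prod Ω F, (block g h z).PosDef) → F.Nonempty →
    IsCompleteOn (prod Ω F) (block g h) → IsCompleteOn Ω g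

end Vale.Agent.P210.TP
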