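import Vale.Agent.P210.TP.Calc

open scoped ENNReal ContDiff
open MeasureTheory Set

namespace Vale.Agent.P210.TP.S

set_option linter.unusedSectionVars false

variable {α β : Type} [Fintype α] [Fintype β] [DecidableEq α] [DecidableEq β]
  {g : EI α → Matrix α α ℝ} {h : EI α → EI β → Matrix β β ℝ}
  {Ω : Set (EI α)} {F : Set (EI β)}

/-! ### entries of the block metric -/

lemma block_ll (z : EI (α ⊕ β)) (i j : α) :
    block g h z (Sum.inl i) (Sum.inl j) = g (fst z) i j := rfl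
lemma block_lr (z : EI (α ⊕ β)) (i : α) (b : β) :
    block g h z (Sum.inl i) (Sum.inr b) = 0 := rfl
lemma block_rl (z : EI (α ⊕ β)) (i : α) (b : β) :
    block g h z (Sum.inr b) (Sum.inl i) = 0 := rfl
lemma block_rr (z : EI (α ⊕ β)) (a b : β) :
    block g h z (Sum.inr a) (Sum.inr b) = h (fst z) (snd z) a b := rfl

lemma posDef_g {z : EI (α ⊕ β)} (hp : (block g h z).PosDef) : (g (fst z)).PosDef := by
  have := hp.submatrix (e := (Sum.inl : α → α ⊕ β)) Sum.inl_injective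
  exact this

lemma posDef_h {z : EI (α ⊕ β)} (hp : (block g h z).PosDef) : (h (fst z) (snd z)).PosDef := by
  have := hp.submatrix (e := (Sum.inr : β → α ⊕ β)) Sum.inr_injective
  exact this

lemma block_inv {z : EI (α ⊕ β)} (hp : (block g h z).PosDef) :
    (block g h z)⁻¹ = Matrix.fromBlocks (g (fst z))⁻¹ 0 0 (h (fst z) (snd z))⁻¹ := by
  apply Matrix.inv_eq_right_inv
  unfold block
  rw [Matrix.fromBlocks_multiply]
  simp [mul_inv_of_posDef (posDef_g hp), mul_inv_of_posDef (posDef_h hp)]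

lemma binv_ll {z : EI (α ⊕ β)} (hp : (block g h z).PosDef) (i j : α) :
    (block g h z)⁻¹ (Sum.inl i) (Sum.inl j) = (g (fst z))⁻¹ i j := by rw [block_inv hp]; rfl
lemma binv_lr {z : EI (α ⊕ β)} (hp : (block g h z).PosDef) (i : α) (b : β) :
    (block g h z)⁻¹ (Sum.inl i) (Sum.inr b) = 0 := by rw [block_inv hp]; rfl
lemma binv_rl {z : EI (α ⊕ β)} (hp : (block g h z).PosDef) (i : α) (b : β) :
    (block g h z)⁻¹ (Sum.inr b) (Sum.inl i) = 0 := by rw [block_inv hp]; rfl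
lemma binv_rr {z : EI (α ⊕ β)} (hp : (block g h z).PosDef) (a b : β) :
    (block g h z)⁻¹ (Sum.inr a) (Sum.inr b) = (h (fst z) (snd z))⁻¹ a b := by
  rw [block_inv hp]; rfl

lemma metric_g (hG : IsRiemMetricOn (prod Ω F) (block g h)) {y : EI β} (hy : y ∈ F) :
    IsRiemMetricOn Ω g := by
  constructor
  · intro i j
    have := contDiffOn_left (hG.smooth (Sum.inl i) (Sum.inl j)) hy
    simpa only [block_ll, fst_mk] using this
  · intro x hx
    have hz : mk x y ∈ prod Ω F := ⟨by simpa using hx, by simpa using hy⟩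
    simpa using posDef_g (hG.posDef _ hz)

lemma metric_h (hG : IsRiemMetricOn (prod Ω F) (block g h)) {x : EI α} (hx : x ∈ Ω) :
    IsRiemMetricOn F (h x) := by
  constructor
  · intro i j
    have := contDiffOn_right (hG.smooth (Sum.inr i) (Sum.inr j)) hx
    simpa only [block_rr, fst_mk, snd_mk] using this
  · intro y hy
    have hz : mk x y ∈ prod Ω F := ⟨by simpa using hx, by simpa using hy⟩
    simpa using posDef_h (hG.posDef _ hz)

lemma smooth_H (hG : IsRiemMetricOn (prod Ω F) (block g h)) (a b : β) :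
    ContDiffOn ℝ ∞ (fun z : EI (α ⊕ β) => h (fst z) (snd z) a b) (prod Ω F) :=
  hG.smooth (Sum.inr a) (Sum.inr b)

lemma smooth_Hinv (hG : IsRiemMetricOn (prod Ω F) (block g h)) (a b : β) :
    ContDiffOn ℝ ∞ (fun z : EI (α ⊕ β) => (h (fst z) (snd z))⁻¹ a b) (prod Ω F) :=
  contDiffOn_inv_apply (A := fun z : EI (α ⊕ β) => h (fst z) (snd z)) (fun i j => smooth_H hG i j)
    (fun _ hz => posDef_h (hG.posDef _ hz)) a b

/-! ### Christoffel symbols -/

/-- `D_i h_{ab}` -/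
noncomputable def Dh (h : EI α → EI β → Matrix β β ℝ) (i : α) (z : EI (α ⊕ β)) : Matrix β β ℝ :=
  Matrix.of fun a b => pd (Sum.inl i) (fun z : EI (α ⊕ β) => h (fst z) (snd z) a b) z

/-- `Γ^a_{ib}` -/
noncomputable def Ac (h : EI α → EI β → Matrix β β ℝ) (i : α) (z : EI (α ⊕ β)) : Matrix β β ℝ :=
  Matrix.of fun a b => (1 / 2) * ∑ c, (h (fst z) (snd z))⁻¹ a c * Dh h i z b c

/-- `Γ^k_{ab}` -/
noncomputable def Bc (g : EI α → Matrix α α ℝ) (h : EI α → EI β → Matrix β β ℝ) (k : α)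
    (z : EI (α ⊕ β)) : Matrix β β ℝ :=
  Matrix.of fun a b => -(1 / 2) * ∑ l, (g (fst z))⁻¹ k l * Dh h l z a b

section chr

variable (hΩ : IsOpen Ω) (hF : IsOpen F) (hG : IsRiemMetricOn (prod Ω F) (block g h))

include hΩ hF hG

lemma d_ll_l {z : EI (α ⊕ β)} (hz : z ∈ prod Ω F) (i j l : α) :
    pd (Sum.inl l) (fun z : EI (α ⊕ β) => block g h z (Sum.inl i) (Sum.inl j)) z
      = pd l (fun x => g x i j) (fst z) := by
  simp only [block_ll]
  exact pd_inl_fst (u := fun x => g x i j) z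
    (diffAt hΩ ((metric_g hG hz.2).smooth i j) hz.1) l

lemma d_ll_r {z : EI (α ⊕ β)} (hz : z ∈ prod Ω F) (i j : α) (c : β) :
    pd (Sum.inr c) (fun z : EI (α ⊕ β) => block g h z (Sum.inl i) (Sum.inl j)) z = 0 := by
  simp only [block_ll]
  exact pd_inr_fst (u := fun x => g x i j) z
    (diffAt hΩ ((metric_g hG hz.2).smooth i j) hz.1) c

omit hΩ hF hG in
lemma d_lr {z : EI (α ⊕ β)} (i : α) (b : β) (c : α ⊕ β) :
    pd c (fun z : EI (α ⊕ β) => block g h z (Sum.inl i) (Sum.inr b)) z = 0 := by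
  simp only [block_lr]
  exact pd_const' _ _ _

omit hΩ hF hG in
lemma d_rl {z : EI (α ⊕ β)} (i : α) (b : β) (c : α ⊕ β) :
    pd c (fun z : EI (α ⊕ β) => block g h z (Sum.inr b) (Sum.inl i)) z = 0 := by
  simp only [block_rl]
  exact pd_const' _ _ _

omit hΩ hF hG in
lemma d_rr_l {z : EI (α ⊕ β)} (a b : β) (i : α) :
    pd (Sum.inl i) (fun z : EI (α ⊕ β) => block g h z (Sum.inr a) (Sum.inr b)) z
      = Dh h i z a b := rfl

lemma d_rr_r {z : EI (α ⊕ β)} (hz : z ∈ prod Ω F) (a b c : β) :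
    pd (Sum.inr c) (fun z : EI (α ⊕ β) => block g h z (Sum.inr a) (Sum.inr b)) z
      = pd c (fun y => h (fst z) y a b) (snd z) := by
  simp only [block_rr]
  rw [pd_inr (v := fun z : EI (α ⊕ β) => h (fst z) (snd z) a b)
    (diffAt (isOpen_prod hΩ hF) (smooth_H hG a b) hz)]
  simp only [fst_mk, snd_mk]

lemma chr_lll {z : EI (α ⊕ β)} (hz : z ∈ prod Ω F) (k i j : α) :
    christoffel (block g h) (Sum.inl k) (Sum.inl i) (Sum.inl j) z
      = christoffel g k i j (fst z) := by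
  unfold christoffel
  rw [Fintype.sum_sum_type]
  simp only [binv_ll (hG.posDef z hz), binv_lr (hG.posDef z hz), zero_mul, Finset.sum_const_zero,
    add_zero, d_ll_l hΩ hF hG hz]

lemma chr_llr {z : EI (α ⊕ β)} (hz : z ∈ prod Ω F) (k i : α) (b : β) :
    christoffel (block g h) (Sum.inl k) (Sum.inl i) (Sum.inr b) z = 0 := by
  unfold christoffel
  rw [Fintype.sum_sum_type]
  simp only [binv_lr (hG.posDef z hz), zero_mul, Finset.sum_const_zero,
    add_zero, d_ll_r hΩ hF hG hz, d_rl, d_lr, sub_zero, mul_zero]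

lemma chr_lrl {z : EI (α ⊕ β)} (hz : z ∈ prod Ω F) (k i : α) (b : β) :
    christoffel (block g h) (Sum.inl k) (Sum.inr b) (Sum.inl i) z = 0 := by
  unfold christoffel
  rw [Fintype.sum_sum_type]
  simp only [binv_lr (hG.posDef z hz), zero_mul, Finset.sum_const_zero,
    add_zero, d_ll_r hΩ hF hG hz, d_rl, d_lr, sub_zero, mul_zero]

lemma chr_lrr {z : EI (α ⊕ β)} (hz : z ∈ prod Ω F) (k : α) (a b : β) :
    christoffel (block g h) (Sum.inl k) (Sum.inr a) (Sum.inr b) z = Bc g h k z a b := by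
  unfold christoffel Bc
  rw [Fintype.sum_sum_type]
  simp only [binv_ll (hG.posDef z hz), binv_lr (hG.posDef z hz), zero_mul, Finset.sum_const_zero,
    add_zero, d_rl, d_rr_l, zero_sub, Matrix.of_apply, mul_neg, Finset.sum_neg_distrib]
  ring

lemma chr_rll {z : EI (α ⊕ β)} (hz : z ∈ prod Ω F) (c : β) (i j : α) :
    christoffel (block g h) (Sum.inr c) (Sum.inl i) (Sum.inl j) z = 0 := by
  unfold christoffel
  rw [Fintype.sum_sum_type]
  simp only [binv_rl (hG.posDef z hz), zero_mul, Finset.sum_const_zero,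
    add_zero, d_ll_r hΩ hF hG hz, d_rl, d_lr, sub_zero, mul_zero]

lemma chr_rlr {z : EI (α ⊕ β)} (hz : z ∈ prod Ω F) (a : β) (i : α) (b : β) :
    christoffel (block g h) (Sum.inr a) (Sum.inl i) (Sum.inr b) z = Ac h i z a b := by
  unfold christoffel Ac
  rw [Fintype.sum_sum_type]
  simp only [binv_rl (hG.posDef z hz), binv_rr (hG.posDef z hz), zero_mul, Finset.sum_const_zero,
    zero_add, add_zero, d_lr, d_rr_l, sub_zero, Matrix.of_apply]

lemma chr_rrl {z : EI (α ⊕ β)} (hz : z ∈ prod Ω F) (a : β) (i : α) (b : β) :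
    christoffel (block g h) (Sum.inr a) (Sum.inr b) (Sum.inl i) z = Ac h i z a b := by
  unfold christoffel Ac
  rw [Fintype.sum_sum_type]
  simp only [binv_rl (hG.posDef z hz), binv_rr (hG.posDef z hz), zero_mul, Finset.sum_const_zero,
    zero_add, add_zero, d_lr, d_rl, d_rr_l, sub_zero, Matrix.of_apply]

lemma chr_rrr {z : EI (α ⊕ β)} (hz : z ∈ prod Ω F) (a b c : β) :
    christoffel (block g h) (Sum.inr a) (Sum.inr b) (Sum.inr c) z
      = christoffel (h (fst z)) a b c (snd z) := by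
  unfold christoffel
  rw [Fintype.sum_sum_type]
  simp only [binv_rl (hG.posDef z hz), binv_rr (hG.posDef z hz), zero_mul, Finset.sum_const_zero,
    zero_add, d_rr_r hΩ hF hG hz]

/-! ### smoothness -/

lemma smooth_Dh (i : α) (a b : β) : ContDiffOn ℝ ∞ (fun z => Dh h i z a b) (prod Ω F) :=
  contDiffOn_pd' (isOpen_prod hΩ hF) (smooth_H hG a b) (Sum.inl i)

lemma smooth_Ac (i : α) (a b : β) : ContDiffOn ℝ ∞ (fun z => Ac h i z a b) (prod Ω F) := by
  unfold Ac
  simp only [Matrix.of_apply]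
  apply ContDiffOn.mul contDiffOn_const
  exact ContDiffOn.sum fun c _ => (smooth_Hinv hG a c).mul (smooth_Dh hΩ hF hG i b c)

lemma smooth_Bc {y : EI β} (hy : y ∈ F) (k : α) (a b : β) :
    ContDiffOn ℝ ∞ (fun z => Bc g h k z a b) (prod Ω F) := by
  unfold Bc
  simp only [Matrix.of_apply]
  apply ContDiffOn.mul contDiffOn_const
  refine ContDiffOn.sum fun l _ => ContDiffOn.mul ?_ (smooth_Dh hΩ hF hG l a b)
  exact contDiffOn_fst (u := fun x => (g x)⁻¹ k l)
    (contDiffOn_inv_apply (metric_g hG hy).smooth (metric_g hG hy).posDef k l)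

/-! ### derivatives of the Christoffel symbols -/

lemma dchr_lll {z : EI (α ⊕ β)} (hz : z ∈ prod Ω F) (k i j m : α) :
    pd (Sum.inl m) (christoffel (block g h) (Sum.inl k) (Sum.inl i) (Sum.inl j)) z
      = pd m (christoffel g k i j) (fst z) := by
  rw [pd_congr_on' (isOpen_prod hΩ hF) (fun y hy => chr_lll hΩ hF hG hy k i j) _ hz]
  exact pd_inl_fst z (diffAt hΩ (contDiffOn_christoffel hΩ (metric_g hG hz.2) k i j) hz.1) m

lemma dchr_lrl {z : EI (α ⊕ β)} (hz : z ∈ prod Ω F) (k i : α) (b : β) (m : α ⊕ β) :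
    pd m (christoffel (block g h) (Sum.inl k) (Sum.inr b) (Sum.inl i)) z = 0 := by
  rw [pd_congr_on' (isOpen_prod hΩ hF) (fun y hy => chr_lrl hΩ hF hG hy k i b) _ hz, pd_const']

lemma dchr_lrr {z : EI (α ⊕ β)} (hz : z ∈ prod Ω F) (k : α) (a b : β) (m : α ⊕ β) :
    pd m (christoffel (block g h) (Sum.inl k) (Sum.inr a) (Sum.inr b)) z
      = pd m (fun z => Bc g h k z a b) z :=
  pd_congr_on' (isOpen_prod hΩ hF) (fun y hy => chr_lrr hΩ hF hG hy k a b) _ hz

lemma dchr_rll {z : EI (α ⊕ β)} (hz : z ∈ prod Ω F) (c : β) (i j : α) (m : α ⊕ β) :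
    pd m (christoffel (block g h) (Sum.inr c) (Sum.inl i) (Sum.inl j)) z = 0 := by
  rw [pd_congr_on' (isOpen_prod hΩ hF) (fun y hy => chr_rll hΩ hF hG hy c i j) _ hz, pd_const']

lemma dchr_rlr {z : EI (α ⊕ β)} (hz : z ∈ prod Ω F) (a : β) (i : α) (b : β) (m : α ⊕ β) :
    pd m (christoffel (block g h) (Sum.inr a) (Sum.inl i) (Sum.inr b)) z
      = pd m (fun z => Ac h i z a b) z :=
  pd_congr_on' (isOpen_prod hΩ hF) (fun y hy => chr_rlr hΩ hF hG hy a i b) _ hz

lemma dchr_rrr {z : EI (α ⊕ β)} (hz : z ∈ prod Ω F) (a b c m : β) :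
    pd (Sum.inr m) (christoffel (block g h) (Sum.inr a) (Sum.inr b) (Sum.inr c)) z
      = pd m (christoffel (h (fst z)) a b c) (snd z) := by
  have h1 := contDiffOn_christoffel (isOpen_prod hΩ hF) hG (Sum.inr a) (Sum.inr b) (Sum.inr c)
  rw [pd_inr (diffAt (isOpen_prod hΩ hF) h1 hz)]
  apply pd_congr_on' hF _ m hz.2
  intro y hy
  have hz' : (mk (fst z) y : EI (α ⊕ β)) ∈ prod Ω F := ⟨by simpa using hz.1, by simpa using hy⟩
  rw [chr_rrr hΩ hF hG hz']
  simp

/-! ### Ricci curvature -/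

lemma ricci_ll {z : EI (α ⊕ β)} (hz : z ∈ prod Ω F) (i j : α) :
    ricci (block g h) (Sum.inl i) (Sum.inl j) z
      = ricci g i j (fst z) - ∑ a, pd (Sum.inl j) (fun z => Ac h i z a a) z
        + ∑ a, ∑ l, Ac h l z a a * christoffel g l i j (fst z)
        - ∑ a, ∑ b, Ac h j z a b * Ac h i z b a := by
  unfold ricci
  rw [Fintype.sum_sum_type]
  simp only [Fintype.sum_sum_type, chr_lll hΩ hF hG hz, chr_llr hΩ hF hG hz, chr_lrl hΩ hF hG hz,
    chr_rll hΩ hF hG hz, chr_rlr hΩ hF hG hz, chr_rrl hΩ hF hG hz, chr_rrr hΩ hF hG hz,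
    chr_lrr hΩ hF hG hz, dchr_lll hΩ hF hG hz, dchr_rll hΩ hF hG hz, dchr_rlr hΩ hF hG hz,
    mul_zero, zero_mul, sub_zero, zero_sub, Finset.sum_const_zero, add_zero, zero_add,
    Finset.sum_neg_distrib, Finset.sum_add_distrib, Finset.sum_sub_distrib]
  ring

lemma ricci_rr {z : EI (α ⊕ β)} (hz : z ∈ prod Ω F) (a b : β) :
    ricci (block g h) (Sum.inr a) (Sum.inr b) z
      = ricci (h (fst z)) a b (snd z) + ∑ k, pd (Sum.inl k) (fun z => Bc g h k z a b) z
        + ∑ k, ∑ l, christoffel g k k l (fst z) * Bc g h l z a b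
        - ∑ k, ∑ c, Bc g h k z b c * Ac h k z c a
        + ∑ d, ∑ l, Ac h l z d d * Bc g h l z a b
        - ∑ d, ∑ l, Ac h l z d b * Bc g h l z a d := by
  unfold ricci
  rw [Fintype.sum_sum_type]
  simp only [Fintype.sum_sum_type, chr_lll hΩ hF hG hz, chr_llr hΩ hF hG hz, chr_lrl hΩ hF hG hz,
    chr_rll hΩ hF hG hz, chr_rlr hΩ hF hG hz, chr_rrl hΩ hF hG hz, chr_rrr hΩ hF hG hz,
    chr_lrr hΩ hF hG hz, dchr_lrr hΩ hF hG hz, dchr_lrl hΩ hF hG hz, dchr_rrr hΩ hF hG hz,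
    mul_zero, zero_mul, sub_zero, zero_sub, Finset.sum_const_zero, add_zero, zero_add,
    Finset.sum_neg_distrib, Finset.sum_add_distrib, Finset.sum_sub_distrib]
  ring

end chr

end Vale.Agent.P210.TP.S
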