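import Vale.Agent.P210.TP.SC1

open scoped ENNReal ContDiff
open MeasureTheory Set

namespace Vale.Agent.P210.TP.S

set_option linter.unusedSectionVars false
set_option linter.unusedVariables false

variable {α β : Type} [Fintype α] [Fintype β] [DecidableEq α] [DecidableEq β]
  {g : EI α → Matrix α α ℝ} {h : EI α → EI β → Matrix β β ℝ}
  {Ω : Set (EI α)} {F : Set (EI β)}

/-- `τ_i` as a function of `(x, y)` -/
noncomputable def taux (h : EI α → EI β → Matrix β β ℝ) (i : α) (z : EI (α ⊕ β)) : ℝ :=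
  ∑ a, Ac h i z a a

/-- `h^{ab} Γ^k_{ab}` -/
noncomputable def Sx (g : EI α → Matrix α α ℝ) (h : EI α → EI β → Matrix β β ℝ) (k : α)
    (z : EI (α ⊕ β)) : ℝ :=
  ∑ a, ∑ b, (h (fst z) (snd z))⁻¹ a b * Bc g h k z a b

lemma Sx_eq (k : α) (z : EI (α ⊕ β)) :
    Sx g h k z = -∑ l, (g (fst z))⁻¹ k l * taux h l z := by
  unfold Sx taux Bc Ac
  simp only [Matrix.of_apply, Finset.mul_sum]
  rw [← Finset.sum_neg_distrib]
  have h1 : ∀ a b : β, ∑ l, (h (fst z) (snd z))⁻¹ a b * (-(1 / 2) * ((g (fst z))⁻¹ k l * Dh h l z a b))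
      = ∑ l, -((g (fst z))⁻¹ k l * (1 / 2 * ((h (fst z) (snd z))⁻¹ a b * Dh h l z a b))) := by
    intro a b
    apply Finset.sum_congr rfl
    intro l _
    ring
  simp only [h1]
  rw [show (∑ a, ∑ b, ∑ l, -((g (fst z))⁻¹ k l * (1 / 2 * ((h (fst z) (snd z))⁻¹ a b * Dh h l z a b))))
    = ∑ a, ∑ l, ∑ b, -((g (fst z))⁻¹ k l * (1 / 2 * ((h (fst z) (snd z))⁻¹ a b * Dh h l z a b))) from
    Finset.sum_congr rfl fun a _ => Finset.sum_comm]
  rw [Finset.sum_comm]
  simp only [Finset.sum_neg_distrib]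

section chr

variable (hΩ : IsOpen Ω) (hF : IsOpen F) (hG : IsRiemMetricOn (prod Ω F) (block g h))

include hΩ hF hG

lemma Dh_symm {z : EI (α ⊕ β)} (hz : z ∈ prod Ω F) (k : α) : (Dh h k z).transpose = Dh h k z := by
  ext a b
  simp only [Matrix.transpose_apply, Dh, Matrix.of_apply]
  apply pd_congr_on' (isOpen_prod hΩ hF) _ _ hz
  intro y hy
  have := (posDef_h (hG.posDef y hy)).isHermitian
  have h2 := this.apply a b
  simpa using h2

omit hΩ hF in
lemma Hinv_symm {z : EI (α ⊕ β)} (hz : z ∈ prod Ω F) :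
    ((h (fst z) (snd z))⁻¹).transpose = (h (fst z) (snd z))⁻¹ := by
  have := (posDef_h (hG.posDef z hz)).isHermitian
  rw [Matrix.transpose_nonsing_inv]
  congr 1

lemma Ac_eq {z : EI (α ⊕ β)} (hz : z ∈ prod Ω F) (k : α) :
    Ac h k z = (1 / 2 : ℝ) • ((h (fst z) (snd z))⁻¹ * Dh h k z) := by
  ext a b
  rw [Matrix.smul_apply, Matrix.mul_apply]
  unfold Ac
  simp only [Matrix.of_apply, smul_eq_mul]
  congr 1
  apply Finset.sum_congr rfl
  intro c _
  rw [show Dh h k z b c = (Dh h k z).transpose c b from rfl, Dh_symm hΩ hF hG hz k]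

lemma Bc_symm {z : EI (α ⊕ β)} (hz : z ∈ prod Ω F) (k : α) :
    (Bc g h k z).transpose = Bc g h k z := by
  ext a b
  unfold Bc
  simp only [Matrix.transpose_apply, Matrix.of_apply]
  congr 1
  apply Finset.sum_congr rfl
  intro l _
  have := Dh_symm hΩ hF hG hz l
  have h2 := congrFun (congrFun this a) b
  rw [Matrix.transpose_apply] at h2
  rw [h2]

omit hΩ hF hG in
lemma sum_mul_trace (M N : Matrix β β ℝ) : ∑ a, ∑ b, M a b * N b a = (M * N).trace := by
  simp only [Matrix.trace, Matrix.diag_apply, Matrix.mul_apply]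

/-- the three quadratic terms cancel -/
lemma cancel {z : EI (α ⊕ β)} (hz : z ∈ prod Ω F) (k : α) :
    ∑ a, ∑ b, ((h (fst z) (snd z))⁻¹ * Dh h k z * (h (fst z) (snd z))⁻¹) a b * Bc g h k z a b
      = ∑ a, ∑ b, (h (fst z) (snd z))⁻¹ a b * (∑ c, Bc g h k z b c * Ac h k z c a)
        + ∑ a, ∑ b, (h (fst z) (snd z))⁻¹ a b * (∑ d, Ac h k z d b * Bc g h k z a d) := by
  set Hi := (h (fst z) (snd z))⁻¹ with hHi
  set D := Dh h k z with hD
  set B := Bc g h k z with hB
  have hHs : Hi.transpose = Hi := Hinv_symm hG hz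
  have hDs : D.transpose = D := Dh_symm hΩ hF hG hz k
  have hBs : B.transpose = B := Bc_symm hΩ hF hG hz k
  have hA : Ac h k z = (1 / 2 : ℝ) • (Hi * D) := Ac_eq hΩ hF hG hz k
  have e1 : ∑ a, ∑ b, (Hi * D * Hi) a b * B a b = (Hi * D * Hi * B).trace := by
    rw [← sum_mul_trace]
    apply Finset.sum_congr rfl
    intro a _
    apply Finset.sum_congr rfl
    intro b _
    rw [show B b a = B.transpose a b from rfl, hBs]
  have e2 : ∑ a, ∑ b, Hi a b * (∑ c, B b c * Ac h k z c a) = (Hi * (B * Ac h k z)).trace := by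
    rw [← sum_mul_trace]
    apply Finset.sum_congr rfl
    intro a _
    apply Finset.sum_congr rfl
    intro b _
    rw [Matrix.mul_apply]
  have e3 : ∑ a, ∑ b, Hi a b * (∑ d, Ac h k z d b * B a d) = (Hi * (B * Ac h k z)).trace := by
    rw [← sum_mul_trace, Finset.sum_comm]
    apply Finset.sum_congr rfl
    intro a _
    apply Finset.sum_congr rfl
    intro b _
    rw [Matrix.mul_apply, show Hi b a = Hi.transpose a b from rfl, hHs]
    congr 1
    apply Finset.sum_congr rfl
    intro c _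
    ring
  rw [e1, e2, e3, hA]
  rw [Matrix.mul_smul, Matrix.mul_smul, Matrix.trace_smul, smul_eq_mul]
  have e4 : (Hi * D * Hi * B).trace = (Hi * (B * (Hi * D))).trace := by
    rw [show Hi * D * Hi * B = (Hi * D) * (Hi * B) by simp only [Matrix.mul_assoc],
      Matrix.trace_mul_comm]
    simp only [Matrix.mul_assoc]
  rw [e4]
  ring

lemma smooth_taux (i : α) : ContDiffOn ℝ ∞ (taux h i) (prod Ω F) := by
  unfold taux
  exact ContDiffOn.sum fun a _ => smooth_Ac hΩ hF hG i a a

lemma smooth_Sx {y : EI β} (hy : y ∈ F) (k : α) : ContDiffOn ℝ ∞ (Sx g h k) (prod Ω F) := by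
  unfold Sx
  exact ContDiffOn.sum fun a _ => ContDiffOn.sum fun b _ =>
    (smooth_Hinv hG a b).mul (smooth_Bc hΩ hF hG hy k a b)

/-- derivative of `S` -/
lemma pd_Sx {z : EI (α ⊕ β)} (hz : z ∈ prod Ω F) (k : α) :
    ∑ a, ∑ b, (h (fst z) (snd z))⁻¹ a b * pd (Sum.inl k) (fun z => Bc g h k z a b) z
      = pd (Sum.inl k) (Sx g h k) z
        + ∑ a, ∑ b, ((h (fst z) (snd z))⁻¹ * Dh h k z * (h (fst z) (snd z))⁻¹) a b
            * Bc g h k z a b := by
  have hU := isOpen_prod hΩ hF
  have d1 : ∀ a b, DifferentiableAt ℝ (fun z : EI (α ⊕ β) => (h (fst z) (snd z))⁻¹ a b) z :=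
    fun a b => diffAt hU (smooth_Hinv hG a b) hz
  have d2 : ∀ a b, DifferentiableAt ℝ (fun z => Bc g h k z a b) z :=
    fun a b => diffAt hU (smooth_Bc hΩ hF hG hz.2 k a b) hz
  have e1 : pd (Sum.inl k) (Sx g h k) z
      = ∑ a, ∑ b, (pd (Sum.inl k) (fun z : EI (α ⊕ β) => (h (fst z) (snd z))⁻¹ a b) z
          * Bc g h k z a b
          + (h (fst z) (snd z))⁻¹ a b * pd (Sum.inl k) (fun z => Bc g h k z a b) z) := by
    unfold Sx
    rw [pd_sum' (Finset.univ : Finset β)
      (f := fun a z => ∑ b, (h (fst z) (snd z))⁻¹ a b * Bc g h k z a b) (Sum.inl k)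
      (fun a _ => DifferentiableAt.fun_sum fun b _ => (d1 a b).mul (d2 a b))]
    apply Finset.sum_congr rfl
    intro a _
    rw [pd_sum' (Finset.univ : Finset β)
      (f := fun b z => (h (fst z) (snd z))⁻¹ a b * Bc g h k z a b) (Sum.inl k)
      (fun b _ => (d1 a b).mul (d2 a b))]
    apply Finset.sum_congr rfl
    intro b _
    rw [pd_mul' _ (d1 a b) (d2 a b)]
  rw [e1, ← Finset.sum_add_distrib]
  apply Finset.sum_congr rfl
  intro a _
  rw [← Finset.sum_add_distrib]
  apply Finset.sum_congr rfl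
  intro b _
  have e2 := pd_inv hU (A := fun z : EI (α ⊕ β) => h (fst z) (snd z)) (fun i j => smooth_H hG i j)
    (fun _ hz => posDef_h (hG.posDef _ hz)) hz (Sum.inl k) a b
  rw [e2]
  simp only [Dh]
  ring

/-- the scalar curvature of the block metric -/
theorem scal_block {z : EI (α ⊕ β)} (hz : z ∈ prod Ω F) :
    scal (block g h) z = scal g (fst z) + scal (h (fst z)) (snd z)
      - ∑ i, ∑ j, (g (fst z))⁻¹ i j *
          (pd (Sum.inl j) (taux h i) z - ∑ l, taux h l z * christoffel g l i j (fst z))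
      - ∑ i, ∑ j, (g (fst z))⁻¹ i j * (Ac h j z * Ac h i z).trace
      + ∑ k, (pd (Sum.inl k) (Sx g h k) z + ∑ l, christoffel g k k l (fst z) * Sx g h l z)
      + ∑ l, taux h l z * Sx g h l z := by
  have hU := isOpen_prod hΩ hF
  set Hi := (h (fst z) (snd z))⁻¹ with hHi
  -- base part
  have hbase : ∀ i j, ricci (block g h) (Sum.inl i) (Sum.inl j) z
      = ricci g i j (fst z)
        - (pd (Sum.inl j) (taux h i) z - ∑ l, taux h l z * christoffel g l i j (fst z))
        - (Ac h j z * Ac h i z).trace := by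
    intro i j
    rw [ricci_ll hΩ hF hG hz, sum_mul_trace]
    have e1 : pd (Sum.inl j) (taux h i) z = ∑ a, pd (Sum.inl j) (fun z => Ac h i z a a) z := by
      unfold taux
      exact pd_sum' (Finset.univ : Finset β) (f := fun a z => Ac h i z a a) (Sum.inl j)
        (fun a _ => diffAt hU (smooth_Ac hΩ hF hG i a a) hz)
    have e2 : ∑ a, ∑ l, Ac h l z a a * christoffel g l i j (fst z)
        = ∑ l, taux h l z * christoffel g l i j (fst z) := by
      rw [Finset.sum_comm]
      apply Finset.sum_congr rfl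
      intro l _
      rw [← Finset.sum_mul]
      rfl
    rw [e1, e2]
    ring
  -- fibre part
  have hfib : ∑ a, ∑ b, Hi a b * ricci (block g h) (Sum.inr a) (Sum.inr b) z
      = scal (h (fst z)) (snd z)
      + ∑ k, (pd (Sum.inl k) (Sx g h k) z + ∑ l, christoffel g k k l (fst z) * Sx g h l z)
      + ∑ l, taux h l z * Sx g h l z := by
    have e0 : ∀ a b, Hi a b * ricci (block g h) (Sum.inr a) (Sum.inr b) z
        = Hi a b * ricci (h (fst z)) a b (snd z)
          + ∑ k, Hi a b * pd (Sum.inl k) (fun z => Bc g h k z a b) z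
          + ∑ k, ∑ l, christoffel g k k l (fst z) * (Hi a b * Bc g h l z a b)
          - ∑ k, Hi a b * (∑ c, Bc g h k z b c * Ac h k z c a)
          + ∑ l, taux h l z * (Hi a b * Bc g h l z a b)
          - ∑ l, Hi a b * (∑ d, Ac h l z d b * Bc g h l z a d) := by
      intro a b
      rw [ricci_rr hΩ hF hG hz]
      have s1 : ∑ d, ∑ l, Ac h l z d d * Bc g h l z a b = ∑ l, taux h l z * Bc g h l z a b := by
        rw [Finset.sum_comm]
        apply Finset.sum_congr rfl
        intro l _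
        rw [← Finset.sum_mul]
        rfl
      have s2 : ∑ d, ∑ l, Ac h l z d b * Bc g h l z a d
          = ∑ l, ∑ d, Ac h l z d b * Bc g h l z a d := Finset.sum_comm
      rw [s1, s2]
      simp only [mul_add, mul_sub, Finset.mul_sum]
      have s3 : ∑ k, ∑ l, Hi a b * (christoffel g k k l (fst z) * Bc g h l z a b)
          = ∑ k, ∑ l, christoffel g k k l (fst z) * (Hi a b * Bc g h l z a b) := by
        apply Finset.sum_congr rfl
        intro k _
        apply Finset.sum_congr rfl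
        intro l _
        ring
      have s4 : ∑ l, Hi a b * (taux h l z * Bc g h l z a b)
          = ∑ l, taux h l z * (Hi a b * Bc g h l z a b) := by
        apply Finset.sum_congr rfl
        intro l _
        ring
      rw [s3, s4]
    simp only [e0, Finset.sum_add_distrib, Finset.sum_sub_distrib]
    have t1 : ∑ a, ∑ b, ∑ k, Hi a b * pd (Sum.inl k) (fun z => Bc g h k z a b) z
        = ∑ k, (pd (Sum.inl k) (Sx g h k) z + ∑ a, ∑ b, (Hi * Dh h k z * Hi) a b
            * Bc g h k z a b) := by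
      rw [show (∑ a, ∑ b, ∑ k, Hi a b * pd (Sum.inl k) (fun z => Bc g h k z a b) z)
        = ∑ a, ∑ k, ∑ b, Hi a b * pd (Sum.inl k) (fun z => Bc g h k z a b) z from
        Finset.sum_congr rfl fun a _ => Finset.sum_comm, Finset.sum_comm]
      apply Finset.sum_congr rfl
      intro k _
      exact pd_Sx hΩ hF hG hz k
    have t2 : ∑ a, ∑ b, ∑ k, ∑ l, christoffel g k k l (fst z) * (Hi a b * Bc g h l z a b)
        = ∑ k, ∑ l, christoffel g k k l (fst z) * Sx g h l z := by
      have u1 : ∀ k l, christoffel g k k l (fst z) * Sx g h l z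
          = ∑ a, ∑ b, christoffel g k k l (fst z) * (Hi a b * Bc g h l z a b) := by
        intro k l
        unfold Sx
        simp only [Finset.mul_sum]
        rfl
      simp only [u1]
      rw [show (∑ a, ∑ b, ∑ k, ∑ l, christoffel g k k l (fst z) * (Hi a b * Bc g h l z a b))
        = ∑ a, ∑ k, ∑ b, ∑ l, christoffel g k k l (fst z) * (Hi a b * Bc g h l z a b) from
        Finset.sum_congr rfl fun a _ => Finset.sum_comm, Finset.sum_comm]
      apply Finset.sum_congr rfl
      intro k _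
      rw [show (∑ a, ∑ b, ∑ l, christoffel g k k l (fst z) * (Hi a b * Bc g h l z a b))
        = ∑ a, ∑ l, ∑ b, christoffel g k k l (fst z) * (Hi a b * Bc g h l z a b) from
        Finset.sum_congr rfl fun a _ => Finset.sum_comm, Finset.sum_comm]
    have t3 : ∑ a, ∑ b, ∑ k, Hi a b * (∑ c, Bc g h k z b c * Ac h k z c a)
        = ∑ k, ∑ a, ∑ b, Hi a b * (∑ c, Bc g h k z b c * Ac h k z c a) := by
      rw [show (∑ a, ∑ b, ∑ k, Hi a b * (∑ c, Bc g h k z b c * Ac h k z c a))
        = ∑ a, ∑ k, ∑ b, Hi a b * (∑ c, Bc g h k z b c * Ac h k z c a) from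
        Finset.sum_congr rfl fun a _ => Finset.sum_comm, Finset.sum_comm]
    have t4 : ∑ a, ∑ b, ∑ l, taux h l z * (Hi a b * Bc g h l z a b)
        = ∑ l, taux h l z * Sx g h l z := by
      have u1 : ∀ l, taux h l z * Sx g h l z
          = ∑ a, ∑ b, taux h l z * (Hi a b * Bc g h l z a b) := by
        intro l
        unfold Sx
        simp only [Finset.mul_sum]
        rfl
      simp only [u1]
      rw [show (∑ a, ∑ b, ∑ l, taux h l z * (Hi a b * Bc g h l z a b))
        = ∑ a, ∑ l, ∑ b, taux h l z * (Hi a b * Bc g h l z a b) from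
        Finset.sum_congr rfl fun a _ => Finset.sum_comm, Finset.sum_comm]
    have t5 : ∑ a, ∑ b, ∑ l, Hi a b * (∑ d, Ac h l z d b * Bc g h l z a d)
        = ∑ l, ∑ a, ∑ b, Hi a b * (∑ d, Ac h l z d b * Bc g h l z a d) := by
      rw [show (∑ a, ∑ b, ∑ l, Hi a b * (∑ d, Ac h l z d b * Bc g h l z a d))
        = ∑ a, ∑ l, ∑ b, Hi a b * (∑ d, Ac h l z d b * Bc g h l z a d) from
        Finset.sum_congr rfl fun a _ => Finset.sum_comm, Finset.sum_comm]
    have t6 : ∑ k, ∑ a, ∑ b, (Hi * Dh h k z * Hi) a b * Bc g h k z a b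
        = ∑ k, ∑ a, ∑ b, Hi a b * (∑ c, Bc g h k z b c * Ac h k z c a)
          + ∑ k, ∑ a, ∑ b, Hi a b * (∑ d, Ac h k z d b * Bc g h k z a d) := by
      rw [← Finset.sum_add_distrib]
      exact Finset.sum_congr rfl fun k _ => cancel hΩ hF hG hz k
    rw [t1, t2, t3, t4, t5, Finset.sum_add_distrib, t6]
    unfold scal
    ring
  -- assembly
  unfold scal
  simp only [Fintype.sum_sum_type, binv_ll (hG.posDef z hz), binv_lr (hG.posDef z hz),
    binv_rl (hG.posDef z hz), binv_rr (hG.posDef z hz), zero_mul, Finset.sum_const_zero,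
    add_zero, zero_add]
  rw [← hHi, hfib]
  simp only [hbase, mul_sub, Finset.sum_sub_distrib]
  unfold scal
  ring

end chr

end Vale.Agent.P210.TP.S
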